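import Vale.Agent.P221X.TC.Defs
import Vale.Agent.P221X.VT.Sum
import Vale.Agent.P221X.VT.LtoFO
import Vale.Agent.P221X.VT.Mul

/-!
# P221X, block TOP-C: acyclic objects have no `V`-homology

* `EL.unit_v2` : `χ v₂` is a unit;
* `EL.V_zero` : `V χ (W ⊗ N) = 0` for `W` acyclic for the class of height two.
-/

open CategoryTheory MonoidalCategory Limits Pretriangulated PowerSeries MonObj

set_option linter.unusedSectionVars false

universe u

noncomputable section

namespace Vale.Agent.P221X.TC.EL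

open Vale.Agent.P251 Vale.Agent.P251.T Vale.Agent.P251.M Vale.Agent.P251.S Vale.Agent.P251.F
  Vale.Agent.P251.I Vale.Agent.P251.X Vale.Agent.P251.Z Vale.Agent.P257
open Vale.Agent.P251.M.EvenSpheres VT

variable {T : Type u} [Category.{0} T] [Preadditive T] [HasZeroObject T] [HasShift T ℤ]
  [∀ n : ℤ, (shiftFunctor T n).Additive] [Pretriangulated T] [IsTriangulated T]
  [MonoidalCategory T] [SymmetricCategory T] [TensorTriangulated T] [MonoidalClosed T]
  [HasCoproducts.{0} T] [HasProducts.{0} T] [StableCat T]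
  {D : MUData T} {p : ℕ} [Fact p.Prime] {F : Type} [Field F]

/-! ### The even homotopy of modules -/

theorem map_of {Y Y' : T} (f : Y ⟶ Y') (j : ℤ) (x : Se T j ⟶ Y) :
    He.map f (He.of Y j x) = He.of Y' j (x ≫ f) :=
  DirectSum.toAddMonoid_of (β := (stdEven T).Gr Y) _ j x

theorem map_map {X Y Z : T} (f : X ⟶ Y) (g : Y ⟶ Z) (x : He X) :
    He.map g (He.map f x) = He.map (f ≫ g) x := by
  induction x using DirectSum.induction_on with
  | zero => simp only [map_zero]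
  | of j x => exact (congrArg _ (map_of f j x)).trans ((map_of g j _).trans
      ((congrArg _ (Category.assoc _ _ _)).trans (map_of _ j x).symm))
  | add x y hx hy => simp only [map_add, hx, hy]

theorem map_id {X : T} (x : He X) : He.map (𝟙 X) x = x := by
  induction x using DirectSum.induction_on with
  | zero => simp only [map_zero]
  | of j x => exact (map_of _ j x).trans (congrArg _ (Category.comp_id _))
  | add x y hx hy => simp only [map_add, hx, hy]

theorem map_bij {X Y : T} (f : X ⟶ Y) [IsIso f] : Function.Bijective (He.map f) :=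
  Function.bijective_iff_has_inverse.2 ⟨He.map (inv f), fun x => by
    rw [map_map, IsIso.hom_inv_id, map_id], fun x => by rw [map_map, IsIso.inv_hom_id, map_id]⟩

theorem sm_of {Y : T} (a : ModStr D.R Y) {i j k : ℤ} (h : i + j = k) (z : Se T i ⟶ D.R)
    (y : Se T j ⟶ Y) :
    sm a (HRing.of (stdEven T) D.R i z) (He.of Y j y) = He.of Y k (gsmul a h z y) :=
  of_smul_of a h z y

theorem sm_add {Y : T} (a : ModStr D.R Y) (z : HRing (stdEven T) D.R) (x y : He Y) :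
    sm a z (x + y) = sm a z x + sm a z y :=
  letI := hModule (E := stdEven T) a
  smul_add z x y

theorem add_sm {Y : T} (a : ModStr D.R Y) (z z' : HRing (stdEven T) D.R) (x : He Y) :
    sm a (z + z') x = sm a z x + sm a z' x :=
  letI := hModule (E := stdEven T) a
  add_smul z z' x

theorem sm_zero {Y : T} (a : ModStr D.R Y) (z : HRing (stdEven T) D.R) : sm a z 0 = 0 :=
  letI := hModule (E := stdEven T) a
  smul_zero z

theorem zero_sm {Y : T} (a : ModStr D.R Y) (x : He Y) : sm a 0 x = 0 :=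
  letI := hModule (E := stdEven T) a
  zero_smul _ x

theorem one_sm {Y : T} (a : ModStr D.R Y) (x : He Y) : sm a 1 x = x :=
  letI := hModule (E := stdEven T) a
  one_smul _ x

theorem mul_sm {Y : T} (a : ModStr D.R Y) (z z' : HRing (stdEven T) D.R) (x : He Y) :
    sm a (z * z') x = sm a z (sm a z' x) :=
  letI := hModule (E := stdEven T) a
  mul_smul z z' x

theorem map_sm {Y Y' : T} {a : ModStr D.R Y} {a' : ModStr D.R Y'} {f : Y ⟶ Y'}
    (hf : a.IsLinear a' f) (z : HRing (stdEven T) D.R) (x : He Y) :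
    He.map f (sm a z x) = sm a' z (He.map f x) := by
  induction z using DirectSum.induction_on with
  | zero => rw [zero_sm, zero_sm, map_zero]
  | add z z' h h' => rw [add_sm, add_sm, map_add, h, h']
  | of i z =>
    induction x using DirectSum.induction_on with
    | zero => rw [sm_zero, map_zero, sm_zero]
    | add x y hx hy => rw [sm_add, map_add, map_add, sm_add, hx, hy]
    | of j x =>
      change He.map f (sm a (HRing.of _ _ i z) (He.of Y j x)) =
        sm a' (HRing.of _ _ i z) (He.map f (He.of Y j x))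
      rw [sm_of a rfl, map_of, map_of, sm_of a' rfl, gsmul_comp _ _ hf]

theorem fw_of {V : T} {d : ℤ} (f : Se T d ⊗ V ⟶ V) (Z : T) (j : ℤ) (x : Se T j ⟶ Z ⊗ V) :
    fw f Z (He.of _ j x) = He.of (Z ⊗ V) (d + j) ((stdEven T).ext rfl (𝟙 (Se T d)) x ≫
      (α_ _ _ _).inv ≫ (β_ (Se T d) Z).hom ▷ V ≫ (α_ _ _ _).hom ≫ Z ◁ f) :=
  DirectSum.toAddMonoid_of (β := (stdEven T).Gr (Z ⊗ V)) _ j x

theorem map_fw {V : T} {d : ℤ} (f : Se T d ⊗ V ⟶ V) {Z Z' : T} (g : Z ⟶ Z') (x : He (Z ⊗ V)) :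
    He.map (g ▷ V) (fw f Z x) = fw f Z' (He.map (g ▷ V) x) := by
  induction x using DirectSum.induction_on with
  | zero => simp only [map_zero]
  | add x y hx hy => simp only [map_add, hx, hy]
  | of j x =>
    change He.map (g ▷ V) (fw f Z (He.of _ j x)) = fw f Z' (He.map (g ▷ V) (He.of _ j x))
    rw [fw_of, map_of, map_of, fw_of, ext_comp_right]
    congr 1
    simp only [Category.assoc]
    rw [whisker_exchange, ← associator_naturality_left_assoc, ← comp_whiskerRight_assoc,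
      ← BraidedCategory.braiding_naturality_right, comp_whiskerRight_assoc,
      associator_inv_naturality_middle_assoc]

theorem fw_mod {V : T} {d : ℤ} {f : Se T d ⊗ V ⟶ V} {w : Se T d ⟶ D.R}
    (h : f ≫ (λ_ V).inv ≫ η[D.R] ▷ V = w ▷ V) {Z : T} (a : ModStr D.R Z) (x : He (Z ⊗ V)) :
    fw f Z x = sm (a.tensorRight V) (HRing.of (stdEven T) D.R d w) x := by
  induction x using DirectSum.induction_on with
  | zero => rw [map_zero, sm_zero]
  | add x y hx hy => rw [map_add, sm_add, hx, hy]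
  | of j x =>
    change fw f Z (He.of _ j x) = sm _ _ (He.of _ j x)
    rw [fw_of, sm_of _ rfl, TD.whiskerLeft_eq a h, Iso.hom_inv_id_assoc, ← comp_whiskerRight,
      TD.mulR, SymmetricCategory.symmetry_assoc, gsmul, ← Category.id_comp w, ext_comp_left,
      Category.id_comp, Category.assoc, comp_whiskerRight, ← associator_inv_naturality_left_assoc]
    rfl

theorem tors_mod {V : T} {d : ℤ} {f : Se T d ⊗ V ⟶ V} {w : Se T d ⟶ D.R}
    (h : f ≫ (λ_ V).inv ≫ η[D.R] ▷ V = w ▷ V) {Z : T} (a : ModStr D.R Z) (hZ : TC.Tors f Z)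
    (x : He (Z ⊗ V)) :
    ∃ n : ℕ, sm (a.tensorRight V) (HRing.of (stdEven T) D.R d w ^ n) x = 0 := by
  let e : Z⟦(0 : ℤ)⟧ ≅ Z := (shiftFunctorZero T ℤ).app Z
  obtain ⟨y, rfl⟩ := (map_bij (e.hom ▷ V)).2 x
  obtain ⟨n, hn⟩ := hZ 0 y
  refine ⟨n, ?_⟩
  have h1 : ∀ (m : ℕ) (y : He (Z⟦(0 : ℤ)⟧ ⊗ V)), He.map (e.hom ▷ V) ((fw f _)^[m] y) =
      sm (a.tensorRight V) (HRing.of (stdEven T) D.R d w ^ m) (He.map (e.hom ▷ V) y) := by
    intro m
    induction m with
    | zero => intro y; rw [pow_zero, one_sm]; rfl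
    | succ m ih =>
      intro y
      rw [Function.iterate_succ_apply, ih, map_fw, fw_mod h a, ← mul_sm, pow_succ]
  rw [← h1, hn, map_zero]

theorem lin_assoc (X Y : T) : ((ModStr.free D.R X).tensorRight Y).IsLinear
    (ModStr.free D.R (X ⊗ Y)) (α_ D.R X Y).hom := by
  change ((α_ _ _ _).inv ≫ ((α_ _ _ _).inv ≫ μ[D.R] ▷ X) ▷ Y) ≫ (α_ D.R X Y).hom =
    D.R ◁ (α_ D.R X Y).hom ≫ (α_ _ _ _).inv ≫ μ[D.R] ▷ (X ⊗ Y)
  monoidal

/-- transport of torsion to `MP` -/
theorem MP_tors {X Y : T} {z : HRing (stdEven T) D.R} (h : ∀ x : He ((D.R ⊗ X) ⊗ Y),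
    ∃ n : ℕ, sm ((ModStr.free D.R X).tensorRight Y) (z ^ n) x = 0)
    (m : MP (stdEven T) D.R (X ⊗ Y)) : ∃ n : ℕ, z ^ n • m = 0 := by
  obtain ⟨y, hy⟩ := (map_bij (α_ D.R X Y).hom).2 m
  obtain ⟨n, hn⟩ := h y
  refine ⟨n, ?_⟩
  have h1 := map_sm (lin_assoc X Y) (z ^ n) y
  rw [hn, map_zero, hy] at h1
  exact h1.symm

/-! ### The multiplication by `p` -/

theorem p_iM (W : TD.Twr D p) : (p : ℤ) • W.iM = 0 := by
  have : ((p : ℤ) • 𝟙 (𝟙_ T)) ≫ W.iM = 0 := comp_distTriang_mor_zero₁₂ _ W.distM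
  simpa using this

theorem zsmul_left (n : ℤ) (X : T) {Y Y' : T} (f : Y ⟶ Y') : X ◁ (n • f) = n • X ◁ f :=
  (tensorLeft X).map_zsmul

theorem zsmul_right (n : ℤ) (X : T) {Y Y' : T} (f : Y ⟶ Y') : (n • f) ▷ X = n • f ▷ X :=
  (tensorRight X).map_zsmul

theorem p_M (W : TD.Twr D p) : (p : ℤ) • 𝟙 W.M = 0 := by
  have h : ((p : ℤ) • W.iM) ▷ W.M ≫ W.m1.m = (p : ℤ) • (λ_ W.M).hom := by
    rw [zsmul_right, Preadditive.zsmul_comp, W.m1.left_unit]
  rw [p_iM, MonoidalPreadditive.zero_whiskerRight, zero_comp] at h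
  rw [← (λ_ W.M).inv_hom_id, ← Preadditive.comp_zsmul, ← h, comp_zero]

theorem p_left {Y : T} (h : (p : ℤ) • 𝟙 Y = 0) (X : T) : (p : ℤ) • 𝟙 (X ⊗ Y) = 0 := by
  rw [← whiskerLeft_id, ← zsmul_left, h, MonoidalPreadditive.whiskerLeft_zero]

theorem p_right {Y : T} (h : (p : ℤ) • 𝟙 Y = 0) (X : T) : (p : ℤ) • 𝟙 (Y ⊗ X) = 0 := by
  rw [← id_whiskerRight, ← zsmul_right, h, MonoidalPreadditive.zero_whiskerRight]

theorem MP_zsmul {X Y : T} (n : ℤ) (f : X ⟶ Y) (m : MP (stdEven T) D.R X) :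
    MP.map (stdEven T) D.R (n • f) m = n • MP.map (stdEven T) D.R f m := by
  induction m using MP.ind with
  | zero => simp only [map_zero, smul_zero]
  | add x y hx hy => simp only [map_add, smul_add, hx, hy]
  | of j x => rw [MP.map_of, MP.map_of, zsmul_left, Preadditive.comp_zsmul, map_zsmul]

theorem MP_p {X : T} (h : (p : ℤ) • 𝟙 X = 0) (m : MP (stdEven T) D.R X) :
    (p : HRing (stdEven T) D.R) • m = 0 := by
  have h1 := MP_zsmul (D := D) (p : ℤ) (𝟙 X) m
  rw [h, MP_map_zero, MP.map_id, LinearMap.id_apply, natCast_zsmul] at h1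
  rw [Nat.cast_smul_eq_nsmul, ← h1]

/-! ### The vanishing -/

theorem vA_eq (i : ℕ) : vA D p i = vv p i D.law := (D.vel_spec p i).symm

theorem chi_vA (S : TS D p F) (i : ℕ) : S.χ (vA D p i) = vv p i (Qt.FO p F) := by
  rw [vA_eq, ← vv_map, S.law]

theorem unit_FO (hF : Nat.card F = p ^ 2) : IsUnit (vv p 2 (Qt.FO p F)) := by
  obtain ⟨L, ⟨S⟩⟩ := exists_lto (p := p) hF
  have h1 : IsUnit (S.r 0 (vv p 2 (Qt.FO p F))) := by
    rw [← vv_map, S.law]
    exact L.isUnit_vv_FE 0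
  obtain ⟨g, hg⟩ := h1.exists_right_inv
  obtain ⟨g, rfl⟩ := S.surj 0 g
  have h2 : vv p 2 (Qt.FO p F) * g - 1 ∈ RingHom.ker (S.r 0) := by
    rw [RingHom.mem_ker, map_sub, map_mul, hg, map_one, sub_self]
  have h3 := S.ker 0 h2
  rw [zero_add, pow_one, Ih_FO hF, Ideal.mem_span_singleton, X_dvd_iff, map_sub, map_mul, map_one,
    sub_eq_zero] at h3
  exact isUnit_iff_constantCoeff.2 (IsUnit.of_mul_eq_one _ h3)

theorem unit_v2 (S : TS D p F) (hF : Nat.card F = p ^ 2) : IsUnit (S.χ (vA D p 2)) := by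
  rw [chi_vA]
  exact unit_FO hF

theorem V1_zero (S : TS D p F) (hF : Nat.card F = p ^ 2) {Y : T} (hY : Acyclic S.Kh Y)
    (x : V S.χ (Y ⊗ S.W.V1)) : x = 0 := by
  have h0 : IsZero ((D.R ⊗ Y) ⊗ S.T2) := IsZero.of_iso hY
    (α_ _ _ _ ≪≫ whiskerLeftIso D.R (β_ _ _) ≪≫ (α_ _ _ _).symm)
  have h1 := MP_tors (tors_mod S.W.hur2' (ModStr.free D.R Y) ((S.tel2 _).1 h0))
  induction x using BC.ind with
  | zero => rfl
  | add x y hx hy => rw [hx, hy, add_zero]
  | smul b m =>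
    obtain ⟨n, hn⟩ := h1 m
    have h2 : S.χ (vA D p 2 ^ n) • V.mk S.χ _ m = 0 := by
      rw [← V.mk_smul]
      exact (congrArg _ hn).trans (map_zero _)
    rw [map_pow, ((unit_v2 S hF).pow n).smul_eq_zero] at h2
    rw [show BC.mk S.χ m = 0 from h2, smul_zero]

/-- a self map which is `w` in homology acts on `V` by `χ w` -/
theorem map_hur_per {B : Type} [CommRing B] (χ : HRing (stdEven T) D.R →+* B) {d : ℤ} {Y : T}
    {g : Se T d ⊗ Y ⟶ Y} {w : Se T d ⟶ D.R} (h : g ≫ FM.unit D.R Y = w ▷ Y) (x : V χ Y) :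
    V.map χ g (V.per χ d Y x) = χ (HRing.of (stdEven T) D.R d w) • x := by
  rw [← V.kmap_unit, h, ← V.mul_map, V.per_apply, ← tensorHom_id, V.map_cross, V.map_id,
    LinearMap.id_apply, ← V.hur_eq, V.mul_cross, V.eps_hur]

/-- the shuffle -/
def shuf (A Y V : T) : A ⊗ (Y ⊗ V) ≅ Y ⊗ (A ⊗ V) :=
  (α_ _ _ _).symm ≪≫ whiskerRightIso (β_ A Y) V ≪≫ α_ _ _ _

theorem shuf_nat {A A' : T} (w : A ⟶ A') (Y V : T) :
    (shuf A Y V).hom ≫ Y ◁ (w ▷ V) = w ▷ (Y ⊗ V) ≫ (shuf A' Y V).hom := by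
  simp only [shuf, Iso.trans_hom, Iso.symm_hom, whiskerRightIso_hom, Category.assoc]
  rw [← associator_naturality_middle, ← comp_whiskerRight_assoc,
    ← BraidedCategory.braiding_naturality_left, comp_whiskerRight_assoc,
    associator_inv_naturality_left_assoc]

theorem hur_left {A V : T} {g : A ⊗ V ⟶ V} {w : A ⟶ D.R} (h : g ≫ FM.unit D.R V = w ▷ V)
    (Y : T) : ((shuf A Y V).hom ≫ Y ◁ g) ≫ FM.unit D.R (Y ⊗ V) = w ▷ (Y ⊗ V) := by
  have h1 : FM.unit D.R (Y ⊗ V) ≫ (shuf D.R Y V).hom = Y ◁ FM.unit D.R V := by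
    rw [FM.unit, FM.unit, Category.assoc, ← shuf_nat, whiskerLeft_comp, ← Category.assoc]
    congr 1
    simp [shuf]
  rw [← cancel_mono (shuf D.R Y V).hom, Category.assoc, h1, Category.assoc, ← whiskerLeft_comp, h,
    shuf_nat]

variable {Fc : SpaceFunctor T} {e : Fc.S.obj CCF ≅ (stdEven T).L}

theorem tors_N (S : TS D p F) (hL : LocF S) (W : T) :
    VT.Tors D p 2 (MP (stdEven T) D.R (W ⊗ S.N)) :=
  tors_two (MP_p (p_left (p_left (p_M S.W) _) _)) fun m => by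
    rw [← vA_eq]
    exact MP_tors (hL.tors _ _) m

/-- **Acyclic objects have no `V`-homology.** -/
theorem V_zero (S : TS D p F) (H : MUUniv e D) (hD : P261Z.T3.MUAt D p)
    (hF : Nat.card F = p ^ 2) (hL : LocF S) {W : T} (hW : Acyclic S.Kh W)
    (x : V S.χ (W ⊗ S.N)) : x = 0 := by
  have hT := inv_rot_of_distTriang _ (tens_dist W (tens_dist S.N' S.W.dist1))
  have h0 : ∀ y : V S.χ ((W ⊗ (S.N' ⊗ S.W.V1))⟦(-1 : ℤ)⟧), y = 0 := fun y => by
    let i : (W ⊗ (S.N' ⊗ S.W.V1))⟦(-1 : ℤ)⟧ ≅ (W⟦(-1 : ℤ)⟧ ⊗ S.N') ⊗ S.W.V1 :=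
      (((tensorRight (S.N' ⊗ S.W.V1)).commShiftIso (-1 : ℤ)).app W).symm ≪≫ (α_ _ _ _).symm
    apply (V.mapIso S.χ i).injective
    rw [map_zero]
    exact V1_zero S hF ((hW.shift _).tensor_right _) _
  have h1 : ∀ y, V.map S.χ (W ◁ S.N' ◁ S.W.f1) y = 0 → y = 0 := fun y hy => by
    obtain ⟨z, hz⟩ := V.exact_FO H hD hF S.law hT (tors_N S hL W) y hy
    rw [h0 z] at hz
    exact hz.symm.trans (LinearMap.map_zero _)
  have h2 : ∀ y : V S.χ (W ⊗ S.N), S.χ (vA D p 1) • y = 0 → y = 0 := fun y hy => by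
    have h3 := map_hur_per S.χ (hur_left (hur_left (D := D) S.W.hur1' S.N') W) y
    rw [whiskerLeft_comp, ← Category.assoc, ← V.map_map] at h3
    have h4 := h1 _ (h3.trans hy)
    rwa [map_eq_zero_iff _ (V.map_bijective S.χ _).1, map_eq_zero_iff _ (V.per S.χ _ _).injective]
      at h4
  have h5 : ∀ (n : ℕ) (y : V S.χ (W ⊗ S.N)), S.χ (vA D p 1) ^ n • y = 0 → y = 0 := by
    intro n
    induction n with
    | zero => intro y hy; rwa [pow_zero, one_smul] at hy
    | succ n ih => intro y hy; exact ih y (h2 _ (by rwa [← mul_smul, ← pow_succ']))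
  induction x using BC.ind with
  | zero => rfl
  | add x y hx hy => rw [hx, hy, add_zero]
  | smul b m =>
    obtain ⟨n, hn⟩ := MP_tors (hL.tors _ _) m
    have h6 : V.mk S.χ _ m = 0 := h5 n _ (by
      rw [← map_pow, ← V.mk_smul]
      exact (congrArg _ hn).trans (map_zero _))
    rw [show BC.mk S.χ m = 0 from h6, smul_zero]

/-! ### The homology of the local Moore spectrum -/

theorem isLoc {A M P : Type*} [CommRing A] [AddCommGroup M] [Module A M] [AddCommGroup P]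
    [Module A P] (v : A) (f : M →ₗ[A] P) (h1 : Function.Bijective fun y : P => v • y)
    (h2 : Function.Injective f) (h3 : ∀ y, ∃ (n : ℕ) (z : M), v ^ n • y = f z) :
    IsLocalizedModule (Submonoid.powers v) f := by
  refine ⟨?_, fun y => ?_, fun h => ⟨1, by rw [h2 h]⟩⟩
  · rintro ⟨_, n, rfl⟩
    change IsUnit (algebraMap A (Module.End A P) (v ^ n))
    rw [map_pow]
    exact ((Module.End.isUnit_iff _).2 h1).pow n
  · obtain ⟨n, z, hz⟩ := h3 y
    exact ⟨(z, ⟨_, n, rfl⟩), hz⟩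

theorem exists_equiv {A P Q : Type*} [CommRing A] [AddCommGroup P] [Module A P] [AddCommGroup Q]
    [Module A Q] (v : A) (m : P) (m' : Q) (hP : Function.Bijective fun y : P => v • y)
    (hQ : Function.Bijective fun y : Q => v • y) (sP : ∀ y, ∃ (n : ℕ) (z : A), v ^ n • y = z • m)
    (sQ : ∀ y, ∃ (n : ℕ) (z : A), v ^ n • y = z • m') (h : ∀ z : A, z • m = 0 ↔ z • m' = 0) :
    ∃ e : P ≃ₗ[A] Q, e m = m' := by
  let I := LinearMap.ker (LinearMap.toSpanSingleton A P m)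
  let f := I.liftQ (LinearMap.toSpanSingleton A P m) le_rfl
  let g := I.liftQ (LinearMap.toSpanSingleton A Q m') fun z hz => (h z).1 hz
  have hf := isLoc v f hP (LinearMap.ker_eq_bot.1 (Submodule.ker_liftQ_eq_bot _ _ _ le_rfl))
    fun y => (sP y).imp fun n ⟨z, hz⟩ => ⟨I.mkQ z, hz⟩
  have hg := isLoc v g hQ (LinearMap.ker_eq_bot.1
    (Submodule.ker_liftQ_eq_bot _ _ _ fun z hz => (h z).2 hz))
    fun y => (sQ y).imp fun n ⟨z, hz⟩ => ⟨I.mkQ z, hz⟩
  refine ⟨IsLocalizedModule.linearEquiv (Submonoid.powers v) f g, ?_⟩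
  have h1 := IsLocalizedModule.linearEquiv_apply (Submonoid.powers v) f g (I.mkQ 1)
  have h2 : f (I.mkQ 1) = m := one_smul A m
  have h3 : g (I.mkQ 1) = m' := one_smul A m'
  rwa [h2, h3] at h1

theorem smul_one_of {Y : T} (i : 𝟙_ T ⟶ Y) (j : ℤ) (a : Se T j ⟶ D.R) :
    HRing.of (stdEven T) D.R j a • MP.map (stdEven T) D.R i (MP.one _ D.R) =
      MP.of (stdEven T) D.R Y j (a ≫ (ρ_ D.R).inv ≫ D.R ◁ i) := by
  rw [← map_smul, MP.one, MP.smul_of (k := j) (add_zero j), gsmul_eq_crossG, unitors_equal,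
    crossG_one_right, MP.map_of, Category.assoc]

theorem smul_one_inj {z : HRing (stdEven T) D.R} (h : z • MP.one (stdEven T) D.R = 0) : z = 0 := by
  have h1 : ∀ z : HRing (stdEven T) D.R, He.map (ρ_ D.R).hom (z • MP.one (stdEven T) D.R :
      MP (stdEven T) D.R _) = z := by
    intro z
    induction z using DirectSum.induction_on with
    | zero => rw [zero_smul]; exact map_zero _
    | add x y hx hy => rw [add_smul]; exact (map_add _ _ _).trans (by rw [hx, hy])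
    | of j a =>
      have h2 := smul_one_of (D := D) (𝟙 _) j a
      rw [MP.map_id, LinearMap.id_apply, whiskerLeft_id, Category.comp_id] at h2
      refine (congrArg _ h2).trans ((map_of _ j _).trans ?_)
      rw [Category.assoc, Iso.inv_hom_id, Category.comp_id]
  rw [← h1 z, h]
  exact map_zero _

theorem span_M (W : TD.Twr D p) (hD : P261Z.T3.MUAt D p) (x : MP (stdEven T) D.R W.M) :
    ∃ z : HRing (stdEven T) D.R, x = z • MP.map (stdEven T) D.R W.iM (MP.one _ D.R) := by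
  induction x using MP.ind with
  | zero => exact ⟨0, (zero_smul _ _).symm⟩
  | add x y hx hy =>
    obtain ⟨z, rfl⟩ := hx
    obtain ⟨z', rfl⟩ := hy
    exact ⟨z + z', (add_smul _ _ _).symm⟩
  | of j x =>
    obtain ⟨a, ha⟩ : ∃ a : Se T j ⟶ 𝟙_ T ⊗ D.R,
        x ≫ (λ_ D.R).inv ▷ W.M = a ≫ (ρ_ _).inv ≫ (𝟙_ T ⊗ D.R) ◁ W.iM := by
      obtain ⟨-, a, -, -, ha⟩ := hD.surj 0 W.M W.iM W.δM W.distM j (x ≫ (λ_ D.R).inv ▷ W.M)
      exact ⟨a, ha⟩
    refine ⟨HRing.of _ _ j (a ≫ (λ_ D.R).hom), ?_⟩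
    rw [smul_one_of]
    congr 1
    have h2 := congrArg (· ≫ (λ_ D.R).hom ▷ W.M) ha
    simp only [Category.assoc, inv_hom_whiskerRight, Category.comp_id] at h2
    rw [h2, Category.assoc, rightUnitor_inv_naturality_assoc (λ_ D.R).hom, ← whisker_exchange]

theorem ann_M (W : TD.Twr D p) (z : HRing (stdEven T) D.R) :
    z • MP.map (stdEven T) D.R W.iM (MP.one _ D.R) = 0 ↔ z ∈ VT.JJ D p 1 1 := by
  have h0 : VT.JJ D p 1 1 = Ideal.span {(p : HRing (stdEven T) D.R)} := by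
    rw [VT.JJ, pow_one, sup_eq_left]
    refine Ideal.span_le.2 ?_
    rintro _ ⟨i, hi, rfl⟩
    obtain rfl : i = 0 := by omega
    rw [vv_zero]
    exact Ideal.mem_span_singleton_self _
  rw [h0, Ideal.mem_span_singleton']
  constructor
  · intro h
    rw [← map_smul] at h
    obtain ⟨y, hy⟩ := MP_exact W.distM _ h
    obtain ⟨c, rfl⟩ := MP.exists_smul_one y
    refine ⟨c, sub_eq_zero.1 (smul_one_inj ?_)⟩
    rw [MP_zsmul, MP.map_id, LinearMap.id_apply, natCast_zsmul] at hy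
    rw [sub_smul, ← hy, mul_comm, mul_smul, Nat.cast_smul_eq_nsmul, sub_self]
  · rintro ⟨c, rfl⟩
    rw [mul_smul, MP_p (p_M W), smul_zero]

variable (S : TS D p F)

theorem isLocal_LS (hL : LocF S) {Y : T} (a : ModStr D.R Y) (hp : (p : ℤ) • 𝟙 Y = 0) :
    IsLocal S.Ke (Y ⊗ S.LS) :=
  hL.loc _ (a.tensorRight _) (p_right hp _)
    (IsZero.of_iso ((tensorLeft Y).map_isZero (hL.zero1 _)) (α_ _ _ _))

theorem lin_toL {Y : T} (a : ModStr D.R Y) : a.IsLinear (a.tensorRight S.LS) (S.toL Y) := by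
  change a.act ≫ (ρ_ Y).inv ≫ Y ◁ _ = D.R ◁ ((ρ_ Y).inv ≫ Y ◁ _) ≫ (α_ _ _ _).inv ≫ a.act ▷ _
  rw [rightUnitor_inv_naturality_assoc, ← whisker_exchange]
  monoidal

theorem exists_iso (hL : LocF S) (X : T) (hp : (p : ℤ) • 𝟙 X = 0) :
    ∃ i : S.Le.L.obj (D.R ⊗ X) ≅ D.R ⊗ (X ⊗ S.LS), S.Le.u _ ≫ i.hom = D.R ◁ S.toL X ∧
      (S.Le.mod (ModStr.free D.R X)).IsLinear (ModStr.free D.R _) i.hom := by
  have h1 := isLocal_LS S hL (ModStr.free D.R X) (p_left hp _)
  have h2 : S.Le.u _ ≫ (S.Le.isoOfKEq h1 _ (hL.keq _) ≪≫ α_ _ _ _).hom = D.R ◁ S.toL X := by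
    rw [Iso.trans_hom, LocFunctor.u_isoOfKEq_assoc, TS.toL, TS.toL]
    monoidal
  refine ⟨_, h2, ?_⟩
  apply ((S.Le.keq _).whiskerLeft D.R).hom_ext (h1.of_iso (α_ _ _ _))
  rw [LocFunctor.whiskerLeft_u_mod_act_assoc, h2, ← whiskerLeft_comp_assoc, h2]
  exact MP.isLinear_whiskerLeft _

theorem he_map {X Y : T} (f : X ⟶ Y) (m : MP (stdEven T) D.R X) :
    He.map (D.R ◁ f) m = MP.map (stdEven T) D.R f m := by
  induction m using MP.ind with
  | zero => exact (map_zero _).trans (map_zero _).symm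
  | add x y hx hy =>
    exact (map_add _ _ _).trans ((congrArg₂ (· + ·) hx hy).trans (map_add _ _ _).symm)
  | of j x => exact (map_of _ j x).trans (MP.map_of f j x).symm

/-- for `X` killed by `p` the homology of `X ⊗ LS` is obtained by inverting `v₁` -/
theorem loc_MP (hL : LocF S) (X : T) (hp : (p : ℤ) • 𝟙 X = 0) :
    (Function.Bijective fun y : MP (stdEven T) D.R (X ⊗ S.LS) => vA D p 1 • y) ∧
      (∀ y : MP (stdEven T) D.R (X ⊗ S.LS), ∃ (n : ℕ) (x : MP (stdEven T) D.R X),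
        vA D p 1 ^ n • y = MP.map (stdEven T) D.R (S.toL X) x) ∧
      (∀ x : MP (stdEven T) D.R X, MP.map (stdEven T) D.R (S.toL X) x = 0 →
        ∃ n : ℕ, vA D p 1 ^ n • x = 0) ∧
      (OddZero (D.R ⊗ X) → OddZero (D.R ⊗ (X ⊗ S.LS))) := by
  obtain ⟨i, h1, h2⟩ := exists_iso S hL X hp
  have h3 := p_left hp D.R
  have h4 := map_bij i.hom
  refine ⟨?_, fun y => ?_, fun x hx => hL.ker _ (ModStr.free D.R X) h3 x (h4.1 ?_),
    fun h => (hL.odd _ (ModStr.free D.R X) h3 h).of_iso i⟩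
  · have h5 : (sm (ModStr.free D.R (X ⊗ S.LS)) (vA D p 1)) ∘ He.map i.hom =
        He.map i.hom ∘ sm (S.Le.mod (ModStr.free D.R X)) (vA D p 1) :=
      funext fun y => (map_sm h2 _ y).symm
    exact (Function.Bijective.of_comp_iff _ h4).1 (h5 ▸ h4.comp (hL.inv _ _ h3).2)
  · obtain ⟨y, rfl⟩ := h4.2 y
    obtain ⟨n, x, hx⟩ := hL.surj _ (ModStr.free D.R X) h3 y
    refine ⟨n, x, (map_sm h2 _ y).symm.trans ?_⟩
    rw [hx, map_map, h1]
    exact he_map _ x
  · refine (map_map _ _ _).trans ?_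
    rw [h1, map_zero]
    exact (he_map _ x).trans hx

theorem oddM (hD : P261Z.T3.MUAt D p) (hL : LocF S) : OddZero (D.R ⊗ (S.W.M ⊗ S.LS)) :=
  (loc_MP S hL _ (p_M S.W)).2.2.2
    ((P261Z.T3.oddZero_XAt D hD S.W.distM 0).of_iso (whiskerRightIso (λ_ D.R) _))

/-- **The homology of the local Moore spectrum.** -/
theorem exists_nn (hD : P261Z.T3.MUAt D p) (hL : LocF S) :
    ∃ nn : MP (stdEven T) D.R (S.W.M ⊗ S.LS) ≃+ NN p 1 1,
      (∀ (z : Laz) x, nn (L0 D z • x) = algebraMap (QN p 1 1) (NN p 1 1)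
        (Ideal.Quotient.mk _ z) * nn x) ∧
      nn (MP.map _ D.R (S.W.iM ≫ S.toL S.W.M) (MP.one _ D.R)) = 1 := by
  obtain ⟨q, hq, hl⟩ := exists_quot (h := 1) hD 1
  obtain ⟨h1, h2, h3, -⟩ := loc_MP S hL _ (p_M S.W)
  let q' := q.comp (Ideal.Quotient.mk _)
  have hq' : ∀ z, q' (L0 D z) = Ideal.Quotient.mk _ z := fun z => by
    rw [L0, Laz.map_lift, hl, Laz.lift_map_univ]
  have hv : q' (vA D p 1) = Ideal.Quotient.mk _ (Laz.v p 1) := by rw [vA_eq, ← L0_v, hq']
  let π := (algebraMap (QN p 1 1) (NN p 1 1)).comp q'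
  let _ : Module (HRing (stdEven T) D.R) (NN p 1 1) := Module.compHom _ π
  have hs : ∀ (z : HRing (stdEven T) D.R) (y : NN p 1 1), z • y = π z * y := fun _ _ => rfl
  have hu : IsUnit (π (vA D p 1)) := by
    rw [RingHom.comp_apply, hv]
    exact IsLocalization.Away.algebraMap_isUnit _
  obtain ⟨e, he⟩ := exists_equiv (vA D p 1)
    (MP.map _ D.R (S.W.iM ≫ S.toL S.W.M) (MP.one (stdEven T) D.R)) (1 : NN p 1 1) h1
    (IsUnit.isUnit_iff_mulLeft_bijective.1 hu) (fun y => by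
      obtain ⟨n, x, hx⟩ := h2 y
      obtain ⟨z, rfl⟩ := span_M S.W hD x
      exact ⟨n, z, by rw [hx, map_smul, MP_map_map]⟩) (fun y => by
      obtain ⟨n, x, hx⟩ := IsLocalization.Away.surj (Ideal.Quotient.mk (Laz.IJ p 1 1) (Laz.v p 1)) y
      obtain ⟨z, rfl⟩ := Ideal.Quotient.mk_surjective x
      refine ⟨n, L0 D z, ?_⟩
      rw [hs, hs, _root_.mul_one, map_pow, RingHom.comp_apply, hv, RingHom.comp_apply, hq', ← hx,
        mul_comm]) (fun z => by
      rw [hs, _root_.mul_one, RingHom.comp_apply, IsLocalization.map_eq_zero_iff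
        (Submonoid.powers (Ideal.Quotient.mk (Laz.IJ p 1 1) (Laz.v p 1))),
        ← MP_map_map, ← map_smul]
      have h4 : ∀ n : ℕ, vA D p 1 ^ n • z • MP.map (stdEven T) D.R S.W.iM (MP.one _ D.R) = 0 ↔
          Ideal.Quotient.mk (Laz.IJ p 1 1) (Laz.v p 1) ^ n * q' z = 0 := fun n => by
        rw [← mul_smul, ann_M, ← hv, ← map_pow, ← map_mul, RingHom.comp_apply,
          map_eq_zero_iff _ hq.1, Ideal.Quotient.eq_zero_iff_mem]
      constructor
      · intro h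
        obtain ⟨n, hn⟩ := h3 _ h
        exact ⟨⟨_, n, rfl⟩, (h4 n).1 hn⟩
      · rintro ⟨⟨_, n, rfl⟩, hn⟩
        have h5 := congrArg (MP.map (stdEven T) D.R (S.toL S.W.M)) ((h4 n).2 hn)
        rw [map_smul, map_zero] at h5
        have h6 : ∀ (n : ℕ) (y : MP (stdEven T) D.R (S.W.M ⊗ S.LS)), vA D p 1 ^ n • y = 0 →
            y = 0 := by
          intro n
          induction n with
          | zero => intro y hy; rwa [pow_zero, one_smul] at hy
          | succ n ih =>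
            intro y hy
            refine ih y (h1.1 ?_)
            beta_reduce
            rwa [← mul_smul, ← pow_succ', smul_zero]
        exact h6 n _ h5)
  refine ⟨e.toAddEquiv, fun z x => ?_, he⟩
  exact (e.map_smul _ x).trans (by rw [hs, RingHom.comp_apply, hq']; rfl)

end Vale.Agent.P221X.TC.EL
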