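import Vale.Agent.P221X.TC.LocL
import Vale.Agent.P221X.TA.Out
import Vale.Agent.P251.S.TelTens
import Vale.Agent.P251.S.Coprod

/-!
# P221X, row TC-TS: the telescope of a self map `f : S^{2d} ⊗ V ⟶ V`

* `exists_stel f : Nonempty (STel f)`; `STel.iff : IsZero (Z ⊗ obj) ↔ Tors f Z`, `STel.tors0`,
  `STel.iso`;
* `He.map_*`, `He.exact`, `sm_*`, `fw_eq_sm` : the even homotopy of modules.
-/

open CategoryTheory MonoidalCategory Limits Pretriangulated

set_option linter.unusedSectionVars false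

universe u

noncomputable section

namespace Vale.Agent.P221X.TC

open Vale.Agent.P251 Vale.Agent.P251.T Vale.Agent.P251.M Vale.Agent.P251.S Vale.Agent.P251.I
open Vale.Agent.P251.M.EvenSpheres

variable {T : Type u} [Category.{0} T] [Preadditive T] [HasZeroObject T] [HasShift T ℤ]
  [∀ n : ℤ, (shiftFunctor T n).Additive] [Pretriangulated T] [IsTriangulated T]
  [MonoidalCategory T] [SymmetricCategory T] [TensorTriangulated T] [MonoidalClosed T]
  [HasCoproducts.{0} T] [HasProducts.{0} T] [StableCat T]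

/-! ### The even homotopy -/

namespace He

variable {Y Y' Y'' : T}

theorem of_injective (j : ℤ) : Function.Injective (He.of Y j) :=
  DirectSum.of_injective (β := (stdEven T).Gr Y) j

theorem of_eq_zero {j : ℤ} {x : Se T j ⟶ Y} : He.of Y j x = 0 ↔ x = 0 :=
  ⟨fun h => of_injective j (h.trans (map_zero _).symm), fun h => by rw [h, map_zero]⟩

attribute [simp] map_of

theorem map_zero' (x : He Y) : He.map (0 : Y ⟶ Y') x = 0 := by
  induction x using ind with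
  | zero => rw [map_zero]
  | of j x => rw [map_of, comp_zero, map_zero]
  | add x y hx hy => rw [map_add, hx, hy, add_zero]

theorem cp_of_same (j : ℤ) (x : Se T j ⟶ Y) : cp Y j (He.of Y j x) = x :=
  DirectSum.of_eq_same (β := (stdEven T).Gr Y) j x

theorem cp_of_ne {i j : ℤ} (h : i ≠ j) (x : Se T i ⟶ Y) : cp Y j (He.of Y i x) = 0 :=
  DirectSum.of_eq_of_ne (β := (stdEven T).Gr Y) i j x h.symm

/-- the components of a homogeneous map of degree `d` -/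
theorem cp_hom {d : ℤ} {φ : He Y →+ He Y'} {ψ : ∀ j, (Se T j ⟶ Y) →+ (Se T (d + j) ⟶ Y')}
    (h : ∀ j x, φ (He.of Y j x) = He.of Y' (d + j) (ψ j x)) (j : ℤ) (x : He Y) :
    cp Y' (d + j) (φ x) = ψ j (cp Y j x) := by
  induction x using ind with
  | zero => simp only [map_zero]
  | of i x =>
    rw [h]
    by_cases hi : i = j
    · subst hi
      rw [cp_of_same, cp_of_same]
    · rw [cp_of_ne (fun e => hi (by omega)), cp_of_ne hi, map_zero]
  | add x y hx hy => simp only [map_add, hx, hy]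

theorem sum_cp (x : He Y) : ∃ s : Finset ℤ, x = ∑ j ∈ s, He.of Y j (cp Y j x) := by
  classical
  exact ⟨DFinsupp.support x, (DirectSum.sum_support_of x).symm⟩

/-- exactness -/
theorem exact {f : Y ⟶ Y'} {g : Y' ⟶ Y''} {h : Y'' ⟶ Y⟦(1 : ℤ)⟧}
    (H : Triangle.mk f g h ∈ distTriang T) (y : He Y') (hy : He.map g y = 0) :
    ∃ x, He.map f x = y := by
  have h1 : ∀ j, ∃ x : Se T j ⟶ Y, x ≫ f = cp Y' j y := fun j => by
    obtain ⟨x, hx⟩ := Triangle.coyoneda_exact₂ _ H (cp Y' j y) (by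
      have := congrArg (cp Y'' j) hy
      rwa [cp_map, map_zero] at this)
    exact ⟨x, hx.symm⟩
  choose x hx using h1
  obtain ⟨s, hs⟩ := sum_cp y
  refine ⟨∑ j ∈ s, He.of Y j (x j), ?_⟩
  rw [map_sum]
  exact (Finset.sum_congr rfl fun j _ => by rw [map_of, hx]).trans hs.symm

theorem map_injective {f : Y ⟶ Y'} (h : ∀ (j : ℤ) (x : Se T j ⟶ Y), x ≫ f = 0 → x = 0) :
    Function.Injective (He.map f) := by
  rw [injective_iff_map_eq_zero]
  intro x hx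
  refine ext_cp fun j => ?_
  rw [map_zero]
  exact h j _ (by rw [← cp_map, hx, map_zero])

theorem eq_zero (h : ∀ (j : ℤ) (x : Se T j ⟶ Y), x = 0) (x : He Y) : x = 0 :=
  ext_cp fun j => (h j _).trans (map_zero _).symm

end He

theorem oddZero_iff {Y : T} : OddZero Y ↔ ∀ (j : ℤ) (x : Se T j ⟶ Y⟦(1 : ℤ)⟧), x = 0 := by
  constructor
  · intro h j
    exact (TA.Ou.hz_sh (a := 2 * j - 1) (sub_add_cancel _ _) (h _ ⟨j - 1, by ring⟩)).iso
      (P257.H314.sI T j).symm (Iso.refl _)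
  · rintro h _ ⟨j, rfl⟩ x
    have h1 : NM.HZ (Sph T (2 * (j + 1))) (Y⟦(1 : ℤ)⟧) :=
      NM.HZ.iso (h (j + 1)) (P257.H314.sI T (j + 1)) (Iso.refl _)
    have h2 := TA.Ou.hz_sh (k := -1) (b := 2 * j + 1) (by ring) h1
    exact h2.iso (Iso.refl _) ((shiftFunctorCompIsoId T (1 : ℤ) (-1) (by norm_num)).app Y) x

theorem isZero_of_even {Y : T} (h0 : ∀ (j : ℤ) (x : Se T j ⟶ Y), x = 0) (h1 : OddZero Y) :
    IsZero Y := by
  refine StableCat.generator Y fun n => ?_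
  rcases Int.even_or_odd' n with ⟨j, rfl | rfl⟩
  · exact NM.HZ.iso (h0 j) (P257.H314.sI T j) (Iso.refl _)
  · exact h1 _ ⟨j, rfl⟩

/-! ### The swap -/

/-- `A ⊗ (Z ⊗ V) ≅ Z ⊗ (A ⊗ V)` -/
def sw (A Z V : T) : A ⊗ (Z ⊗ V) ≅ Z ⊗ (A ⊗ V) :=
  (α_ _ _ _).symm ≪≫ whiskerRightIso (β_ A Z) V ≪≫ α_ _ _ _

theorem sw_hom (A Z V : T) :
    (sw A Z V).hom = (α_ _ _ _).inv ≫ (β_ A Z).hom ▷ V ≫ (α_ _ _ _).hom := rfl

@[reassoc]
theorem sw_right (A Z : T) {V V' : T} (w : V ⟶ V') :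
    A ◁ Z ◁ w ≫ (sw A Z V').hom = (sw A Z V).hom ≫ Z ◁ A ◁ w := by
  rw [sw_hom, sw_hom, associator_inv_naturality_right_assoc, whisker_exchange_assoc,
    associator_naturality_right, Category.assoc, Category.assoc]

@[reassoc]
theorem sw_left {A A' : T} (a : A ⟶ A') (Z V : T) :
    a ▷ (Z ⊗ V) ≫ (sw A' Z V).hom = (sw A Z V).hom ≫ Z ◁ (a ▷ V) := by
  rw [sw_hom, sw_hom, associator_inv_naturality_left_assoc, ← comp_whiskerRight_assoc,
    BraidedCategory.braiding_naturality_left, comp_whiskerRight_assoc,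
    associator_naturality_middle, Category.assoc, Category.assoc]

theorem sw_unit (Z V : T) : (λ_ (Z ⊗ V)).inv ≫ (sw (𝟙_ T) Z V).hom = Z ◁ (λ_ V).inv := by
  rw [sw_hom]
  simp

theorem sw_tensor (A B Z V : T) : (α_ A B (Z ⊗ V)).hom ≫ A ◁ (sw B Z V).hom ≫
    (sw A Z (B ⊗ V)).hom = (sw (A ⊗ B) Z V).hom ≫ Z ◁ (α_ A B V).hom := by
  simp only [sw_hom, BraidedCategory.braiding_tensor_left_hom]
  monoidal

/-! ### The sequence -/

variable {V : T} {d : ℤ} (f : Se T d ⊗ V ⟶ V)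

variable (T) in
/-- `𝟙 ≅ S^{-2d} ⊗ S^{2d}` -/
def ee (d : ℤ) : 𝟙_ T ≅ Se T (-d) ⊗ Se T d :=
  (stdEven T).zero.symm ≪≫ ((stdEven T).mu (-d) d 0 (neg_add_cancel d)).symm

/-- the adjoint `V ⟶ S^{-2d} ⊗ V` -/
def adj : V ⟶ Se T (-d) ⊗ V :=
  (λ_ V).inv ≫ (ee T d).hom ▷ V ≫ (α_ _ _ _).hom ≫ Se T (-d) ◁ f

/-- the objects of the sequence -/
def sqX (V : T) (d : ℤ) : ℕ → T
  | 0 => V
  | n + 1 => Se T (-d) ⊗ sqX V d n

/-- the maps of the sequence -/
def sqT : ∀ n, sqX V d n ⟶ sqX V d (n + 1)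
  | 0 => adj f
  | n + 1 => Se T (-d) ◁ sqT n

/-- `f` applied to `x` -/
def opf (Z : T) {A : T} (x : A ⟶ Z ⊗ V) : Se T d ⊗ A ⟶ Z ⊗ V :=
  Se T d ◁ x ≫ (sw _ Z V).hom ≫ Z ◁ f

theorem key (Z : T) {A : T} (x : A ⟶ Z ⊗ V) : x ≫ Z ◁ adj f =
    ((λ_ A).inv ≫ (ee T d).hom ▷ A ≫ (α_ _ _ _).hom) ≫ Se T (-d) ◁ opf f Z x ≫
      (sw _ Z V).hom := by
  rw [opf, whiskerLeft_comp, whiskerLeft_comp, Category.assoc, Category.assoc, Category.assoc,
    Category.assoc, sw_right, ← associator_naturality_right_assoc, ← whisker_exchange_assoc,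
    ← leftUnitor_inv_naturality_assoc, reassoc_of% sw_tensor, sw_left_assoc,
    reassoc_of% sw_unit, adj]
  simp only [whiskerLeft_comp]

theorem key_iff (Z : T) {A Y : T} (x : A ⟶ Z ⊗ V) (w : V ⟶ Y) :
    x ≫ Z ◁ (adj f ≫ Se T (-d) ◁ w) = 0 ↔ opf f Z x ≫ Z ◁ w = 0 := by
  rw [whiskerLeft_comp, ← Category.assoc, key, Category.assoc, Preadditive.IsIso.comp_left_eq_zero,
    Category.assoc, ← sw_right, ← whiskerLeft_comp_assoc, Preadditive.IsIso.comp_right_eq_zero]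
  exact (tensorLeft (Se T (-d))).map_eq_zero_iff

theorem trT_succ' (k : ℕ) :
    trT (sqT f) 0 (k + 1) = adj f ≫ Se T (-d) ◁ trT (sqT f) 0 k := by
  induction k with
  | zero =>
    change 𝟙 V ≫ adj f = adj f ≫ Se T (-d) ◁ 𝟙 V
    simp
  | succ k ih =>
    exact (congrArg (· ≫ sqT f (0 + (k + 1))) ih).trans ((Category.assoc _ _ _).trans
      (congrArg (adj f ≫ ·) (whiskerLeft_comp _ _ _).symm))

theorem fw_of (Z : T) (j : ℤ) (x : Se T j ⟶ Z ⊗ V) : fw f Z (He.of _ j x) =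
    He.of _ (d + j) (((stdEven T).mu d j (d + j) rfl).inv ≫ opf f Z x) := by
  refine (DirectSum.toAddMonoid_of (β := (stdEven T).Gr (Z ⊗ V)) _ j x).trans ?_
  change He.of _ (d + j) _ = _
  rw [EvenSpheres.ext, opf, sw_hom, id_tensorHom]
  simp only [Category.assoc]

theorem iter_iff (Z : T) (n : ℕ) : ∀ (j : ℤ) (x : Se T j ⟶ Z ⊗ V),
    (fw f Z)^[n] (He.of _ j x) = 0 ↔ x ≫ Z ◁ trT (sqT f) 0 n = 0 := by
  induction n with
  | zero =>
    intro j x
    change He.of _ j x = 0 ↔ x ≫ Z ◁ 𝟙 V = 0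
    rw [He.of_eq_zero, whiskerLeft_id, Category.comp_id]
  | succ n ih =>
    intro j x
    rw [Function.iterate_succ_apply, fw_of, ih, Category.assoc,
      Preadditive.IsIso.comp_left_eq_zero, trT_succ']
    exact (key_iff f Z x _).symm

theorem iter_mono {A : Type*} [AddCommGroup A] (φ : A →+ A) {x : A} {m n : ℕ} (h : φ^[m] x = 0)
    (hn : m ≤ n) : φ^[n] x = 0 := by
  obtain ⟨k, rfl⟩ := Nat.exists_eq_add_of_le' hn
  rw [Function.iterate_add_apply, h, iterate_map_zero]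

theorem tors_of_hom {Y : T} (φ : He Y →+ He Y)
    (h : ∀ (j : ℤ) (x : Se T j ⟶ Y), ∃ n : ℕ, φ^[n] (He.of Y j x) = 0) (x : He Y) :
    ∃ n : ℕ, φ^[n] x = 0 := by
  induction x using He.ind with
  | zero => exact ⟨0, rfl⟩
  | of j x => exact h j x
  | add x y hx hy =>
    obtain ⟨m, hm⟩ := hx
    obtain ⟨n, hn⟩ := hy
    exact ⟨max m n, by rw [iterate_map_add, iter_mono φ hm (le_max_left _ _),
      iter_mono φ hn (le_max_right _ _), add_zero]⟩

theorem cpt_Se (j : ℤ) : S.IsCpt (Se T j) := fun _ X g => compact_sum X (isSphere_std j) g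

theorem trT_tens (Z : T) {X : ℕ → T} (t : ∀ n, X n ⟶ X (n + 1)) (n k : ℕ) :
    trT (X := fun n => Z ⊗ X n) (fun n => Z ◁ t n) n k = Z ◁ trT t n k := by
  induction k with
  | zero => exact (whiskerLeft_id _ _).symm
  | succ k ih => rw [trT_succ, ih, trT_succ, whiskerLeft_comp]

variable (U : Tel (sqT f))

theorem tors0_of (Z : T) (h : IsZero (Z ⊗ U.obj)) (x : He (Z ⊗ V)) :
    ∃ n : ℕ, (fw f Z)^[n] x = 0 := by
  refine tors_of_hom _ (fun j x => ?_) x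
  obtain ⟨k, hk⟩ := (U.tensL Z).exists_eq_zero (n := 0) (cpt_Se j) x (h.eq_of_tgt _ _)
  rw [trT_tens] at hk
  exact ⟨k, (iter_iff f Z k j x).2 hk⟩

theorem even_of_tors0 (Z : T) (h : ∀ x : He (Z ⊗ V), ∃ n : ℕ, (fw f Z)^[n] x = 0) (j : ℤ)
    (x : Se T j ⟶ Z ⊗ U.obj) : x = 0 := by
  obtain ⟨ψ, hψ⟩ := (U.tensL (Se T (-d))).exists_desc (Z := U.obj) (fun n => U.ι (n + 1))
    fun n => U.w (n + 1)
  obtain ⟨ψ', hψ'⟩ : ∃ ψ' : Se T (-d) ⊗ U.obj ⟶ U.obj,
    ∀ n, Se T (-d) ◁ U.ι n ≫ ψ' = U.ι (n + 1) := ⟨ψ, hψ⟩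
  have H : ∀ (n : ℕ) (j : ℤ) (x : Se T j ⟶ Z ⊗ sqX V d n), x ≫ Z ◁ U.ι n = 0 := by
    intro n
    induction n with
    | zero =>
      intro j x
      obtain ⟨k, hk⟩ := h (He.of _ j x)
      have h1 := (iter_iff f Z k j x).1 hk
      rw [← U.trT_ι 0 k, whiskerLeft_comp, ← Category.assoc]
      exact (congrArg (· ≫ Z ◁ U.ι (0 + k)) h1).trans zero_comp
    | succ n ih =>
      intro j x
      change Se T j ⟶ Z ⊗ (Se T (-d) ⊗ sqX V d n) at x
      obtain ⟨y, hy⟩ := whiskerLeft_surj (Se T (-d))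
        (((stdEven T).mu (-d) (j + d) j (by ring)).hom ≫ x ≫ (sw _ Z _).inv)
      have h1 : x ≫ Z ◁ Se T (-d) ◁ U.ι n = 0 := by
        rw [← cancel_epi ((stdEven T).mu (-d) (j + d) j (by ring)).hom, comp_zero,
          ← Category.comp_id x, ← (sw (Se T (-d)) Z _).inv_hom_id, Category.assoc, Category.assoc,
          ← sw_right, ← reassoc_of% hy, ← whiskerLeft_comp_assoc, ih,
          MonoidalPreadditive.whiskerLeft_zero, zero_comp]
      have h2 : x ≫ Z ◁ (Se T (-d) ◁ U.ι n ≫ ψ') = 0 := by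
        rw [whiskerLeft_comp, reassoc_of% h1, zero_comp]
      exact (congrArg (fun w => x ≫ Z ◁ w) (hψ' n)).symm.trans h2
  obtain ⟨n, y, rfl⟩ := (U.tensL Z).exists_factor (cpt_Se j) x
  exact H n j y

theorem isIso_ι {X : ℕ → T} {t : ∀ n, X n ⟶ X (n + 1)} (U : Tel t) (h : ∀ n, IsIso (t n)) :
    IsIso (U.ι 0) := by
  have h1 : ∀ n, IsIso (trTo t (Nat.zero_le n)) := by
    intro n
    induction n with
    | zero => exact trTo_self t 0 ▸ inferInstance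
    | succ n ih => exact trTo_succ t (Nat.zero_le n) ▸ inferInstance
  let U' : Tel (X := fun _ => X 0) (fun _ => 𝟙 (X 0)) :=
    U.congr (fun n => asIso (trTo t (Nat.zero_le n))) fun n =>
      (trTo_succ t (Nat.zero_le n)).symm.trans (Category.id_comp _).symm
  have h2 : IsIso (trTo t (Nat.zero_le 0) ≫ U.ι 0) := U'.isIso_const
  exact IsIso.of_isIso_comp_left (trTo t (Nat.zero_le 0)) _

/-- The telescope of `f`. -/
structure STel where
  obj : T
  ι : V ⟶ obj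
  iff : ∀ Z, IsZero (Z ⊗ obj) ↔ Tors f Z
  tors0 : ∀ Z, IsZero (Z ⊗ obj) → ∀ x : He (Z ⊗ V), ∃ n : ℕ, (fw f Z)^[n] x = 0
  iso : ∀ Z, IsIso (Z ◁ f) → IsIso (Z ◁ ι)

theorem isZero_shift_tensor {Z Y : T} (h : IsZero (Z ⊗ Y)) (k : ℤ) : IsZero (Z⟦k⟧ ⊗ Y) :=
  IsZero.of_iso (Acyclic.shift (K := Y) (W := Z) (h.of_iso (β_ Y Z)) k) (β_ _ _)

theorem exists_stel : Nonempty (STel f) := by
  obtain ⟨U⟩ := exists_tel (sqT f)
  refine ⟨⟨U.obj, U.ι 0, fun Z => ⟨fun h k => tors0_of f U _ (isZero_shift_tensor h k),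
    fun h => ?_⟩, tors0_of f U, fun Z h => ?_⟩⟩
  · refine isZero_of_even (fun j => ?_) (oddZero_iff.2 fun j => ?_)
    · exact NM.HZ.iso (even_of_tors0 f U _ (h 0) j) (Iso.refl _)
        (whiskerRightIso ((shiftFunctorZero T ℤ).app Z) _)
    · exact NM.HZ.iso (even_of_tors0 f U _ (h 1) j) (Iso.refl _)
        (((tensorRight U.obj).commShiftIso (1 : ℤ)).app Z)
  · have h1 : ∀ n, KEq Z (sqT f n) := by
      intro n
      induction n with
      | zero =>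
        exact (KEq.of_isIso _).comp ((KEq.of_isIso _).comp ((KEq.of_isIso _).comp
          (KEq.whiskerLeft h _)))
      | succ n ih => exact ih.whiskerLeft _
    exact isIso_ι (U.tensL Z) h1

end Vale.Agent.P221X.TC
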