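import Vale.Agent.P221X.TC.Tel
import Vale.Agent.P251.H.BLoc
import Vale.Agent.P251.S.ModTens

/-!
# P221X, row TC-TS: the setting exists (`rowTS`) and the localisations (`locF`)
-/

open CategoryTheory MonoidalCategory Limits Pretriangulated MonObj

set_option linter.unusedSectionVars false

universe u

noncomputable section

namespace Vale.Agent.P221X.TC

open Vale.Agent.P251 Vale.Agent.P251.T Vale.Agent.P251.M Vale.Agent.P251.S Vale.Agent.P251.I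
  Vale.Agent.P257.H702
open Vale.Agent.P251.M.EvenSpheres

variable {T : Type u} [Category.{0} T] [Preadditive T] [HasZeroObject T] [HasShift T ℤ]
  [∀ n : ℤ, (shiftFunctor T n).Additive] [Pretriangulated T] [IsTriangulated T]
  [MonoidalCategory T] [SymmetricCategory T] [TensorTriangulated T] [MonoidalClosed T]
  [HasCoproducts.{0} T] [HasProducts.{0} T] [StableCat T] {D : MUData T}

/-! ### The action of the homotopy ring -/

section sm

variable {Y Y' : T} (a : ModStr D.R Y)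

/-- the action as an additive map -/
def smH (z : HRing (stdEven T) D.R) : He Y →+ He Y := AddMonoidHom.mk' (sm a z) (sm_add a z)

theorem smH_apply (z : HRing (stdEven T) D.R) (x : He Y) : smH a z x = sm a z x := rfl

theorem iter_smH (z : HRing (stdEven T) D.R) (n : ℕ) (x : He Y) :
    (smH a z)^[n] x = sm a (z ^ n) x := by
  induction n with
  | zero => rw [pow_zero, one_sm]; rfl
  | succ n ih => rw [Function.iterate_succ_apply', ih, pow_succ', mul_sm, smH_apply]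

variable {a} in
theorem map_sm' {a' : ModStr D.R Y'} {f : Y ⟶ Y'} (hf : a.IsLinear a' f)
    (z : HRing (stdEven T) D.R) (x : He Y) : He.map f (sm a z x) = sm a' z (He.map f x) :=
  map_sm a a' hf z x

/-- on a module the self map acts as the multiplication by its class -/
theorem fw_eq_sm {V : T} {d : ℤ} {f : Se T d ⊗ V ⟶ V} {w : Se T d ⟶ D.R}
    (h : f ≫ (λ_ V).inv ≫ η[D.R] ▷ V = w ▷ V) :
    fw f Y = smH (a.tensorRight V) (HRing.of (stdEven T) D.R d w) := by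
  refine DirectSum.addHom_ext (β := (stdEven T).Gr (Y ⊗ V)) fun j x => ?_
  refine (fw_of f Y j x).trans (Eq.trans ?_ (sm_of (a.tensorRight V) rfl w x).symm)
  congr 1
  rw [opf, TD.whiskerLeft_eq a h, TD.mulR, sw_hom, gsmul, EvenSpheres.ext, tensorHom_def']
  simp only [Category.assoc, Iso.hom_inv_id_assoc, ModStr.tensorRight]
  rw [← comp_whiskerRight, SymmetricCategory.symmetry_assoc, comp_whiskerRight,
    associator_inv_naturality_left_assoc]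

theorem sm_bijective {d : ℤ} {w : Se T d ⟶ D.R} (h : IsIso (TD.mulR a w)) :
    Function.Bijective (sm a (HRing.of (stdEven T) D.R d w)) := by
  have h1 : IsIso (w ▷ Y ≫ a.act) := (isIso_comp_left_iff (β_ Y _).hom _).1 h
  have h2 : ∀ (j : ℤ) (x : Se T j ⟶ Y), gsmul a (p := d + j) rfl w x =
      ((stdEven T).mu d j (d + j) rfl).inv ≫ Se T d ◁ x ≫ w ▷ Y ≫ a.act := fun j x => by
    rw [gsmul, EvenSpheres.ext, tensorHom_def']
    simp only [Category.assoc]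
  let ψ : ∀ j, (Se T j ⟶ Y) →+ (Se T (d + j) ⟶ Y) := fun j => AddMonoidHom.mk'
    (fun x => gsmul a rfl w x) fun x y => by
      rw [gsmul, ext_add_right, Preadditive.add_comp]
      rfl
  constructor
  · refine (injective_iff_map_eq_zero (smH a (HRing.of (stdEven T) D.R d w))).2 fun x hx =>
      He.ext_cp fun j => ?_
    have h3 := He.cp_hom (φ := smH a (HRing.of (stdEven T) D.R d w)) (ψ := ψ)
      (fun j x => sm_of a rfl w x) j x
    rw [hx, map_zero] at h3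
    have h4 : gsmul a (p := d + j) rfl w (He.cp Y j x) = 0 := h3.symm
    rw [h2, Preadditive.IsIso.comp_left_eq_zero, Preadditive.IsIso.comp_right_eq_zero] at h4
    rw [map_zero]
    exact (tensorLeft (Se T d)).map_eq_zero_iff.1 h4
  · intro y
    induction y using He.ind with
    | zero => exact ⟨0, sm_zero a _⟩
    | of k y =>
      obtain ⟨j, rfl⟩ : ∃ j, k = d + j := ⟨k - d, by ring⟩
      obtain ⟨x, hx⟩ := whiskerLeft_surj (Se T d)
        (((stdEven T).mu d j (d + j) rfl).hom ≫ y ≫ inv (w ▷ Y ≫ a.act))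
      refine ⟨He.of Y j x, ?_⟩
      rw [sm_of a rfl, h2, hx]
      simp only [Category.assoc, Iso.inv_hom_id_assoc, IsIso.inv_hom_id, Category.comp_id]
    | add y y' hy hy' =>
      obtain ⟨x, rfl⟩ := hy
      obtain ⟨x', rfl⟩ := hy'
      exact ⟨x + x', sm_add a _ _ _⟩

theorem isLinear_unit : a.IsLinear (a.tensorRight (𝟙_ T)) (ρ_ Y).inv := by
  change a.act ≫ (ρ_ Y).inv = D.R ◁ (ρ_ Y).inv ≫ (α_ _ _ _).inv ≫ a.act ▷ 𝟙_ T
  monoidal

end sm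

/-! ### Acyclic objects -/

theorem acyc_of {K Z Y : T} (h : IsZero (Y ⊗ Z)) : Acyclic (K ⊗ Z) Y :=
  IsZero.of_iso (Acyclic.tensor_left (K := Z) (W := Y) (h.of_iso (β_ _ _)) K)
    (whiskerRightIso (β_ K Z) Y ≪≫ α_ _ _ _)

theorem zero_of_acyc {K Z Y : T} (h : Acyclic (K ⊗ Z) Y) : IsZero ((K ⊗ Y) ⊗ Z) :=
  IsZero.of_iso h (α_ _ _ _ ≪≫ whiskerLeftIso K (β_ Y Z) ≪≫ (α_ _ _ _).symm)

theorem acyc_of_zero {K Z Y : T} (h : IsZero ((K ⊗ Y) ⊗ Z)) : Acyclic (K ⊗ Z) Y :=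
  IsZero.of_iso h (α_ _ _ _ ≪≫ whiskerLeftIso K (β_ Z Y) ≪≫ (α_ _ _ _).symm)

/-- a module tensored with an acyclic object -/
theorem zero_of_mod {K Z Y W : T} [MonObj K] (a : ModStr K Y) (h : Acyclic (K ⊗ Z) W) :
    IsZero ((Y ⊗ W) ⊗ Z) := by
  have h1 : Acyclic Z (K ⊗ W) := (zero_of_acyc h).of_iso (β_ _ _)
  have h2 : Acyclic Z ((K ⊗ Y) ⊗ W) := (h1.tensor_right Y).of_iso
    (α_ _ _ _ ≪≫ whiskerLeftIso K (β_ W Y) ≪≫ (α_ _ _ _).symm)
  have h3 : Acyclic Z (Y ⊗ W) := h2.retract (((λ_ Y).inv ≫ η[K] ▷ Y) ▷ W) (a.act ▷ W) (by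
    rw [← comp_whiskerRight, Category.assoc, a.one_act, Iso.inv_hom_id, id_whiskerRight])
  exact IsZero.of_iso h3 (β_ _ _)

theorem keq_tensor {K Z X Y : T} {f : X ⟶ Y} (h : KEq K f) : KEq (K ⊗ Z) f := by
  obtain ⟨C, g, d, hC⟩ := distinguished_cocone_triangle f
  exact (keq_iff_acyclic hC).2 (acyc_of_zero
    (IsZero.of_iso (((keq_iff_acyclic hC).1 h).tensor_right Z) (α_ _ _ _)))

theorem tensLoc_fin {K V : T} (h : IsFin V) : TensLoc K V := by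
  induction h with
  | base => exact tensLoc_unit
  | zero h => exact tensLoc_zero ((IsZero.iff_id_eq_zero _).2 h)
  | susp k _ ih => exact ih.shift k
  | cof hT _ _ ih ih' => exact TensLoc.ext₃ hT ih ih'
  | retract i r e _ ih => exact ih.retract i r e

section tors

variable {V Z : T} {d : ℤ} (f : Se T d ⊗ V ⟶ V)

theorem tors_of_bd (hd : 0 < d) (h : TA.Ou.Bd 1 (Z ⊗ V)) : Tors f Z := by
  intro k
  obtain ⟨N, hN⟩ := h.shift k
  have h1 : ∀ j, N < 2 * j → ∀ x : Se T j ⟶ Z⟦k⟧ ⊗ V, x = 0 := fun j hj =>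
    (hN (2 * j) (by linarith)).iso (P257.H314.sI T j).symm
      (((tensorRight V).commShiftIso k).app Z).symm
  have h2 : ∀ (n : ℕ) (j : ℤ) (x : Se T j ⟶ Z⟦k⟧ ⊗ V), N < 2 * (j + n) →
      (fw f (Z⟦k⟧))^[n] (He.of _ j x) = 0 := by
    intro n
    induction n with
    | zero => exact fun j x hj => He.of_eq_zero.2 (h1 j (by simpa using hj) x)
    | succ n ih =>
      intro j x hj
      rw [Function.iterate_succ_apply, fw_of]
      exact ih _ _ (by push_cast at hj; linarith)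
  exact tors_of_hom _ fun j x => ⟨N.natAbs + j.natAbs + 1, h2 _ j x (by omega)⟩

theorem tors_of_zero (h : Z ◁ f = 0) : Tors f Z := by
  intro k
  have h1 : Z⟦k⟧ ◁ f = 0 := by
    rw [← cancel_epi ((sphTensor k Z).hom ▷ _), ← whisker_exchange, tensor_whiskerLeft, h,
      MonoidalPreadditive.whiskerLeft_zero, zero_comp, comp_zero, zero_comp, comp_zero]
  refine tors_of_hom _ fun j x => ⟨1, ?_⟩
  rw [Function.iterate_one, fw_of, opf, h1, comp_zero, comp_zero, comp_zero, map_zero]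

end tors

/-! ### Objects killed by `p` -/

section modp

variable {p : ℕ} (W : TD.Twr D p)

theorem whiskerLeft_p (Y : T) : Y ◁ ((p : ℤ) • 𝟙 (𝟙_ T)) = (p : ℤ) • 𝟙 (Y ⊗ 𝟙_ T) :=
  ((tensorLeft Y).map_zsmul).trans (congrArg _ ((tensorLeft Y).map_id _))

theorem kl_tensor {Y : T} (h : (p : ℤ) • 𝟙 Y = 0) (Z : T) : (p : ℤ) • 𝟙 (Y ⊗ Z) = 0 :=
  TA.Ou.Kl.map h (tensorRight Z)

theorem mono_iM {Y A : T} (h : (p : ℤ) • 𝟙 Y = 0) (x : A ⟶ Y)
    (hx : x ≫ (ρ_ Y).inv ≫ Y ◁ W.iM = 0) : x = 0 := by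
  obtain ⟨y, hy⟩ : ∃ y : A ⟶ Y ⊗ 𝟙_ T, x ≫ (ρ_ Y).inv = y ≫ Y ◁ ((p : ℤ) • 𝟙 (𝟙_ T)) :=
    Triangle.coyoneda_exact₂ _ (tens_dist Y W.distM) (x ≫ (ρ_ Y).inv)
      ((Category.assoc _ _ _).trans hx)
  rw [whiskerLeft_p, kl_tensor h, comp_zero] at hy
  exact (Preadditive.IsIso.comp_right_eq_zero _ _).1 hy

theorem kl_M : (p : ℤ) • 𝟙 W.M = 0 := by
  have h1 : (p : ℤ) • W.iM = 0 := by
    have : ((p : ℤ) • 𝟙 (𝟙_ T)) ≫ W.iM = 0 := comp_distTriang_mor_zero₁₂ _ W.distM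
    simpa using this
  have h2 : (p : ℤ) • (W.iM ▷ W.M) = 0 :=
    ((tensorRight W.M).map_zsmul).symm.trans (by rw [h1, Functor.map_zero])
  rw [← (λ_ W.M).inv_hom_id, ← W.m1.left_unit, ← Preadditive.comp_zsmul, ← Preadditive.zsmul_comp,
    h2, zero_comp, comp_zero]

theorem isIso_of_M {A B : T} (hA : (p : ℤ) • 𝟙 A = 0) (hB : (p : ℤ) • 𝟙 B = 0) (φ : A ⟶ B)
    (h : IsIso (φ ▷ W.M)) : IsIso φ := by
  obtain ⟨C, g, d, hC⟩ := distinguished_cocone_triangle φ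
  have h1 : IsZero (C ⊗ W.M) := (Triangle.isZero₃_iff_isIso₁ _ (dist_whiskerRight W.M hC)).2 h
  have h2 := (W.zeroM_iff C).1 h1
  rw [whiskerLeft_p] at h2
  have h3 : TA.Ou.Kl (p * p) C := TA.Ou.Kl.ext (rot_of_distTriang _ hC) hB
    (TA.Ou.Kl.map hA (shiftFunctor T (1 : ℤ)))
  have h4 : ((p : ℤ) • 𝟙 (C ⊗ 𝟙_ T)) ≫ ((p : ℤ) • 𝟙 (C ⊗ 𝟙_ T)) ≫ 𝟙 _ = 0 := by
    rw [Category.comp_id, Preadditive.zsmul_comp, Category.id_comp, ← mul_smul]
    exact TA.Ou.Kl.map h3 (tensorRight (𝟙_ T))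
  rw [Preadditive.IsIso.comp_left_eq_zero, Preadditive.IsIso.comp_left_eq_zero] at h4
  exact (Triangle.isZero₃_iff_isIso₁ _ hC).1
    (((IsZero.iff_id_eq_zero _).2 h4).of_iso (ρ_ C).symm)

theorem V1_f1 : (D.R ⊗ W.V1) ◁ W.f1 = 0 := by
  have h1 : (D.R ◁ D.vel p 1 ≫ μ[D.R]) ▷ W.V1 = 0 := W.ann2 (𝟙 D.R) ⟨fun i =>
    if h : i = 1 then eqToHom (by rw [h]) else 0, by
      rw [Finset.sum_range_succ, Finset.sum_range_succ, Finset.sum_range_zero]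
      beta_reduce
      rw [dif_neg (by norm_num), dif_pos rfl, zero_comp, add_zero, zero_add, eqToHom_refl,
        Category.id_comp, vK, Category.comp_id]⟩
  have h2 : D.vel p 1 ▷ (D.R ⊗ W.V1) ≫ (ModStr.free D.R W.V1).act = 0 := by
    change D.vel p 1 ▷ (D.R ⊗ W.V1) ≫ (α_ _ _ _).inv ≫ μ[D.R] ▷ W.V1 = 0
    rw [associator_inv_naturality_left_assoc, ← comp_whiskerRight, ← IsCommMonObj.mul_comm,
      BraidedCategory.braiding_naturality_left_assoc, comp_whiskerRight, h1, comp_zero, comp_zero]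
  rw [TD.whiskerLeft_eq (ModStr.free D.R W.V1) W.hur1', TD.mulR, h2, comp_zero,
    MonoidalPreadditive.zero_whiskerRight, comp_zero]

end modp

/-! ### The rows -/

variable {p : ℕ} [Fact p.Prime] {F : Type} [Field F]

/-- **Row TS.** -/
theorem rowTS : RowTS D p F := by
  intro h5 _ W
  obtain ⟨U1⟩ := exists_stel W.f1
  obtain ⟨U2⟩ := exists_stel W.f2
  obtain ⟨Le⟩ := nonempty_locFunctor (H.nonempty_bLoc_of_stableCat (D.R ⊗ U1.obj))
  obtain ⟨Lh⟩ := nonempty_locFunctor (H.nonempty_bLoc_of_stableCat (D.R ⊗ U2.obj))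
  obtain ⟨N', iN, δN, hN⟩ := distinguished_cocone_triangle (Le.u (𝟙_ T))
  obtain ⟨χ, hχ⟩ := VT.exists_hom_law (P261Z.T3.MUAt.of_odd D (p := p) (by omega))
    (B := PowerSeries F) (by rw [← map_natCast (PowerSeries.C (R := F)), CharP.cast_eq_zero,
      map_zero]) (Qt.FO p F)
  exact ⟨⟨h5, W, U1.obj, U2.obj, U1.iff, U2.iff, Le, Lh, N', iN, δN, hN, χ, hχ⟩, rfl⟩

theorem deg_pos {h : ℕ} (hh : h ≠ 0) : (0 : ℤ) < (p : ℤ) ^ h - 1 := by
  have h1 : (1 : ℤ) < p := by exact_mod_cast (Fact.out : p.Prime).one_lt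
  exact sub_pos.2 (one_lt_pow₀ h1 hh)

namespace TS

variable (S : TS D p F)

theorem acV1 : Acyclic S.Ke S.W.V1 :=
  acyc_of_zero ((S.tel1 _).2 (tors_of_zero _ (V1_f1 S.W)))

theorem acN : Acyclic S.Ke S.N' := (keq_iff_acyclic S.distN).1 (S.Le.keq _)

theorem zero1 (Y : T) : IsZero (S.Le.L.obj Y ⊗ S.W.V1) :=
  (tensLoc_fin S.W.fin1 (S.Le.isLocal Y)).isZero (S.acV1.tensor_left _)

theorem bdd1 {Y : T} (h : TA.Ou.Bd 1 (Y ⊗ S.W.V1)) : Acyclic S.Kh Y :=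
  acyc_of ((S.tel2 Y).2 (tors_of_bd _ (deg_pos two_ne_zero) h))

theorem keq (Y : T) : KEq S.Ke (S.toL Y) :=
  (KEq.of_isIso _).comp ((S.Le.keq _).whiskerLeft Y)

theorem loc {Y : T} (a : ModStr D.R Y) (hp : (p : ℤ) • 𝟙 Y = 0) (h : IsZero (Y ⊗ S.W.V1)) :
    IsLocal S.Ke Y := by
  intro Z hZ f
  obtain ⟨U⟩ := exists_stel S.W.f1
  have h1 : IsZero ((D.R ⊗ Z) ⊗ U.obj) := (U.iff _).2 ((S.tel1 _).1 (zero_of_acyc hZ))
  have h2 := U.iso Y ((S.W.zero1_iff Y).1 h)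
  have h3 : D.R ◁ f ≫ a.act = 0 := by
    generalize D.R ◁ f ≫ a.act = g
    refine mono_iM S.W hp _ ?_
    rw [← Preadditive.IsIso.comp_right_eq_zero _ (Y ◁ U.ι), Category.assoc, Category.assoc,
      ← whiskerLeft_comp, rightUnitor_inv_naturality_assoc, ← whisker_exchange,
      h1.eq_of_src (_ ▷ U.obj) 0, comp_zero, comp_zero]
  rw [← Category.comp_id f, ← (λ_ Y).inv_hom_id, ← a.one_act, leftUnitor_inv_naturality_assoc,
    whisker_exchange_assoc, h3, comp_zero, comp_zero]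

/-- the homotopy of (module) ⊗ (acyclic) ⊗ `M` is `v₁`-power torsion -/
theorem torsM {Y Z : T} (a : ModStr D.R Y) (h : Acyclic S.Ke Z) (x : He ((Y ⊗ Z) ⊗ S.W.M)) :
    ∃ n : ℕ, sm ((a.tensorRight Z).tensorRight S.W.M) (vA D p 1 ^ n) x = 0 := by
  obtain ⟨U⟩ := exists_stel S.W.f1
  obtain ⟨n, hn⟩ := U.tors0 _ ((U.iff _).2 ((S.tel1 _).1 (zero_of_mod a h))) x
  rw [fw_eq_sm (a.tensorRight Z) S.W.hur1', iter_smH] at hn
  exact ⟨n, hn⟩

theorem tors0 {Y Z : T} (a : ModStr D.R Y) (hp : (p : ℤ) • 𝟙 Y = 0) (h : Acyclic S.Ke Z)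
    (x : He (Y ⊗ Z)) : ∃ n : ℕ, sm (a.tensorRight Z) (vA D p 1 ^ n) x = 0 := by
  obtain ⟨n, hn⟩ := S.torsM a h (He.map ((ρ_ _).inv ≫ (Y ⊗ Z) ◁ S.W.iM) x)
  rw [← map_sm' ((isLinear_unit _).comp (ModStr.isLinear_whiskerLeft _ _))] at hn
  exact ⟨n, He.map_injective (fun j => mono_iM S.W (kl_tensor hp Z))
    (hn.trans (map_zero _).symm)⟩

theorem isLinear_toL {Y : T} (a : ModStr D.R Y) : a.IsLinear (a.tensorRight S.LS) (S.toL Y) :=
  (isLinear_unit a).comp (ModStr.isLinear_whiskerLeft a _)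

theorem loc_LS {Y : T} (a : ModStr D.R Y) (hp : (p : ℤ) • 𝟙 Y = 0) : IsLocal S.Ke (Y ⊗ S.LS) :=
  S.loc (a.tensorRight _) (kl_tensor hp _)
    (IsZero.of_iso ((tensorLeft Y).map_isZero (S.zero1 (𝟙_ T))) (α_ _ _ _))

/-- `Le Y ≅ Y ⊗ LS` for a module which is killed by `p` -/
def isoLS {Y : T} (a : ModStr D.R Y) (hp : (p : ℤ) • 𝟙 Y = 0) : S.Le.L.obj Y ≅ Y ⊗ S.LS :=
  S.Le.isoOfKEq (S.loc_LS a hp) (S.toL Y) (S.keq Y)

theorem u_isoLS {Y : T} (a : ModStr D.R Y) (hp : (p : ℤ) • 𝟙 Y = 0) :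
    S.Le.u Y ≫ (S.isoLS a hp).hom = S.toL Y := S.Le.u_isoOfKEq _ _ _

theorem isLinear_isoLS {Y : T} (a : ModStr D.R Y) (hp : (p : ℤ) • 𝟙 Y = 0) :
    (S.Le.mod a).IsLinear (a.tensorRight S.LS) (S.isoLS a hp).hom :=
  S.Le.isLinear_desc a (S.loc_LS a hp) (S.isLinear_toL a)

theorem inv {Y : T} (a : ModStr D.R Y) (hp : (p : ℤ) • 𝟙 Y = 0) :
    IsIso (TD.mulR (S.Le.mod a) (D.vel p 1)) := by
  have h1 := (S.W.zero1_mod (𝟙 D.R) (S.Le.mod a)).1 (S.zero1 Y)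
  rw [vK, Category.comp_id] at h1
  have h2 : (p : ℤ) • 𝟙 (S.Le.L.obj Y) = 0 := TA.Ou.Kl.map hp S.Le.L
  exact isIso_of_M S.W (kl_tensor h2 _) h2 _ h1

theorem surj {Y : T} (a : ModStr D.R Y) (hp : (p : ℤ) • 𝟙 Y = 0) (y : He (S.Le.L.obj Y)) :
    ∃ (n : ℕ) (x : He Y), sm (S.Le.mod a) (vA D p 1 ^ n) y = He.map (S.Le.u Y) x := by
  obtain ⟨n, hn⟩ := S.tors0 a hp S.acN (He.map (Y ◁ S.iN) (He.map (S.isoLS a hp).hom y))
  rw [← map_sm' (ModStr.isLinear_whiskerLeft a _), ← map_sm' (S.isLinear_isoLS a hp)] at hn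
  obtain ⟨x, hx⟩ := He.exact (tens_dist Y S.distN) _ hn
  refine ⟨n, He.map (ρ_ Y).hom x, He.map_injective (f := (S.isoLS a hp).hom)
    (fun j x h => (Preadditive.IsIso.comp_right_eq_zero _ _).1 h) ?_⟩
  rw [← hx, He.map_map, He.map_map, S.u_isoLS, toL, Iso.hom_inv_id_assoc]

theorem ker {Y : T} (a : ModStr D.R Y) (hp : (p : ℤ) • 𝟙 Y = 0) (x : He Y)
    (hx : He.map (S.Le.u Y) x = 0) : ∃ n : ℕ, sm a (vA D p 1 ^ n) x = 0 := by
  obtain ⟨Z, i, e, hZ⟩ := distinguished_cocone_triangle₁ (S.Le.u (𝟙_ T))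
  have h1 : Acyclic S.Ke Z := (acyclic_iff_isIso hZ).2 (S.Le.keq _)
  obtain ⟨z, hz⟩ := He.exact (tens_dist Y hZ) (He.map (ρ_ Y).inv x) (by
    have h2 := congrArg (He.map (S.isoLS a hp).hom) hx
    rw [He.map_map, S.u_isoLS, map_zero] at h2
    exact (He.map_map _ _ _).trans h2)
  obtain ⟨n, hn⟩ := S.tors0 a hp h1 z
  refine ⟨n, He.map_injective (f := (ρ_ Y).inv)
    (fun j x h => (Preadditive.IsIso.comp_right_eq_zero _ _).1 h) ?_⟩
  rw [map_sm' (isLinear_unit a), ← hz, map_zero]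
  exact (map_sm' (ModStr.isLinear_whiskerLeft a i) _ z).symm.trans (by rw [hn, map_zero])

theorem odd {Y : T} (a : ModStr D.R Y) (hp : (p : ℤ) • 𝟙 Y = 0) (h : OddZero Y) :
    OddZero (S.Le.L.obj Y) := by
  have h1 : ∀ x : He (Y ⊗ Sph T 1), x = 0 := He.eq_zero fun j =>
    NM.HZ.iso (oddZero_iff.1 h j) (Iso.refl _) (tensorSph 1 Y).symm
  refine oddZero_iff.2 fun j => NM.HZ.iso (Y := S.Le.L.obj (Y ⊗ Sph T 1)) (fun x => ?_)
    (Iso.refl _) (S.Le.L.mapIso (tensorSph 1 Y) ≪≫ (S.Le.L.commShiftIso (1 : ℤ)).app Y)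
  obtain ⟨n, y, hy⟩ := S.surj (a.tensorRight _) (kl_tensor hp _) (He.of _ j x)
  rw [h1 y, map_zero, ← iter_smH] at hy
  have h2 : Function.Injective (smH (S.Le.mod (a.tensorRight (Sph T 1))) (vA D p 1)) :=
    (sm_bijective _ (S.inv (a.tensorRight _) (kl_tensor hp _))).1
  exact He.of_eq_zero.1 (h2.iterate n (hy.trans (iterate_map_zero _ n).symm))

end TS

theorem bd_of {Y : T} {n₀ : ℤ} (h : ∀ n ≥ n₀, ∀ x : Sph T n ⟶ Y, x = 0) : TA.Ou.Bd 1 Y :=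
  ⟨n₀, fun n hn => h n (by linarith)⟩

/-- **Row LOC.** -/
theorem locF (S : TS D p F) : LocF S where
  bdd Y _ h := ⟨S.bdd1 (TA.Ou.bd_thick (TA.Ou.thick_tensor S.W.fin1 Y) (bd_of h)),
    acyc_of ((S.tel1 Y).2 (tors_of_bd _ (deg_pos one_ne_zero)
      (TA.Ou.bd_thick (TA.Ou.thick_tensor S.W.finM Y) (bd_of h))))⟩
  bdd1 _ _ h := S.bdd1 (bd_of h)
  acV1 := S.acV1
  acN := S.acN
  zero1 := S.zero1
  acyc1 _ h := S.bdd1 (TA.Ou.bd_zero h)
  keq := S.keq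
  loc _ a := S.loc a
  keq_of {Y Y'} f h := by
    refine KEq.of_comp_right (S.keq Y') ?_
    have h1 : f ≫ S.toL Y' = S.toL Y ≫ f ▷ S.LS := by
      rw [TS.toL, TS.toL, rightUnitor_inv_naturality_assoc, ← whisker_exchange, Category.assoc]
    rw [h1]
    exact (S.keq Y).comp (keq_tensor h)
  inv _ a hp := ⟨S.inv a hp, sm_bijective _ (S.inv a hp)⟩
  surj _ a := S.surj a
  ker _ a := S.ker a
  odd _ a := S.odd a
  tors Y a x := by
    obtain ⟨n, hn⟩ := S.torsM a S.acN (He.map (α_ _ _ _).inv x)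
    refine ⟨n, He.map_injective (f := (α_ Y S.N' S.W.M).inv)
      (fun j x h => (Preadditive.IsIso.comp_right_eq_zero _ _).1 h) ?_⟩
    rw [map_sm' (ModStr.isLinear_assoc a _ _).inv, hn, map_zero]

end Vale.Agent.P221X.TC
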