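import Vale.Agent.P221X.TC.Defs
import Vale.Agent.P221X.VT.Hur
import Vale.Agent.P221X.VT.Disc
import Vale.Agent.P221X.VT.LtoFO

/-!
# P221X, block TOP-C: the theory `V χ` with its group action

* `Cx S` : the standing hypotheses; `TM S Z` : the homology of `Z` is torsion;
* `Cx.exact`, `Cx.exactN`, `Cx.tors` : exactness and torsion;
* `VX c B W` : `V χ W` with the action of `G`; `VN c B W = VX c B (W ⊗ N)` is discrete.
-/

open CategoryTheory MonoidalCategory Limits Pretriangulated PowerSeries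

set_option linter.unusedSectionVars false

universe u

noncomputable section

namespace Vale.Agent.P221X.TC

open Vale.Agent.P251 Vale.Agent.P251.T Vale.Agent.P251.M Vale.Agent.P251.S Vale.Agent.P251.F
  Vale.Agent.P251.I Vale.Agent.P251.X Vale.Agent.P221X.VT
open Vale.Agent.P251.M.EvenSpheres ProG

variable {T : Type u} [Category.{0} T] [Preadditive T] [HasZeroObject T] [HasShift T ℤ]
  [∀ n : ℤ, (shiftFunctor T n).Additive] [Pretriangulated T] [IsTriangulated T]
  [MonoidalCategory T] [SymmetricCategory T] [TensorTriangulated T] [MonoidalClosed T]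
  [HasCoproducts.{0} T] [HasProducts.{0} T] [StableCat T]
  {D : MUData T} {p : ℕ} [Fact p.Prime] {F : Type} [Field F]

/-- The standing hypotheses. -/
structure Cx (S : TS D p F) where
  Fc : SpaceFunctor T
  e : Fc.S.obj CCF ≅ (stdEven T).L
  H : MUUniv e D
  hD : P261Z.T3.MUAt D p
  hL : LocF S
  card : Nat.card F = p ^ 2

/-! ### Objects killed by `p`, torsion -/

namespace Vn

theorem p_left {n : ℤ} {Z : T} (h : n • 𝟙 Z = 0) (W : T) : n • 𝟙 (W ⊗ Z) = 0 := by
  have h1 : (tensorLeft W).map (n • 𝟙 Z) = n • (tensorLeft W).map (𝟙 Z) := Functor.map_zsmul _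
  rw [h, Functor.map_zero, CategoryTheory.Functor.map_id] at h1
  exact h1.symm

theorem p_right {n : ℤ} {Z : T} (h : n • 𝟙 Z = 0) (W : T) : n • 𝟙 (Z ⊗ W) = 0 := by
  have h1 : (tensorRight W).map (n • 𝟙 Z) = n • (tensorRight W).map (𝟙 Z) := Functor.map_zsmul _
  rw [h, Functor.map_zero, CategoryTheory.Functor.map_id] at h1
  exact h1.symm

theorem p_uprod {n : ℤ} {Z : T} {i : 𝟙_ T ⟶ Z} (m : P257.H314.UProd Z i) (h : n • i = 0) :
    n • 𝟙 Z = 0 := by
  have h1 : (tensorLeft Z).map (n • i) = n • (tensorLeft Z).map i := Functor.map_zsmul _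
  rw [h, Functor.map_zero] at h1
  have h2 : n • (ρ_ Z).hom = 0 := by
    rw [← m.right_unit, ← Preadditive.zsmul_comp]
    exact (congrArg (· ≫ m.m) h1.symm).trans zero_comp
  rw [← (ρ_ Z).inv_hom_id, ← Preadditive.comp_zsmul, h2, comp_zero]

theorem p_iM (W : TD.Twr D p) : (p : ℤ) • W.iM = 0 := by
  have : ((p : ℤ) • 𝟙 (𝟙_ T)) ≫ W.iM = 0 := comp_distTriang_mor_zero₁₂ _ W.distM
  simpa using this

theorem p_M (W : TD.Twr D p) : (p : ℤ) • 𝟙 W.M = 0 := p_uprod W.m1 (p_iM W)

theorem p_V1 (W : TD.Twr D p) : (p : ℤ) • 𝟙 W.V1 = 0 :=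
  p_uprod W.m2 (by rw [← Preadditive.zsmul_comp, p_iM, zero_comp])

theorem p_N (S : TS D p F) : (p : ℤ) • 𝟙 S.N = 0 := p_left (p_M S.W) _

theorem vel_V1 (W : TD.Twr D p) : D.vel p 1 ▷ W.V1 = 0 := by
  have h := TD.whisker_zero W.m2 (TD.hcls_v W.st2.tow (𝟙 D.R) 1 one_lt_two)
  rwa [P257.H702.vK, Category.comp_id] at h

theorem whisker_tensor_zero {A K Z : T} {w : A ⟶ K} (h : w ▷ Z = 0) (W : T) :
    w ▷ (W ⊗ Z) = 0 := by
  rw [← cancel_mono (K ◁ (β_ W Z).hom), ← whisker_exchange, zero_comp,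
    ← cancel_mono (α_ K Z W).inv, Category.assoc, associator_inv_naturality_left, h,
    MonoidalPreadditive.zero_whiskerRight, comp_zero, comp_zero, zero_comp]

theorem vA_eq (i : ℕ) : vA D p i = vv p i D.law := (D.vel_spec p i).symm

theorem he_of {Y Y' : T} (f : Y ⟶ Y') (j : ℤ) (x : Se T j ⟶ Y) :
    He.map f (He.of Y j x) = He.of Y' j (x ≫ f) :=
  DirectSum.toAddMonoid_of (β := (stdEven T).Gr Y) _ j x

theorem he_sm {Y Y' : T} {a : ModStr D.R Y} {a' : ModStr D.R Y'} {f : Y ⟶ Y'}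
    (hf : a.IsLinear a' f) (z : HRing (stdEven T) D.R) (y : He Y) :
    He.map f (sm a z y) = sm a' z (He.map f y) := by
  let := hModule (E := stdEven T) a
  let := hModule (E := stdEven T) a'
  change He.map f (z • y) = z • He.map f y
  induction z using DirectSum.induction_on with
  | zero => rw [zero_smul, zero_smul, map_zero]
  | add z z' h h' => rw [add_smul, add_smul, map_add, h, h']
  | of i z =>
    induction y using DirectSum.induction_on with
    | zero => rw [map_zero, smul_zero, smul_zero, map_zero]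
    | add y y' h h' => rw [smul_add, map_add, map_add, smul_add, h, h']
    | of j y =>
      have h1 := of_smul_of (E := stdEven T) a (rfl : i + j = i + j) z y
      have h2 := of_smul_of (E := stdEven T) a' (rfl : i + j = i + j) z (y ≫ f)
      refine (congrArg (He.map f) h1).trans ((he_of f _ _).trans ?_)
      rw [← gsmul_comp a a' hf]
      exact h2.symm.trans (congrArg (HRing.of (stdEven T) D.R i z • ·) (he_of f j y).symm)

theorem he_map {Y Y' Y'' : T} (f : Y ⟶ Y') (g : Y' ⟶ Y'') (y : He Y) :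
    He.map g (He.map f y) = He.map (f ≫ g) y := by
  induction y using DirectSum.induction_on with
  | zero => rw [map_zero, map_zero, map_zero]
  | add y y' h h' => rw [map_add, map_add, map_add, h, h']
  | of j y =>
    exact ((congrArg (He.map g) (he_of f j y)).trans (he_of g j _)).trans
      (by rw [Category.assoc]; exact (he_of (f ≫ g) j y).symm)

theorem he_id {Y : T} (y : He Y) : He.map (𝟙 Y) y = y := by
  induction y using DirectSum.induction_on with
  | zero => rw [map_zero]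
  | add y y' h h' => rw [map_add, h, h']
  | of j y => exact (he_of _ j y).trans (by rw [Category.comp_id])

theorem lin_assoc (K : T) [MonObj K] (W Z : T) :
    ((ModStr.free K W).tensorRight Z).IsLinear (ModStr.free K (W ⊗ Z)) (α_ K W Z).hom := by
  simp [ModStr.IsLinear, ModStr.tensorRight, ModStr.free]

end Vn

open Vn

/-- the even homology of `Z` is killed by `p` and `v₁`-power torsion -/
abbrev TM (_S : TS D p F) (Z : T) : Prop := VT.Tors D p 2 (MP (stdEven T) D.R Z)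

theorem TM.of_inj {S : TS D p F} {Z Z' : T} (h : TM S Z') (f : Z ⟶ Z')
    (hf : Function.Injective (MP.map (stdEven T) D.R f)) : TM S Z := fun m => by
  obtain ⟨h1, j, h2⟩ := h (MP.map _ D.R f m)
  exact ⟨hf (by rw [map_smul, h1, map_zero]),
    j, fun z hz => hf (by rw [map_smul, h2 z hz, map_zero])⟩

theorem TM.retract {S : TS D p F} {Z Z' : T} (h : TM S Z') (i : Z ⟶ Z') (r : Z' ⟶ Z)
    (hir : i ≫ r = 𝟙 Z) : TM S Z :=
  h.of_inj i (Function.LeftInverse.injective (g := MP.map (stdEven T) D.R r) fun x => by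
    rw [MP_map_map, hir, MP.map_id, LinearMap.id_apply])

theorem TM.iso {S : TS D p F} {Z Z' : T} (h : TM S Z') (f : Z ≅ Z') : TM S Z :=
  h.retract f.hom f.inv f.hom_inv_id

theorem tm_V1 (S : TS D p F) (W : T) : TM S (W ⊗ S.W.V1) :=
  tors_two (MP_p_zero (p_left (p_V1 S.W) W)) fun m => ⟨1, by
    rw [pow_one, D.vel_spec]
    exact MP_smul_zero (whisker_tensor_zero (vel_V1 S.W) W) m⟩

theorem tm_N {S : TS D p F} (hL : LocF S) (W : T) : TM S (W ⊗ S.N) := by
  refine tors_two (MP_p_zero (p_left (p_N S) W)) fun (m : He (D.R ⊗ (W ⊗ S.N))) => ?_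
  obtain ⟨n, hn⟩ := hL.tors _ (ModStr.free D.R W) (He.map (α_ D.R W S.N).inv m)
  have h := congrArg (He.map (α_ D.R W S.N).hom) hn
  rw [he_sm (lin_assoc D.R W S.N), he_map, Iso.inv_hom_id, he_id, map_zero,
    vA_eq] at h
  exact ⟨n, h⟩

namespace Cx

variable {S : TS D p F} (c : Cx S)

include c

theorem p0 : (p : F⟦X⟧) = 0 := p_eq_zero_O c.card

theorem lawExt : LawExt D F⟦X⟧ := lawExt_of c.hD c.p0

theorem chi_v1 : ∃ w : F⟦X⟧ˣ, S.χ (vA D p 1) = (w : F⟦X⟧) * X := by
  rw [vA_eq, ← vv_map, S.law]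
  exact vv_FO c.card

/-- **Exactness** on a triangle with a torsion third term. -/
theorem exact {X Y Z : T} {f : X ⟶ Y} {g : Y ⟶ Z} {δ : Z ⟶ X⟦(1 : ℤ)⟧}
    (hT : Triangle.mk f g δ ∈ distTriang T) (hZ : TM S Z) (y : V S.χ Y)
    (hy : V.map S.χ g y = 0) : ∃ x, V.map S.χ f x = y :=
  V.exact_FO c.H c.hD c.card S.law hT hZ y hy

/-- **Exactness** of `W ↦ V χ (W ⊗ N)`. -/
theorem exactN {X Y Z : T} {f : X ⟶ Y} {g : Y ⟶ Z} {δ : Z ⟶ X⟦(1 : ℤ)⟧}
    (hT : Triangle.mk f g δ ∈ distTriang T) (y : V S.χ (Y ⊗ S.N))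
    (hy : V.map S.χ (g ▷ S.N) y = 0) : ∃ x, V.map S.χ (f ▷ S.N) x = y :=
  c.exact ((tensorRight S.N).map_distinguished _ hT) (tm_N c.hL Z) y hy

theorem tors {Z : T} (hZ : TM S Z) (y : V S.χ Z) : ∃ k : ℕ, (X : F⟦X⟧) ^ k • y = 0 := by
  induction y using BC.ind with
  | zero => exact ⟨0, smul_zero _⟩
  | smul b m =>
    obtain ⟨-, j, hj⟩ := hZ m
    obtain ⟨w, hw⟩ := c.chi_v1
    have h := congrArg (V.mk S.χ Z) (hj _ (Ideal.pow_mem_pow
      (Ideal.subset_span ⟨1, one_lt_two, rfl⟩ : vv p 1 D.law ∈ Ih p 2 D.law) j))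
    rw [V.mk_smul, map_zero, map_pow, ← vA_eq, hw, mul_pow, mul_smul] at h
    exact ⟨j, by rw [smul_comm, (w.isUnit.pow j).smul_eq_zero.1 h, smul_zero]⟩
  | add x y hx hy =>
    obtain ⟨k, hk⟩ := hx
    obtain ⟨l, hl⟩ := hy
    exact ⟨k + l, by
      rw [smul_add, pow_add, mul_smul _ _ y, hl, mul_comm, mul_smul, hk, smul_zero, smul_zero,
        add_zero]⟩

theorem torsN (W : T) (y : V S.χ (W ⊗ S.N)) : ∃ k : ℕ, (X : F⟦X⟧) ^ k • y = 0 :=
  c.tors (tm_N c.hL W) y

end Cx

/-! ### The group action -/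

variable [CharP F p] {G G' : Type} [Group G] [ProG G] [MulSemiringAction G F⟦X⟧]
  [MulSemiringAction G (KK F)] [Group G'] [ProG G'] [MulSemiringAction G' (KK F)]
  {S : TS D p F}

theorem BG.toRingHom_eq (B : BG p F G G') (g : G) :
    MulSemiringAction.toRingHom G F⟦X⟧ g = ((B.emb g).φ : F⟦X⟧ →+* F⟦X⟧) :=
  RingHom.ext (B.emb_O g)

/-- the cocycle of the group of pairs -/
def BG.coc (B : BG p F G G') (S : TS D p F) : Coc G (D.law.map S.χ) where
  ga g := (B.emb g).γ
  smul g := by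
    rw [B.toRingHom_eq, S.law]
    exact (B.emb g).law
  mul g g' := by rw [B.toRingHom_eq, map_mul, Qt.LPair.mul_γ]

/-- `V χ W` with the action of `G` -/
def VX (_c : Cx S) (_B : BG p F G G') (W : T) : Type := V S.χ W

namespace VX

variable (c : Cx S) (B : BG p F G G')

instance (W : T) : AddCommGroup (VX c B W) := inferInstanceAs (AddCommGroup (V S.χ W))

instance (W : T) : Module F⟦X⟧ (VX c B W) := inferInstanceAs (Module F⟦X⟧ (V S.χ W))

instance (W : T) : DistribMulAction G (VX c B W) := (B.coc S).action c.H c.lawExt W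

instance (W : T) : SMulDistribClass G F⟦X⟧ (VX c B W) where
  smul_distrib_smul g b x := (B.coc S).hom_smul c.H c.lawExt g b x

/-- the identification -/
def eqv (W : T) : V S.χ W ≃ₗ[F⟦X⟧] VX c B W := LinearEquiv.refl _ _

/-- functoriality -/
def map {X Y : T} (f : X ⟶ Y) : VX c B X →ₗ[F⟦X⟧] VX c B Y := V.map S.χ f

/-- periodicity -/
def per (j : ℤ) (W : T) : VX c B W ≃ₗ[F⟦X⟧] VX c B (Se T j ⊗ W) := V.per S.χ j W

/-- the external product -/
def cross (X Y : T) : VX c B X →ₗ[F⟦X⟧] VX c B Y →ₗ[F⟦X⟧] VX c B (X ⊗ Y) := V.cross S.χ X Y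

/-- the generator -/
def gen (j : ℤ) : VX c B (Se T j) := V.gen S.χ j

/-- the unit -/
def one : VX c B (𝟙_ T) := V.one S.χ

variable {c B}

theorem g_def (g : G) {W : T} (x : VX c B W) :
    g • x = act c.H c.lawExt (MulSemiringAction.toRingHom G F⟦X⟧ g) (B.emb g).γ
      ((B.coc S).smul g) W x := rfl

theorem map_g (g : G) {X Y : T} (f : X ⟶ Y) (x : VX c B X) :
    map c B f (g • x) = g • map c B f x := (B.coc S).map_hom c.H c.lawExt g f x

theorem map_map {X Y Z : T} (f : X ⟶ Y) (g : Y ⟶ Z) (x : VX c B X) :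
    map c B g (map c B f x) = map c B (f ≫ g) x := V.map_map S.χ f g x

theorem map_id {X : T} (x : VX c B X) : map c B (𝟙 X) x = x :=
  LinearMap.congr_fun (V.map_id S.χ X) x

theorem g_cross (g : G) {X Y : T} (x : VX c B X) (y : VX c B Y) :
    g • cross c B X Y x y = cross c B X Y (g • x) (g • y) :=
  (B.coc S).hom_cross c.H c.lawExt g x y

theorem g_gen (g : G) (j : ℤ) : g • gen c B j = ((B.a g ^ j : F⟦X⟧ˣ) : F⟦X⟧) • gen c B j :=
  (B.coc S).hom_gen c.H c.lawExt g j

theorem g_one (g : G) : g • one c B = one c B := act_one' c.H c.lawExt _ _ _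

theorem g_per (g : G) (j : ℤ) {W : T} (x : VX c B W) :
    g • per c B j W x = ((B.a g ^ j : F⟦X⟧ˣ) : F⟦X⟧) • per c B j W (g • x) :=
  act_per c.H c.lawExt _ _ _ j x

theorem disc {W : T} (h : TM S W) : Disc G (VX c B W) where
  disc x := by
    obtain ⟨n, m, hnm⟩ := exists_act_eq_self c.H c.lawExt (X : F⟦X⟧) (c.tors h) x
    obtain ⟨i, hi⟩ := B.cof1 (max n m)
    refine ⟨i, fun g hg => hnm _ _ ((B.coc S).smul g) (fun b => ?_) fun k hk => ?_⟩
    · rw [B.toRingHom_eq]
      exact (pow_dvd_pow _ (le_max_right n m)).trans ((hi g hg).1 b)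
    · exact (pow_dvd_pow _ (le_max_right n m)).trans ((hi g hg).2 k (hk.trans (le_max_left n m)))

end VX

/-- `V χ (W ⊗ N)` with the action of `G` -/
abbrev VN (c : Cx S) (B : BG p F G G') (W : T) : Type := VX c B (W ⊗ S.N)

instance (c : Cx S) (B : BG p F G G') (W : T) : Disc G (VN c B W) := VX.disc (tm_N c.hL W)

end Vale.Agent.P221X.TC
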