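import Vale.Agent.P221X.TC.Rep
import Vale.Agent.P221X.TC.VN
import Vale.Agent.P221X.Meas.Inj
import Vale.Agent.P221X.GD.Keat
import Vale.Agent.P251.H.BrownApp

/-!
# P221X, block TOP-C: existence of the representing object, the action of the measures

* `exists_rep` : Brown representability;
* `Rep.lam c B : MG G F →+* End E` and its formal properties;
* `PiD`, `E2.ofRep` : the two-periodic object from the remaining fields.
-/

open CategoryTheory MonoidalCategory Limits Pretriangulated PowerSeries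

set_option linter.unusedSectionVars false

universe u

noncomputable section

namespace Vale.Agent.P221X.TC

open Vale.Agent.P251 Vale.Agent.P251.T Vale.Agent.P251.M Vale.Agent.P251.S Vale.Agent.P251.F
  Vale.Agent.P251.I Vale.Agent.P251.X Vale.Agent.P251.Z Vale.Agent.P217
open Vale.Agent.P251.M.EvenSpheres VT ProG

variable {T : Type u} [Category.{0} T] [Preadditive T] [HasZeroObject T] [HasShift T ℤ]
  [∀ n : ℤ, (shiftFunctor T n).Additive] [Pretriangulated T] [IsTriangulated T]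
  [MonoidalCategory T] [SymmetricCategory T] [TensorTriangulated T] [MonoidalClosed T]
  [HasCoproducts.{0} T] [HasProducts.{0} T] [StableCat T]
  {D : MUData T} {p : ℕ} [Fact p.Prime] {F : Type} [Field F] {S : TS D p F}

/-! ### Brown representability -/

/-- the cohomology theory -/
def Cx.coh (c : Cx S) : H.Coh.{0} T where
  obj W := VV S W →ₗ[F⟦X⟧] KO F
  res f φ := φ.comp (V.map S.χ (f ▷ S.N))
  res_id φ := by rw [id_whiskerRight, V.map_id, LinearMap.comp_id]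
  res_comp f g φ := by rw [comp_whiskerRight, V.map_comp, LinearMap.comp_assoc]
  res_add f φ ψ := LinearMap.add_comp _ _ _
  add_res f g φ := by rw [MonoidalPreadditive.add_whiskerRight, V.map_add', LinearMap.comp_add]
  exact {X Y Z f g h} hT φ hφ := KO.factor _ φ fun y hy => by
    obtain ⟨x, rfl⟩ := c.exactN hT y hy
    exact DFunLike.congr_fun hφ x
  prod {I} X := by
    classical
    have hb := V.coprodR S.χ X S.N
    constructor
    · intro φ ψ h
      apply LinearMap.ext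
      intro y
      obtain ⟨x, rfl⟩ := hb.2 y
      induction x using DirectSum.induction_on with
      | zero => rw [map_zero, map_zero, map_zero]
      | add x y hx hy => rw [map_add, map_add, map_add, hx, hy]
      | of i x =>
        rw [← DirectSum.lof_eq_of F⟦X⟧, DirectSum.toModule_lof]
        exact DFunLike.congr_fun (congrFun h i) x
    · intro φ
      refine ⟨(DirectSum.toModule F⟦X⟧ I (KO F) φ).comp
        (LinearEquiv.ofBijective _ hb).symm.toLinearMap, funext fun i => ?_⟩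
      apply LinearMap.ext
      intro x
      have h1 : (LinearEquiv.ofBijective _ hb).symm (V.map S.χ (Sigma.ι X i ▷ S.N) x) =
          DirectSum.lof F⟦X⟧ I (fun i => VV S (X i)) i x := by
        rw [LinearEquiv.symm_apply_eq, LinearEquiv.ofBijective_apply, DirectSum.toModule_lof]
      change (DirectSum.toModule F⟦X⟧ I (KO F) φ) ((LinearEquiv.ofBijective _ hb).symm
        (V.map S.χ (Sigma.ι X i ▷ S.N) x)) = φ i x
      rw [h1, DirectSum.toModule_lof]

/-- **The representing object exists.** -/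
theorem exists_rep (c : Cx S) : Nonempty (Rep S) := by
  obtain ⟨E, ev, h⟩ := H.brown_cpt (G := 𝟙_ T) (fun n _ X f => StableCat.compact n X f)
    (fun X h => StableCat.generator X h) c.coh fun _ => inferInstance
  exact ⟨⟨E, ev, h⟩⟩

theorem TS.chi_v1 [CharP F p] (S : TS D p F) :
    S.χ (HRing.of (stdEven T) D.R _ (D.vel p 1)) = X := by
  rw [← D.vel_spec, ← vv_map, S.law]
  exact Qt.Kt.vv_FO

/-- the self map of `N` -/
def TS.g1 (S : TS D p F) : Se T ((p : ℤ) ^ 1 - 1) ⊗ S.N ⟶ S.N := onM S S.W.f1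

theorem map_opN_g1 (W : T) (x : VV S W) :
    V.map S.χ (opN S S.g1 W) (perN S _ W x) =
      S.χ (HRing.of (stdEven T) D.R _ (D.vel p 1)) • x := by
  have h1 := hur_sw W (hur_sw S.N' S.W.hur1')
  rw [← V.map_per_hur S.χ h1 x, perN_apply, V.map_map, shN_hom, V.per_apply, Category.assoc]
  rfl

/-! ### The action of the measures -/

variable [CharP F p] {G G' : Type} [Group G] [ProG G] [MulSemiringAction G F⟦X⟧]
  [MulSemiringAction G (KK F)] [ActK G F] [Group G'] [ProG G'] [MulSemiringAction G' F⟦X⟧]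
  [MulSemiringAction G' (KK F)] [ActK G' F]

theorem BG.a_mul (B : BG p F G G') (g h : G) :
    (B.a (g * h) : F⟦X⟧) = B.a g * g • (B.a h : F⟦X⟧) := by
  rw [BG.a, BG.a, BG.a, map_mul, Qt.LPair.mul_γ, InvSeries.lead_mul, InvSeries.lead_map,
    Units.val_mul, B.emb_O]
  rfl

theorem BG.a_one (B : BG p F G G') : B.a 1 = 1 := by
  ext1
  rw [BG.a, map_one, Qt.LPair.one_γ, InvSeries.lead_val, InvSeries.c_zero_one, Units.val_one]

theorem BG.smul_a_inv (B : BG p F G G') (g : G) (j : ℤ) :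
    g • ((B.a g⁻¹ ^ j : F⟦X⟧ˣ) : F⟦X⟧) = ((B.a g ^ (-j) : F⟦X⟧ˣ) : F⟦X⟧) := by
  have h := B.a_mul g g⁻¹
  rw [mul_inv_cancel, B.a_one] at h
  have h1 : Units.map (MulSemiringAction.toRingHom G F⟦X⟧ g : F⟦X⟧ →* F⟦X⟧) (B.a g⁻¹) =
      (B.a g)⁻¹ := by
    rw [_root_.eq_inv_iff_mul_eq_one, mul_comm]
    exact Units.ext h.symm
  have h2 := congrArg (fun w : F⟦X⟧ˣ => ((w ^ j : F⟦X⟧ˣ) : F⟦X⟧)) h1
  simp only [← map_zpow, inv_zpow'] at h2
  exact h2

section lam

variable (c : Cx S) (B : BG p F G G')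

/-- the multiplication -/
def mulG (W : T) : VN c B (D.R ⊗ W) →ₗ[F⟦X⟧] VN c B W := mulN S W

/-- the periodicity -/
def perG (j : ℤ) (W : T) : VN c B W ≃ₗ[F⟦X⟧] VN c B (W ⊗ Se T j) := perN S j W

variable {c B}

theorem g_perG (g : G) (j : ℤ) {W : T} (x : VN c B W) :
    g • perG c B j W x = ((B.a g ^ j : F⟦X⟧ˣ) : F⟦X⟧) • perG c B j W (g • x) := by
  change g • VX.map c B (shN S (Se T j) W).hom (VX.per c B j _ x) =
    _ • VX.map c B (shN S (Se T j) W).hom (VX.per c B j _ (g • x))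
  rw [← VX.map_g, VX.g_per, map_smul]

theorem g_mul_lin {g : G} {a : F⟦X⟧ˣ} (h : (B.emb g).γ = InvSeries.lin a) (W : T)
    (x : VX c B (D.R ⊗ W)) :
    g • (VX.eqv c B W (V.mul S.χ W x)) = VX.eqv c B W (V.mul S.χ W (g • x : VX c B _)) := by
  have h1 : ∀ (Y : T) (j : ℤ) (y : Se T j ⟶ D.R ⊗ Y), g • VX.eqv c B Y (V.of S.χ Y j y) =
      ((a ^ j : F⟦X⟧ˣ) : F⟦X⟧) • VX.eqv c B Y (V.of S.χ Y j y) := fun Y j y =>
    act_lin c.H c.lawExt _ _ ((B.coc S).smul g) a h j y
  let L : VX c B (D.R ⊗ W) →ₗ[F⟦X⟧] VX c B W := V.mul S.χ W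
  change g • L x = L (g • x)
  induction x using V.ind with
  | zero => exact (congrArg (g • ·) L.map_zero).trans ((smul_zero g).trans
      ((congrArg L (smul_zero g)).trans L.map_zero).symm)
  | add x y hx hy =>
    have e : ∀ x y : VX c B (D.R ⊗ W), g • L x = L (g • x) → g • L y = L (g • y) →
        g • L (x + y) = L (g • (x + y)) := fun x y hx hy => by
      rw [map_add, smul_add, smul_add, map_add, hx, hy]
    exact e x y hx hy
  | smul b j y =>
    have e : ∀ x : VX c B (D.R ⊗ W), g • L x = L (g • x) → g • L (b • x) = L (g • b • x) :=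
      fun x hx => by rw [map_smul, smul_distrib_smul g, smul_distrib_smul g, map_smul, hx]
    refine e (VX.eqv c B _ (V.of S.χ _ j y)) ?_
    rw [h1, map_smul]
    have h2 : L (VX.eqv c B _ (V.of S.χ _ j y)) = VX.eqv c B W (V.of S.χ W j _) :=
      V.mul_of S.χ j y
    rw [h2, h1]

theorem g_mulG {g : G} {a : F⟦X⟧ˣ} (h : (B.emb g).γ = InvSeries.lin a) (W : T)
    (x : VN c B (D.R ⊗ W)) : g • mulG c B W x = mulG c B W (g • x) := by
  have h1 := g_mul_lin (c := c) h (W ⊗ S.N) (VX.map c B (α_ D.R W S.N).hom x)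
  rw [← VX.map_g] at h1
  exact h1

end lam

namespace Rep

variable (r : Rep S) (c : Cx S) (B : BG p F G G')

/-- the functional of a map, on the module with the action of `G` -/
def clG (W : T) : (W ⟶ r.E) ≃+ (VN c B W →ₗ[F⟦X⟧] KO F) := r.cl W

/-- the universal functional -/
def evG : VN c B r.E →ₗ[F⟦X⟧] KO F := r.ev

theorem clG_id : r.clG c B r.E (𝟙 r.E) = r.evG c B := r.cl_id

theorem clG_comp {W W' : T} (g : W' ⟶ W) (f : W ⟶ r.E) :
    r.clG c B W' (g ≫ f) = (r.clG c B W f).comp (VX.map c B (g ▷ S.N)) := r.cl_comp g f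

theorem clG_def {W : T} (f : W ⟶ r.E) :
    r.clG c B W f = (r.evG c B).comp (VX.map c B (f ▷ S.N)) := rfl

/-- the map of a measure -/
def lam0 (μ : MG G F) : r.E ⟶ r.E := (r.clG c B r.E).symm (μ • r.evG c B)

theorem clG_lam0 {W : T} (f : W ⟶ r.E) (μ : MG G F) :
    r.clG c B W (f ≫ r.lam0 c B μ) = μ • r.clG c B W f := by
  rw [clG_comp, lam0, AddEquiv.apply_symm_apply,
    Meas.smul_comp _ _ (VX.map c B _) fun g x => VX.map_g g _ x, clG_def]

/-- **The action of the measures.** -/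
def lam : MG G F →+* End r.E where
  toFun := r.lam0 c B
  map_one' := by rw [lam0, one_smul, ← clG_id, AddEquiv.symm_apply_apply]; rfl
  map_mul' μ ν := (r.clG c B r.E).injective (by
    rw [End.mul_def, clG_lam0, lam0, lam0, AddEquiv.apply_symm_apply, AddEquiv.apply_symm_apply,
      mul_smul])
  map_zero' := by rw [lam0, zero_smul, map_zero]
  map_add' μ ν := by rw [lam0, add_smul, map_add]; rfl

theorem clG_lam {W : T} (f : W ⟶ r.E) (μ : MG G F) :
    r.clG c B W (f ≫ r.lam c B μ) = μ • r.clG c B W f := r.clG_lam0 c B f μ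

theorem clG_lam_id (μ : MG G F) : r.clG c B r.E (r.lam c B μ) = μ • r.evG c B := by
  rw [← clG_id, ← clG_lam, Category.id_comp]

theorem cl_lam_o {W : T} (f : W ⟶ r.E) (b : F⟦X⟧) :
    r.cl W (f ≫ r.lam c B (Meas.ofO G (KO F) b)) = b • r.cl W f :=
  (r.clG_lam c B f _).trans (Meas.ofO_smul _ _)

theorem clG_lam_g {W : T} (f : W ⟶ r.E) (g : G) (x : VN c B W) :
    r.clG c B W (f ≫ r.lam c B (Meas.ofG F⟦X⟧ (KO F) g)) x = g • r.clG c B W f (g⁻¹ • x) := by
  rw [clG_lam, Meas.ofG_smul_apply]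

theorem lam_bij_iff :
    Function.Bijective (r.lam c B) ↔ Function.Bijective (orb G (r.evG c B)) := by
  rw [KO.bij_iff_dual, ← Function.Bijective.of_comp_iff' (r.clG c B r.E).bijective,
    ← Function.Bijective.of_comp_iff _ (Meas.lin (G := G) (O := F⟦X⟧) (I := KO F)).bijective]
  exact Iff.of_eq (congrArg _ (funext fun μ => r.clG_lam_id c B μ))

theorem o_lin (f : F⟦X⟧) : r.mod.IsLinear r.mod (r.lam c B (Meas.ofO G (KO F) f)) := by
  refine r.isLinear_of _ _ fun x => ?_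
  rw [← Category.id_comp (r.lam c B _ : r.E ⟶ r.E), cl_lam_o, cl_id, LinearMap.smul_apply,
    LinearMap.smul_apply, mod_act, ev_act]

theorem c_lin (ζ : (ZMod p)ˣ) :
    r.mod.IsLinear r.mod (r.lam c B (Meas.ofG F⟦X⟧ (KO F) (B.c ζ))) := by
  refine r.isLinear_of _ _ fun (x : VN c B (D.R ⊗ r.E)) => ?_
  change r.clG c B _ _ (VX.map c B (r.act ▷ S.N) x) = r.clG c B _ _ (mulG c B r.E x)
  rw [clG_lam_id, Meas.ofG_smul_apply, Meas.ofG_smul_apply, ← map_inv, ← VX.map_g,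
    g_mulG (B.c_γ ζ⁻¹)]
  exact congrArg _ (r.ev_act _)

theorem op_comm {A : T} (g : A ⊗ S.N ⟶ S.N) (μ : MG G F) :
    (r.lam c B μ : r.E ⟶ r.E) ▷ A ≫ r.op g = r.op g ≫ r.lam c B μ := by
  apply (r.clG c B _).injective
  have h1 : ∀ f : r.E ⟶ r.E, r.clG c B _ (f ▷ A ≫ r.op g) =
      (r.clG c B _ f).comp (VX.map c B (opN S g r.E)) := fun f => LinearMap.ext (r.cl_op g f)
  have h2 := h1 (𝟙 _)
  rw [id_whiskerRight, Category.id_comp, clG_id] at h2
  rw [h1, clG_lam, clG_lam_id, h2,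
    Meas.smul_comp _ _ (VX.map c B _) fun g x => VX.map_g g _ x]

theorem β_comm (μ : MG G F) : (r.lam c B μ : r.E ⟶ r.E) ▷ _ ≫ r.β = r.β ≫ r.lam c B μ :=
  r.op_comm c B _ μ

theorem β_lin : (r.mod.tensorRight (Sph T (-1))).IsLinear r.mod r.β := r.op_lin _

theorem mulR_v1 : TD.mulR r.mod (D.vel p 1) = r.op S.g1 := by
  refine r.hom_ext_per _ fun x => ?_
  have h := r.cl_mulR (D.vel p 1) (𝟙 r.E) x
  rw [id_whiskerRight, Category.id_comp, cl_id] at h
  rw [h, cl_op_id, map_opN_g1, map_smul]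

theorem v_lam (μ : MG G F) : TD.mulR r.mod (D.vel p 1) ≫ r.lam c B μ =
    (r.lam c B μ : r.E ⟶ r.E) ▷ _ ≫ TD.mulR r.mod (D.vel p 1) := by
  rw [mulR_v1, op_comm]

theorem mulR_eq {j : ℤ} (z : Se T j ⟶ D.R) : TD.mulR r.mod z =
    (r.per j).hom ≫ r.lam c B (Meas.ofO G (KO F) (S.χ (HRing.of (stdEven T) D.R j z))) := by
  refine r.hom_ext_per _ fun x => ?_
  have h := r.cl_mulR z (𝟙 r.E) x
  rw [id_whiskerRight, Category.id_comp, cl_id] at h
  rw [h, cl_lam_o, LinearMap.smul_apply, per_hom, cl_perH_id]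

theorem per_o (j : ℤ) (f : F⟦X⟧) : (r.per j).hom ≫ r.lam c B (Meas.ofO G (KO F) f) =
    (r.lam c B (Meas.ofO G (KO F) f) : r.E ⟶ r.E) ▷ _ ≫ (r.per j).hom := by
  refine r.hom_ext_per _ fun x => ?_
  rw [cl_lam_o, LinearMap.smul_apply, per_hom, cl_perH_id, cl_perH,
    ← Category.id_comp (r.lam c B _ : r.E ⟶ r.E), cl_lam_o, cl_id, LinearMap.smul_apply]

theorem clG_per (j : ℤ) {W : T} (f : W ⟶ r.E) (x : VN c B W) :
    r.clG c B _ (f ▷ Se T j ≫ (r.per j).hom) (perG c B j W x) = r.clG c B W f x :=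
  r.cl_perH j f x

theorem per_g (j : ℤ) (g : G) : (r.per j).hom ≫ r.lam c B (Meas.ofG F⟦X⟧ (KO F) g) =
    (r.lam c B (Meas.ofO G (KO F) ((B.a g ^ (-j) : F⟦X⟧ˣ) : F⟦X⟧) * Meas.ofG F⟦X⟧ (KO F) g) :
      r.E ⟶ r.E) ▷ _ ≫ (r.per j).hom := by
  refine r.hom_ext_per _ fun (x : VN c B r.E) => ?_
  change r.clG c B _ _ (perG c B j _ x) = r.clG c B _ _ (perG c B j _ x)
  have h : ∀ y, r.clG c B _ (r.per j).hom (perG c B j _ y) = r.evG c B y := r.cl_perH_id j
  rw [clG_per, clG_lam_g, g_perG, map_smul, h, clG_lam_id, mul_smul, Meas.ofO_smul,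
    LinearMap.smul_apply, Meas.ofG_smul_apply, smul_distrib_smul, B.smul_a_inv]

end Rep

/-- The homotopy of the representing object (row PI). -/
structure PiD (r : Rep S) (c : Cx S) (B : BG p F G G') where
  odd : OddZero r.E
  pe : ∀ j : ℤ, (Se T j ⟶ r.E) ≃+ F⟦X⟧
  pe_g : ∀ (j : ℤ) (x : Se T j ⟶ r.E) (g : G),
    pe j (x ≫ r.lam c B (Meas.ofG F⟦X⟧ (KO F) g)) =
      ((B.a g ^ (-j) : F⟦X⟧ˣ) : F⟦X⟧) * g • pe j x
  pe_lam : ∀ (a : ℤ) (x : Se T (((p : ℤ) - 1) * a) ⟶ r.E) (μ : MG G F),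
    KK.uz (-a) * algebraMap F⟦X⟧ (KK F) (pe _ (x ≫ r.lam c B μ)) =
      Meas.actK μ (KK.uz (-a) * algebraMap F⟦X⟧ (KK F) (pe _ x))
  pe_mod : ∀ {i j k : ℤ} (h : i + j = k) (z : Se T i ⟶ D.R) (x : Se T j ⟶ r.E),
    pe k (gsmul r.mod h z x) = S.χ (HRing.of (stdEven T) D.R i z) * pe j x
  pe_per : ∀ {i j k : ℤ} (h : i + j = k) (x : Se T i ⟶ r.E),
    pe k ((stdEven T).ext h x (𝟙 (Se T j)) ≫ (r.per j).hom) = pe i x
  real : ∀ (Y : T) (a : ModStr D.R Y), (p : ℤ) • 𝟙 Y = 0 → OddZero Y →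
    Function.Injective (sm a (vA D p 1)) → ∀ l : He Y →+ F⟦X⟧,
      (∀ z y, l (sm a z y) = S.χ z * l y) →
        ∃ f : Y ⟶ r.E, a.IsLinear r.mod f ∧
          ∀ (j : ℤ) (y : Se T j ⟶ Y), pe j (y ≫ f) = l (He.of Y j y)

/-- The remaining fields of `E2` (rows KAP, ELOC, BOCK). -/
structure RestD (r : Rep S) (c : Cx S) (B : BG p F G G') : Prop where
  lam_bij : Function.Bijective (r.lam c B)
  loc : IsLocal S.Kh r.E
  v2_iso : IsZero (r.E ⊗ S.W.V2)
  β_bij : Function.Bijective fun μ => (r.β ≫ r.lam c B μ : r.E ⊗ Sph T (-1) ⟶ r.E)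
  β_M : ∀ j : ℤ, Function.Surjective fun x : S.W.M ⊗ Se T j ⟶ r.E => x ▷ Sph T (-1) ≫ r.β

/-- **The two-periodic object.** -/
def E2.ofRep {r : Rep S} {c : Cx S} {B : BG p F G G'} (P : PiD r c B) (Q : RestD r c B) :
    E2 S B where
  E := r.E
  lam := r.lam c B
  lam_bij := Q.lam_bij
  mod := r.mod
  pE := r.pE
  loc := Q.loc
  o_lin := r.o_lin c B
  c_lin := r.c_lin c B
  v_lam := r.v_lam c B
  v2_iso := Q.v2_iso
  per := r.per
  per_g := r.per_g c B
  per_o := r.per_o c B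
  per_lin := r.per_lin
  β := r.β
  β_comm := r.β_comm c B
  β_bij := Q.β_bij
  β_lin := r.β_lin
  β_M := Q.β_M
  odd := P.odd
  pe := P.pe
  pe_g := P.pe_g
  pe_lam := P.pe_lam
  pe_mod := P.pe_mod
  pe_per := P.pe_per
  real := P.real

/-- Row E2: the two-periodic object with its homology. -/
def RowE2 (S : TS D p F) (B : BG p F G G') : Prop :=
  Cx S → RowPTS B → ∃ X : E2 S B, Nonempty (Kap X)

end Vale.Agent.P221X.TC
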