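import Vale.Agent.P221X.TC.VN
import Vale.Agent.P221X.VT.Mul

/-!
# P221X, block TOP-C: the localisation `Z ⟶ Z ⊗ LS` in homology

For `Z` killed by `p`:

* `Cx.awayMP`, `Cx.away` : `Z ⟶ Z ⊗ LS` inverts `v₁` in homology and `u` in `V χ`;
* `Cx.exactL`, `surjL` : `V Z ⟶ V (Z ⊗ LS) ⟶ V (Z ⊗ N') ⟶ 0`;
* `Cx.oddL`, `Cx.oddN'` : vanishing in odd degrees;
* `Cx.toM_bijective` : `V W ⟶ V (W ⊗ M)`.
-/

open CategoryTheory MonoidalCategory Limits Pretriangulated PowerSeries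

set_option linter.unusedSectionVars false

universe u

noncomputable section

namespace Vale.Agent.P221X.TC

open Vale.Agent.P251 Vale.Agent.P251.T Vale.Agent.P251.M Vale.Agent.P251.S Vale.Agent.P251.F
  Vale.Agent.P251.I Vale.Agent.P251.X Vale.Agent.P221X.VT
open Vale.Agent.P251.M.EvenSpheres ProG
open Vale.Agent.P257.H314 (sI)

variable {T : Type u} [Category.{0} T] [Preadditive T] [HasZeroObject T] [HasShift T ℤ]
  [∀ n : ℤ, (shiftFunctor T n).Additive] [Pretriangulated T] [IsTriangulated T]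
  [MonoidalCategory T] [SymmetricCategory T] [TensorTriangulated T] [MonoidalClosed T]
  [HasCoproducts.{0} T] [HasProducts.{0} T] [StableCat T]
  {D : MUData T} {p : ℕ} [Fact p.Prime] {F : Type} [Field F]

namespace Vn

/-! ### Triangles and odd degrees -/

section tri

variable {X Y Z : T} {f : X ⟶ Y} {g : Y ⟶ Z} {δ : Z ⟶ X⟦(1 : ℤ)⟧}

theorem dist_iso (h : Triangle.mk f g δ ∈ distTriang T) {X' Y' : T} (e : X' ≅ X) (e' : Y' ≅ Y) :
    Triangle.mk (e.hom ≫ f ≫ e'.inv) (e'.hom ≫ g) (δ ≫ e.inv⟦(1 : ℤ)⟧') ∈ distTriang T :=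
  isomorphic_distinguished _ h _ (Triangle.isoMk _ _ e e' (Iso.refl Z)
    (show (e.hom ≫ f ≫ e'.inv) ≫ e'.hom = e.hom ≫ f by simp)
    (show (e'.hom ≫ g) ≫ 𝟙 Z = e'.hom ≫ g by simp)
    (show (δ ≫ e.inv⟦(1 : ℤ)⟧') ≫ e.hom⟦(1 : ℤ)⟧' = 𝟙 Z ≫ δ by simp [← Functor.map_comp]))

theorem odd_shift (h : OddZero X) (j : ℤ) (x : Se T j ⟶ X⟦(1 : ℤ)⟧) : x = 0 := by
  obtain ⟨y, hy⟩ := exists_desuspend (2 * j) ((sI T j).inv ≫ x)
  rw [h _ ⟨j - 1, by ring⟩ y, Functor.map_zero, comp_zero] at hy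
  rw [← cancel_epi (sI T j).inv, hy, comp_zero]

theorem odd_of_shift (h : ∀ (j : ℤ) (x : Se T j ⟶ X⟦(1 : ℤ)⟧), x = 0) : OddZero X := by
  rintro _ ⟨k, rfl⟩ x
  have h1 := h (k + 1) ((sI T (k + 1)).hom ≫ ((shiftFunctorAdd' T (2 * k + 1) 1 (2 * (k + 1))
    (by ring)).app (𝟙_ T)).hom ≫ x⟦(1 : ℤ)⟧')
  apply (shiftFunctor T (1 : ℤ)).map_injective
  rw [Functor.map_zero]
  rwa [Preadditive.IsIso.comp_left_eq_zero, Preadditive.IsIso.comp_left_eq_zero] at h1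

theorem surj_even (h : Triangle.mk f g δ ∈ distTriang T) (hX : OddZero X) {j : ℤ}
    (z : Se T j ⟶ Z) : ∃ y, z = y ≫ g := exact₃ h z (odd_shift hX j _)

theorem inj_even (h : Triangle.mk f g δ ∈ distTriang T) (hZ : OddZero Z) {j : ℤ}
    (x : Se T j ⟶ X) (hx : x ≫ f = 0) : x = 0 := by
  let a := (shiftFunctorAdd' T (2 * j) 1 (2 * j + 1) rfl).app (𝟙_ T)
  obtain ⟨y, hy⟩ := exact₁ h (a.hom ≫ ((sI T j).inv ≫ x)⟦(1 : ℤ)⟧') (by
    rw [Category.assoc, ← Functor.map_comp, Category.assoc, hx, comp_zero, Functor.map_zero,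
      comp_zero])
  rw [hZ _ ⟨j, rfl⟩ y, zero_comp, Preadditive.IsIso.comp_left_eq_zero] at hy
  have h2 : (sI T j).inv ≫ x = 0 :=
    (shiftFunctor T (1 : ℤ)).map_injective (by rw [Functor.map_zero]; exact hy)
  rwa [Preadditive.IsIso.comp_left_eq_zero] at h2

theorem odd_cof (h : Triangle.mk f g δ ∈ distTriang T) (hY : OddZero Y)
    (hf : ∀ (j : ℤ) (x : Se T j ⟶ X), x ≫ f = 0 → x = 0) : OddZero Z := by
  rintro _ ⟨k, rfl⟩ z
  let a := (shiftFunctorAdd' T (2 * k) 1 (2 * k + 1) rfl).app (𝟙_ T)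
  obtain ⟨x, hx⟩ := (shiftFunctor T (1 : ℤ)).map_surjective (a.inv ≫ z ≫ δ)
  have h1 : x ≫ f = 0 := (shiftFunctor T (1 : ℤ)).map_injective (by
    rw [Functor.map_comp, hx, Category.assoc, Category.assoc, zero₃₁ h, comp_zero, comp_zero,
      Functor.map_zero])
  have h2 := hf k ((sI T k).hom ≫ x) (by rw [Category.assoc, h1, comp_zero])
  rw [Preadditive.IsIso.comp_left_eq_zero] at h2
  rw [h2, Functor.map_zero, eq_comm, Preadditive.IsIso.comp_left_eq_zero] at hx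
  obtain ⟨y, hy⟩ := exact₃ h z hx
  rw [hy, hY _ ⟨k, rfl⟩ y, zero_comp]

variable {K : T} [MonObj K]

theorem mp_ext {x : MP (stdEven T) K X} (h : ∀ j, MP.comp _ K X j x = 0) : x = 0 := by
  obtain ⟨s, hs⟩ := exists_sum_comp x
  rw [hs]
  exact Finset.sum_eq_zero fun j _ => by rw [h, map_zero]

theorem mp_surj (h : Triangle.mk f g δ ∈ distTriang T) (hX : OddZero (K ⊗ X)) :
    Function.Surjective (MP.map (stdEven T) K g) := fun z => by
  induction z using MP.ind with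
  | zero => exact ⟨0, map_zero _⟩
  | of j z =>
    obtain ⟨y, rfl⟩ := surj_even (tens_dist K h) hX z
    exact ⟨_, MP.map_of g j y⟩
  | add z z' hz hz' =>
    obtain ⟨y, rfl⟩ := hz
    obtain ⟨y', rfl⟩ := hz'
    exact ⟨y + y', map_add _ _ _⟩

theorem mp_inj (h : Triangle.mk f g δ ∈ distTriang T) (hZ : OddZero (K ⊗ Z)) :
    Function.Injective (MP.map (stdEven T) K f) :=
  (injective_iff_map_eq_zero _).2 fun x hx => mp_ext fun j =>
    inj_even (tens_dist K h) hZ _ (by rw [← VT.comp_map, hx, map_zero])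

theorem mp_odd_cof (h : Triangle.mk f g δ ∈ distTriang T) (hY : OddZero (K ⊗ Y))
    (hf : Function.Injective (MP.map (stdEven T) K f)) : OddZero (K ⊗ Z) :=
  odd_cof (tens_dist K h) hY fun j x hx => MP.of_injective j (hf (by
    rw [MP.map_of, hx, map_zero, map_zero, map_zero]))

theorem mp_shift_zero (h : OddZero (K ⊗ X)) (m : MP (stdEven T) K (X⟦(1 : ℤ)⟧)) : m = 0 :=
  mp_ext fun j => by
    have h1 := odd_shift h j (MP.comp _ K _ j m ≫ ((tensorLeft K).commShiftIso (1 : ℤ)).hom.app X)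
    rwa [Preadditive.IsIso.comp_right_eq_zero] at h1

theorem odd_of_mp (h : ∀ m : MP (stdEven T) K (X⟦(1 : ℤ)⟧), m = 0) : OddZero (K ⊗ X) :=
  odd_of_shift fun j x => by
    have h1 := MP.of_injective j ((h (MP.of _ K _ j
      (x ≫ ((tensorLeft K).commShiftIso (1 : ℤ)).inv.app X))).trans (map_zero _).symm)
    rwa [Preadditive.IsIso.comp_right_eq_zero] at h1

theorem mp_bij (f : X ⟶ Y) [IsIso f] : Function.Bijective (MP.map (stdEven T) K f) :=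
  Function.bijective_iff_has_inverse.2 ⟨MP.map (stdEven T) K (inv f),
    fun x => by rw [MP_map_map, IsIso.hom_inv_id, MP.map_id, LinearMap.id_apply],
    fun x => by rw [MP_map_map, IsIso.inv_hom_id, MP.map_id, LinearMap.id_apply]⟩

theorem mp_gen_gen {i j : ℤ} (h : i + j = 0) (x : MP (stdEven T) K X) :
    MP.map _ K ((α_ (Se T i) (Se T j) X).inv ≫
      (((stdEven T).mu i j 0 h).hom ≫ (stdEven T).zero.inv) ▷ X ≫ (λ_ X).hom)
      (MP.cross _ K _ _ (MP.gen _ K i) (MP.cross _ K _ X (MP.gen _ K j) x)) = x := by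
  rw [← MP.cross_assoc, MP_map_map, Iso.hom_inv_id_assoc, ← MP_map_map, ← tensorHom_id,
    MP.map_cross, ← MP_map_map, MP.map_mu_gen, MP.map_zero_inv_gen, MP.map_id, LinearMap.id_apply,
    MP.one_cross]

theorem mp_gen_inj (j : ℤ) :
    Function.Injective (MP.cross (stdEven T) K (Se T j) X (MP.gen _ K j)) := fun x y h => by
  rw [← mp_gen_gen (neg_add_cancel j) x, h, mp_gen_gen]

theorem mp_gen_bij (j : ℤ) :
    Function.Bijective (MP.cross (stdEven T) K (Se T j) X (MP.gen _ K j)) := by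
  refine ⟨mp_gen_inj j, fun y => ?_⟩
  let f : Se T (-j) ⊗ (Se T j ⊗ X) ⟶ X := (α_ (Se T (-j)) (Se T j) X).inv ≫
    (((stdEven T).mu (-j) j 0 (neg_add_cancel j)).hom ≫ (stdEven T).zero.inv) ▷ X ≫ (λ_ X).hom
  refine ⟨MP.map _ K f (MP.cross _ K _ _ (MP.gen _ K (-j)) y), ?_⟩
  apply mp_gen_inj (-j)
  apply (mp_bij f).1
  exact mp_gen_gen (neg_add_cancel j) _

end tri

theorem p_shift {n : ℤ} {Z : T} (h : n • 𝟙 Z = 0) (k : ℤ) : n • 𝟙 (Z⟦k⟧) = 0 := by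
  have h1 : (shiftFunctor T k).map (n • 𝟙 Z) = n • (shiftFunctor T k).map (𝟙 Z) :=
    Functor.map_zsmul _
  rw [h, Functor.map_zero, CategoryTheory.Functor.map_id] at h1
  exact h1.symm

end Vn

open Vn

/-! ### The maps `toM` and `toL` -/

/-- `Z ⟶ Z ⊗ M` -/
def TS.toM (S : TS D p F) (Z : T) : Z ⟶ Z ⊗ S.W.M := (ρ_ Z).inv ≫ Z ◁ S.W.iM

variable {S : TS D p F}

theorem dist_toM (S : TS D p F) (Z : T) :
    ∃ δ, Triangle.mk ((p : ℤ) • 𝟙 Z) (S.toM Z) δ ∈ distTriang T := by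
  have h := dist_iso (tens_dist Z S.W.distM) (ρ_ Z).symm (ρ_ Z).symm
  have h1 : (tensorLeft Z).map ((p : ℤ) • 𝟙 (𝟙_ T)) = (p : ℤ) • (tensorLeft Z).map (𝟙 (𝟙_ T)) :=
    Functor.map_zsmul _
  have h2 : (ρ_ Z).symm.hom ≫ Z ◁ ((p : ℤ) • 𝟙 (𝟙_ T)) ≫ (ρ_ Z).symm.inv = (p : ℤ) • 𝟙 Z := by
    rw [show Z ◁ ((p : ℤ) • 𝟙 (𝟙_ T)) = _ from h1]
    simp
  rw [h2] at h
  exact ⟨_, h⟩

theorem dist_toL (S : TS D p F) (Z : T) :
    ∃ δ, Triangle.mk (S.toL Z) (Z ◁ S.iN) δ ∈ distTriang T := by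
  have h := dist_iso (tens_dist Z S.distN) (ρ_ Z).symm (Iso.refl _)
  rw [Iso.refl_inv, Iso.refl_hom, Category.comp_id, Category.id_comp] at h
  exact ⟨_, h⟩

theorem exists_retr (S : TS D p F) {Z : T} (h : (p : ℤ) • 𝟙 Z = 0) :
    ∃ r, S.toM Z ≫ r = 𝟙 Z := by
  obtain ⟨δ, hδ⟩ := dist_toM S Z
  obtain ⟨r, hr⟩ := Triangle.yoneda_exact₂ _ hδ (𝟙 Z) ((Category.comp_id _).trans h)
  exact ⟨r, hr.symm⟩

theorem toM_nat (S : TS D p F) {Z Z' : T} (f : Z ⟶ Z') :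
    f ≫ S.toM Z' = S.toM Z ≫ f ▷ S.W.M := by
  rw [TS.toM, TS.toM, Category.assoc, whisker_exchange, rightUnitor_inv_naturality_assoc]

theorem toL_nat (S : TS D p F) {Z Z' : T} (f : Z ⟶ Z') :
    f ≫ S.toL Z' = S.toL Z ≫ f ▷ S.LS := by
  rw [TS.toL, TS.toL, Category.assoc, whisker_exchange, rightUnitor_inv_naturality_assoc]

theorem toM_assoc (S : TS D p F) (W Z : T) :
    S.toM (W ⊗ Z) ≫ (α_ W Z S.W.M).hom = W ◁ S.toM Z := by
  simp [TS.toM]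

theorem tm_N' (hL : LocF S) {Z : T} (h : (p : ℤ) • 𝟙 Z = 0) : TM S (Z ⊗ S.N') := by
  obtain ⟨r, hr⟩ := exists_retr S (p_right h S.N')
  exact ((tm_N hL Z).iso (α_ Z S.N' S.W.M)).retract _ r hr

theorem TM.v1 {Z : T} (h : TM S Z) (m : MP (stdEven T) D.R Z) :
    ∃ j : ℕ, vv p 1 D.law ^ j • m = 0 := by
  obtain ⟨-, j, hj⟩ := h m
  exact ⟨j, hj _ (Ideal.pow_mem_pow
    (Ideal.subset_span ⟨1, one_lt_two, rfl⟩ : vv p 1 D.law ∈ Ih p 2 D.law) j)⟩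

theorem v1_bij_M {Y : T} (h : IsZero (Y ⊗ S.W.V1)) :
    Function.Bijective fun m : MP (stdEven T) D.R (Y ⊗ S.W.M) => vv p 1 D.law • m := by
  have := (S.W.zero1_iff Y).1 h
  have h1 : IsIso (sw Y S.W.f1) := by
    unfold sw
    infer_instance
  have h2 := (mp_bij (K := D.R) (sw Y S.W.f1)).comp (mp_gen_bij _)
  convert h2 using 1
  funext m
  rw [D.vel_spec]
  exact (MP_map_hur (hur_sw Y S.W.hur1') m).symm

theorem v1_bij {Y : T} (hp : (p : ℤ) • 𝟙 Y = 0) (h : IsZero (Y ⊗ S.W.V1)) :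
    Function.Bijective fun m : MP (stdEven T) D.R Y => vv p 1 D.law • m := by
  obtain ⟨r, hr⟩ := exists_retr S hp
  have h1 : ∀ m, MP.map (stdEven T) D.R r (MP.map _ D.R (S.toM Y) m) = m := fun m => by
    rw [MP_map_map, hr, MP.map_id, LinearMap.id_apply]
  refine ⟨fun a b hab => ?_, fun a => ?_⟩
  · rw [← h1 a, ← h1 b]
    congr 1
    apply (v1_bij_M h).1
    simp only [← map_smul]
    exact congrArg _ hab
  · obtain ⟨b, hb⟩ := (v1_bij_M h).2 (MP.map _ D.R (S.toM Y) a)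
    exact ⟨MP.map _ D.R r b, by simp only [← map_smul]; rw [← h1 a, ← hb]⟩

theorem zero_LS (hL : LocF S) (Z : T) : IsZero ((Z ⊗ S.LS) ⊗ S.W.V1) :=
  ((tensorLeft Z).map_isZero (hL.zero1 (𝟙_ T))).of_iso (α_ _ _ _)

/-- **`Z ⟶ Z ⊗ LS` inverts `v₁` in homology.** -/
theorem awayMP (hL : LocF S) {Z : T} (h : (p : ℤ) • 𝟙 Z = 0) :
    IsLocalizedModule.Away (vv p 1 D.law) (MP.map (stdEven T) D.R (S.toL Z)) := by
  obtain ⟨δ, hδ⟩ := dist_toL S Z
  refine IsLocalizedModule.Away.mk_of_addCommGroup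
    ((Module.End.isUnit_iff _).2 (v1_bij (p_right h _) (zero_LS hL Z))) (fun y => ?_) fun x hx => ?_
  · obtain ⟨n, hn⟩ := (tm_N' hL h).v1 (MP.map _ D.R (Z ◁ S.iN) y)
    obtain ⟨x, hx⟩ := MP_exact hδ (vv p 1 D.law ^ n • y) (by rw [map_smul, hn])
    exact ⟨n, x, hx.symm⟩
  · obtain ⟨y, rfl⟩ := MP_exact (inv_rot_of_distTriang _ hδ) x hx
    have h1 : TM S ((Z ⊗ S.N')⟦(-1 : ℤ)⟧) := (tm_N' hL (p_shift h (-1))).iso
      (((tensorRight S.N').commShiftIso (-1 : ℤ)).app Z).symm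
    obtain ⟨n, hn⟩ := h1.v1 y
    exact ⟨n, ((map_smul _ _ _).symm.trans (congrArg _ hn)).trans (map_zero _)⟩

theorem oddL (hL : LocF S) {Z : T} (h : (p : ℤ) • 𝟙 Z = 0) (ho : OddZero (D.R ⊗ Z)) :
    OddZero (D.R ⊗ (Z ⊗ S.LS)) := by
  refine odd_of_mp fun m => ?_
  have := awayMP hL (p_shift h 1)
  obtain ⟨m, rfl⟩ := (mp_bij (((tensorRight S.LS).commShiftIso (1 : ℤ)).hom.app Z)).2 m
  obtain ⟨n, x, hx⟩ := IsLocalizedModule.Away.surj (MP.map (stdEven T) D.R (S.toL (Z⟦(1 : ℤ)⟧)))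
    (vv p 1 D.law) m
  rw [mp_shift_zero ho x, map_zero] at hx
  have h1 := (IsLocalizedModule.Away.isUnit_algebraMap
    (MP.map (stdEven T) D.R (S.toL (Z⟦(1 : ℤ)⟧))) (vv p 1 D.law)).pow n
  rw [← map_pow] at h1
  have h2 : m = 0 := ((Module.End.isUnit_iff _).1 h1).1 (hx.trans (map_zero _).symm)
  rw [h2, map_zero]

theorem toL_injective (hL : LocF S) {Z : T} (h : (p : ℤ) • 𝟙 Z = 0)
    (hv : Function.Injective fun m : MP (stdEven T) D.R Z => vv p 1 D.law • m) :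
    Function.Injective (MP.map (stdEven T) D.R (S.toL Z)) := fun a b hab => by
  have := awayMP hL h
  obtain ⟨n, hn⟩ := IsLocalizedModule.Away.exists_of_eq (vv p 1 D.law) hab
  induction n with
  | zero => simpa using hn
  | succ n ih => exact ih (hv (by simpa only [pow_succ', mul_smul] using hn))

theorem oddN' (hL : LocF S) {Z : T} (h : (p : ℤ) • 𝟙 Z = 0) (ho : OddZero (D.R ⊗ Z))
    (hv : Function.Injective fun m : MP (stdEven T) D.R Z => vv p 1 D.law • m) :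
    OddZero (D.R ⊗ (Z ⊗ S.N')) := by
  obtain ⟨δ, hδ⟩ := dist_toL S Z
  exact mp_odd_cof hδ (oddL hL h ho) (toL_injective hL h hv)

theorem surjL (S : TS D p F) {Z : T} (ho : OddZero (D.R ⊗ Z)) :
    Function.Surjective (V.map S.χ (Z ◁ S.iN)) := by
  obtain ⟨δ, hδ⟩ := dist_toL S Z
  exact BC.map_surjective _ (mp_surj hδ ho)

theorem toL_iN0 (S : TS D p F) (Z : T) : S.toL Z ≫ Z ◁ S.iN = 0 := by
  obtain ⟨δ, hδ⟩ := dist_toL S Z
  exact zero₁₂ hδ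

namespace Cx

variable (c : Cx S)

include c

/-- **`V Z ⟶ V (Z ⊗ LS)` inverts `u`.** -/
theorem away {Z : T} (h : (p : ℤ) • 𝟙 Z = 0) :
    IsLocalizedModule.Away (X : F⟦X⟧) (V.map S.χ (S.toL Z)) := by
  have := awayMP c.hL h
  have h1 : IsLocalizedModule.Away (S.χ (vv p 1 D.law)) (V.map S.χ (S.toL Z)) :=
    BC.away S.χ (vv p 1 D.law) (MP.map (stdEven T) D.R (S.toL Z))
  obtain ⟨w, hw⟩ := c.chi_v1
  rw [vA_eq] at hw
  exact IsLocalizedModule.Away.of_associated (r := S.χ (vv p 1 D.law))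
    (Associated.symm ⟨w, by rw [hw, mul_comm]⟩)

theorem X_bij {Y : T} (hp : (p : ℤ) • 𝟙 Y = 0) (h : IsZero (Y ⊗ S.W.V1)) :
    Function.Bijective fun x : V S.χ Y => (X : F⟦X⟧) • x := by
  have h1 := BC.smul_bijective (χ := S.χ) (v1_bij hp h)
  obtain ⟨w, hw⟩ := c.chi_v1
  rw [vA_eq] at hw
  have h2 : Function.Bijective fun x : V S.χ Y => (w : F⟦X⟧) • x := MulAction.bijective w
  refine (Function.Bijective.of_comp_iff' h2 _).1 ?_
  convert h1 using 1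
  funext x
  rw [hw, mul_smul]
  rfl

theorem X_bijL {Z : T} (h : (p : ℤ) • 𝟙 Z = 0) :
    Function.Bijective fun x : V S.χ (Z ⊗ S.LS) => (X : F⟦X⟧) • x :=
  c.X_bij (p_right h _) (zero_LS c.hL Z)

theorem exactL {Z : T} (h : (p : ℤ) • 𝟙 Z = 0) (y : V S.χ (Z ⊗ S.LS))
    (hy : V.map S.χ (Z ◁ S.iN) y = 0) : ∃ x, V.map S.χ (S.toL Z) x = y := by
  obtain ⟨δ, hδ⟩ := dist_toL S Z
  exact c.exact hδ (tm_N' c.hL h) y hy

theorem toM_bijective' {W : T} (h : Function.Surjective (MP.map (stdEven T) D.R (S.toM W))) :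
    Function.Bijective (V.map S.χ (S.toM W)) := by
  obtain ⟨δ, hδ⟩ := dist_toM S W
  refine ⟨(injective_iff_map_eq_zero _).2 fun y hy => ?_, BC.map_surjective _ h⟩
  obtain ⟨x, rfl⟩ := BC.exact_of_surj (lam := S.χ) _ _ (MP_exact hδ)
    (fun x => by rw [MP_map_map, zero₁₂ hδ, MP_zero]) h y hy
  have h1 : MP.map (stdEven T) D.R ((p : ℤ) • 𝟙 W) =
      (p : HRing (stdEven T) D.R) • LinearMap.id := LinearMap.ext fun m => by
    rw [MP_map_nsmul, MP.map_id]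
    rfl
  rw [h1, BC.map_smul_id, map_natCast, c.p0, zero_smul]

theorem toM_bijective {W : T} (h : OddZero (D.R ⊗ W)) :
    Function.Bijective (V.map S.χ (S.toM W)) := by
  obtain ⟨δ, hδ⟩ := dist_toM S W
  exact c.toM_bijective' (mp_surj hδ h)

end Cx

end Vale.Agent.P221X.TC
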