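import Vale.Agent.P221X.TC.Bock
import Vale.Agent.P221X.TC.Lam
import Vale.Agent.P221X.TC.VL
import Vale.Agent.P221X.VT.RB

/-!
# P221X, block TOP-C: the field `β_bij`
-/

open CategoryTheory MonoidalCategory Limits Pretriangulated PowerSeries

set_option linter.unusedSectionVars false

universe u

noncomputable section

namespace Vale.Agent.P221X.TC

open Vale.Agent.P251 Vale.Agent.P251.T Vale.Agent.P251.M Vale.Agent.P251.S Vale.Agent.P251.F
  Vale.Agent.P251.I Vale.Agent.P251.X
open Vale.Agent.P251.M.EvenSpheres VT ProG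

variable {T : Type u} [Category.{0} T] [Preadditive T] [HasZeroObject T] [HasShift T ℤ]
  [∀ n : ℤ, (shiftFunctor T n).Additive] [Pretriangulated T] [IsTriangulated T]
  [MonoidalCategory T] [SymmetricCategory T] [TensorTriangulated T] [MonoidalClosed T]
  [HasCoproducts.{0} T] [HasProducts.{0} T] [StableCat T]
  {D : MUData T} {p : ℕ} [Fact p.Prime] {F : Type} [Field F] {S : TS D p F}

/-- the homology of an even module is even -/
theorem Cx.odd_R (c : Cx S) {Y : T} (a : ModStr D.R Y) (h : OddZero Y) : OddZero (D.R ⊗ Y) := by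
  refine Vn.odd_of_mp fun m => ?_
  obtain ⟨m, rfl⟩ := (Vn.mp_bij (tensorSph 1 Y).hom).2 m
  have h0 : m = 0 := by
    refine ind_right c.H (a.tensorRight _) (motive := fun m => m = 0) m rfl (fun α j y => ?_)
      fun x y hx hy => by rw [hx, hy, add_zero]
    rw [hz_of_odd h odd_one (tensorSph 1 Y) j y, V.hur_eq, V.map_zero', LinearMap.zero_apply,
      map_zero, map_zero]
  rw [h0, map_zero]

variable [CharP F p] {G G' : Type} [Group G] [ProG G] [MulSemiringAction G F⟦X⟧]
  [MulSemiringAction G (KK F)] [ActK G F] [Group G'] [ProG G'] [MulSemiringAction G' F⟦X⟧]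
  [MulSemiringAction G' (KK F)] [ActK G' F] {r : Rep S} {c : Cx S} {B : BG p F G G'}

namespace PiD

variable (P : PiD r c B)

include P

theorem inj_v1 : Function.Injective (sm r.mod (vA D p 1)) := by
  intro x y hxy
  rw [← sub_eq_zero] at hxy ⊢
  rw [← sm_sub] at hxy
  refine He.ext_cp fun j => ?_
  have h1 := cp_sm r.mod (rfl : _ + j = _) (D.vel p 1) (x - y)
  rw [show sm r.mod (HRing.of (stdEven T) D.R _ (D.vel p 1)) (x - y) = 0 from hxy,
    map_zero] at h1
  have h2 := P.pe_mod (rfl : _ + j = _) (D.vel p 1) (He.cp _ j (x - y))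
  rw [← h1, map_zero, S.chi_v1, eq_comm, mul_eq_zero, or_iff_right X_ne_zero] at h2
  rw [map_zero]
  exact (P.pe j).map_eq_zero_iff.1 h2

theorem odd_N' : OddZero (r.E ⊗ S.N') := c.hL.oddN' r.mod r.pE P.odd P.inj_v1

theorem odd_RN' : OddZero (D.R ⊗ (r.E ⊗ S.N')) := c.odd_R (r.mod.tensorRight _) P.odd_N'

/-- the field `β_bij` -/
theorem β_bij (hb : Function.Bijective (r.lam c B)) :
    Function.Bijective fun μ => (r.β ≫ r.lam c B μ : r.E ⊗ Sph T (-1) ⟶ r.E) :=
  r.β_bij _ hb (r.β_comm c B) P.odd_RN'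

end PiD

end Vale.Agent.P221X.TC
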