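import Vale.Agent.P221X.TC.Defs
import Vale.Agent.P221X.VT.Mul
import Vale.Agent.P221X.VT.Sum

/-!
# P221X, block TOP-C: the object which represents `W ↦ Hom_O(V χ (W ⊗ N), K / O)`

* `Rep S`, `Rep.cl` : the representing object;
* `Rep.mod` : the module structure, `Rep.per` : the periodicity, `Rep.op` : the operations defined
  by maps `A ⊗ N ⟶ N`, `Rep.β` : the Bockstein operation.
-/

open CategoryTheory MonoidalCategory Limits Pretriangulated PowerSeries

set_option linter.unusedSectionVars false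

universe u

noncomputable section

namespace Vale.Agent.P221X.TC

open Vale.Agent.P251 Vale.Agent.P251.T Vale.Agent.P251.M Vale.Agent.P251.S Vale.Agent.P251.F
  Vale.Agent.P251.I Vale.Agent.P251.X Vale.Agent.P251.Z Vale.Agent.P217
open Vale.Agent.P251.M.EvenSpheres VT

variable {T : Type u} [Category.{0} T] [Preadditive T] [HasZeroObject T] [HasShift T ℤ]
  [∀ n : ℤ, (shiftFunctor T n).Additive] [Pretriangulated T] [IsTriangulated T]
  [MonoidalCategory T] [SymmetricCategory T] [TensorTriangulated T] [MonoidalClosed T]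
  [HasCoproducts.{0} T] [HasProducts.{0} T] [StableCat T]
  {D : MUData T} {p : ℕ} [Fact p.Prime] {F : Type} [Field F]

theorem cross_map_left {B : Type} [CommRing B] {χ : HRing (stdEven T) D.R →+* B} {X X' Y : T}
    (f : X ⟶ X') (x : V χ X) (y : V χ Y) :
    V.cross χ X' Y (V.map χ f x) y = V.map χ (f ▷ Y) (V.cross χ X Y x y) := by
  rw [← tensorHom_id, V.map_cross, V.map_id, LinearMap.id_apply]

theorem cross_map_right {B : Type} [CommRing B] {χ : HRing (stdEven T) D.R →+* B} {X Y Y' : T}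
    (g : Y ⟶ Y') (x : V χ X) (y : V χ Y) :
    V.cross χ X Y' x (V.map χ g y) = V.map χ (X ◁ g) (V.cross χ X Y x y) := by
  rw [← id_tensorHom, V.map_cross, V.map_id, LinearMap.id_apply]

theorem sh_sh {A B C W N : T} (m : A ⊗ B ⟶ C) :
    (α_ B A (W ⊗ N)).hom ≫ B ◁ ((α_ A W N).inv ≫ (β_ A W).hom ▷ N) ≫
      ((α_ B (W ⊗ A) N).inv ≫ (β_ B (W ⊗ A)).hom ▷ N) ≫ ((α_ W A B).hom ≫ W ◁ m) ▷ N =
    ((β_ B A).hom ≫ m) ▷ (W ⊗ N) ≫ (α_ C W N).inv ≫ (β_ C W).hom ▷ N := by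
  rw [associator_inv_naturality_left_assoc, ← comp_whiskerRight,
    BraidedCategory.braiding_naturality_left, BraidedCategory.braiding_tensor_left_hom,
    BraidedCategory.braiding_tensor_right_hom]
  monoidal

theorem sh_mul {R A W N : T} :
    (β_ ((R ⊗ W) ⊗ N) A).hom ≫ ((α_ A (R ⊗ W) N).inv ≫ (β_ A (R ⊗ W)).hom ▷ N) ≫
      (α_ R W A).hom ▷ N ≫ (α_ R (W ⊗ A) N).hom =
    (α_ R W N).hom ▷ A ≫ (α_ R (W ⊗ N) A).hom ≫
      R ◁ ((β_ (W ⊗ N) A).hom ≫ (α_ A W N).inv ≫ (β_ A W).hom ▷ N) := by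
  have h : ∀ X : T, (β_ (X ⊗ N) A).hom ≫ (α_ A X N).inv ≫ (β_ A X).hom ▷ N =
      (α_ X N A).hom ≫ X ◁ (β_ N A).hom ≫ (α_ X A N).inv := fun X => by
    rw [BraidedCategory.braiding_tensor_left_hom]
    simp only [Category.assoc, Iso.hom_inv_id_assoc]
    rw [← comp_whiskerRight, SymmetricCategory.symmetry, id_whiskerRight, Category.comp_id]
  rw [h, ← Category.assoc, h]
  monoidal

/-- the homology theory -/
abbrev VV (S : TS D p F) (W : T) : Type := V S.χ (W ⊗ S.N)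

/-- The representing object. -/
structure Rep (S : TS D p F) where
  E : T
  ev : VV S E →ₗ[F⟦X⟧] KO F
  bij : ∀ W : T, Function.Bijective fun f : W ⟶ E => ev.comp (V.map S.χ (f ▷ S.N))

variable (S : TS D p F)

/-- the multiplication -/
def mulN (W : T) : VV S (D.R ⊗ W) →ₗ[F⟦X⟧] VV S W :=
  (V.mul S.χ (W ⊗ S.N)).comp (V.map S.χ (α_ D.R W S.N).hom)

theorem mulN_apply (W : T) (x : VV S (D.R ⊗ W)) :
    mulN S W x = V.mul S.χ (W ⊗ S.N) (V.map S.χ (α_ D.R W S.N).hom x) := rfl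

theorem map_mulN {W W' : T} (f : W ⟶ W') (x : VV S (D.R ⊗ W)) :
    V.map S.χ (f ▷ S.N) (mulN S W x) = mulN S W' (V.map S.χ ((D.R ◁ f) ▷ S.N) x) := by
  rw [mulN_apply, mulN_apply, V.map_mul, V.map_map, V.map_map, associator_naturality_middle]

/-- the shuffle -/
def shN (A W : T) : A ⊗ (W ⊗ S.N) ≅ (W ⊗ A) ⊗ S.N :=
  (α_ A W S.N).symm ≪≫ whiskerRightIso (β_ A W) S.N

theorem shN_hom (A W : T) : (shN S A W).hom = (α_ A W S.N).inv ≫ (β_ A W).hom ▷ S.N := rfl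

theorem shN_nat (A : T) {W W' : T} (f : W ⟶ W') :
    (shN S A W).hom ≫ (f ▷ A) ▷ S.N = A ◁ (f ▷ S.N) ≫ (shN S A W').hom := by
  rw [shN_hom, shN_hom, Category.assoc, ← comp_whiskerRight,
    ← BraidedCategory.braiding_naturality_right, comp_whiskerRight,
    associator_inv_naturality_middle_assoc]

/-- the periodicity -/
def perN (j : ℤ) (W : T) : VV S W ≃ₗ[F⟦X⟧] VV S (W ⊗ Se T j) :=
  (V.per S.χ j (W ⊗ S.N)).trans (V.mapIso S.χ (shN S (Se T j) W))

theorem perN_apply (j : ℤ) (W : T) (x : VV S W) :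
    perN S j W x = V.map S.χ (shN S (Se T j) W).hom (V.cross S.χ _ _ (V.gen S.χ j) x) := rfl

theorem map_perN (j : ℤ) {W W' : T} (f : W ⟶ W') (x : VV S W) :
    V.map S.χ ((f ▷ Se T j) ▷ S.N) (perN S j W x) = perN S j W' (V.map S.χ (f ▷ S.N) x) := by
  rw [perN_apply, perN_apply, V.map_map, shN_nat, ← V.map_map, ← V.per_apply, V.map_per,
    V.per_apply]

/-- the map induced by `g : A ⊗ N ⟶ N` -/
def opN {A : T} (g : A ⊗ S.N ⟶ S.N) (W : T) : (W ⊗ A) ⊗ S.N ⟶ W ⊗ S.N :=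
  (α_ W A S.N).hom ≫ W ◁ g

theorem opN_nat {A : T} (g : A ⊗ S.N ⟶ S.N) {W W' : T} (f : W ⟶ W') :
    opN S g W ≫ f ▷ S.N = (f ▷ A) ▷ S.N ≫ opN S g W' := by
  rw [opN, opN, Category.assoc, whisker_exchange, associator_naturality_left_assoc]

/-- a map `A ⊗ M ⟶ M` gives a map `A ⊗ N ⟶ N` -/
def onM {A : T} (f : A ⊗ S.W.M ⟶ S.W.M) : A ⊗ S.N ⟶ S.N :=
  (α_ A S.N' S.W.M).inv ≫ (β_ A S.N').hom ▷ S.W.M ≫ (α_ S.N' A S.W.M).hom ≫ S.N' ◁ f

/-- `S^{-1} ⊗ S^1 ≅ S^0` -/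
def sphNeg (T : Type u) [Category.{0} T] [Preadditive T] [HasZeroObject T] [HasShift T ℤ]
    [∀ n : ℤ, (shiftFunctor T n).Additive] [Pretriangulated T] [MonoidalCategory T]
    [SymmetricCategory T] [TensorTriangulated T] : Sph T (-1) ⊗ (𝟙_ T)⟦(1 : ℤ)⟧ ≅ 𝟙_ T :=
  TensorTriangulated.e (Sph T (-1)) ≪≫ (shiftFunctorCompIsoId T (-1) 1 (neg_add_cancel 1)).app _

/-- the Bockstein map of the Moore spectrum -/
def bock (W : TD.Twr D p) : Sph T (-1) ⊗ W.M ⟶ W.M :=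
  Sph T (-1) ◁ W.δM ≫ (sphNeg T).hom ≫ W.iM

/-- the Bockstein map of `N` -/
def b0 : Sph T (-1) ⊗ S.N ⟶ S.N := onM S (bock S.W)

variable {S}

namespace Rep

variable (r : Rep S)

/-- the functional of a map -/
def cl (W : T) : (W ⟶ r.E) ≃+ (VV S W →ₗ[F⟦X⟧] KO F) :=
  AddEquiv.ofBijective (AddMonoidHom.mk' (fun f : W ⟶ r.E => r.ev.comp (V.map S.χ (f ▷ S.N)))
    fun f g => by rw [MonoidalPreadditive.add_whiskerRight, V.map_add', LinearMap.comp_add])
    (r.bij W)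

theorem cl_def {W : T} (f : W ⟶ r.E) : r.cl W f = r.ev.comp (V.map S.χ (f ▷ S.N)) := rfl

theorem cl_apply {W : T} (f : W ⟶ r.E) (x : VV S W) :
    r.cl W f x = r.ev (V.map S.χ (f ▷ S.N) x) := rfl

theorem cl_comp_apply {W W' : T} (g : W' ⟶ W) (f : W ⟶ r.E) (x : VV S W') :
    r.cl W' (g ≫ f) x = r.cl W f (V.map S.χ (g ▷ S.N) x) := by
  rw [cl_apply, cl_apply, V.map_map, comp_whiskerRight]

theorem cl_comp {W W' : T} (g : W' ⟶ W) (f : W ⟶ r.E) :
    r.cl W' (g ≫ f) = (r.cl W f).comp (V.map S.χ (g ▷ S.N)) :=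
  LinearMap.ext (r.cl_comp_apply g f)

theorem cl_id : r.cl r.E (𝟙 r.E) = r.ev := by
  rw [cl_def, id_whiskerRight, V.map_id, LinearMap.comp_id]

theorem hom_ext {W : T} {f g : W ⟶ r.E} (h : ∀ x, r.cl W f x = r.cl W g x) : f = g :=
  (r.cl W).injective (LinearMap.ext h)

theorem pE [CharP F p] : (p : ℤ) • 𝟙 r.E = 0 := by
  apply (r.cl r.E).injective
  have h : (p : F⟦X⟧) = 0 := by rw [← map_natCast (C (R := F)), CharP.cast_eq_zero, map_zero]
  rw [map_zsmul, map_zero, natCast_zsmul, ← Nat.cast_smul_eq_nsmul F⟦X⟧, h, zero_smul]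

/-! ### The module structure -/

/-- the action -/
def act : D.R ⊗ r.E ⟶ r.E := (r.cl _).symm (r.ev.comp (mulN S r.E))

theorem cl_act_id (x : VV S (D.R ⊗ r.E)) : r.cl _ r.act x = r.ev (mulN S r.E x) := by
  rw [act, AddEquiv.apply_symm_apply, LinearMap.comp_apply]

theorem cl_act {W : T} (f : W ⟶ r.E) (x : VV S (D.R ⊗ W)) :
    r.cl _ (D.R ◁ f ≫ r.act) x = r.cl W f (mulN S W x) := by
  rw [cl_comp_apply, cl_act_id, cl_apply, map_mulN]

/-- The module structure. -/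
def mod : ModStr D.R r.E where
  act := r.act
  one_act := r.hom_ext fun x => by
    rw [cl_comp_apply, cl_act_id, cl_apply, mulN_apply, V.map_map, associator_naturality_left]
    congr 1
    rw [← V.mul_unit S.χ (V.map S.χ ((λ_ r.E).hom ▷ S.N) x), V.map_map, FM.unit]
    congr 3
    simp
  mul_act := r.hom_ext fun x => by
    rw [cl_comp_apply, cl_act_id, cl_comp_apply, cl_act, cl_act_id]
    congr 1
    rw [mulN_apply, mulN_apply, mulN_apply, V.map_mul, V.mul_mul, V.map_map, V.map_map, V.map_map,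
      V.map_map, associator_naturality_left]
    congr 3
    simp [ModStr.free]

theorem mod_act : r.mod.act = r.act := rfl

theorem isLinear_iff {Y : T} (a : ModStr D.R Y) (f : Y ⟶ r.E) :
    a.IsLinear r.mod f ↔
      (r.cl Y f).comp (V.map S.χ (a.act ▷ S.N)) = (r.cl Y f).comp (mulN S Y) := by
  rw [ModStr.IsLinear, ← (r.cl _).injective.eq_iff, cl_comp, mod_act]
  have h : r.cl _ (D.R ◁ f ≫ r.act) = (r.cl Y f).comp (mulN S Y) := LinearMap.ext (r.cl_act f)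
  rw [h]

theorem ev_act (x : VV S (D.R ⊗ r.E)) :
    r.ev (V.map S.χ (r.act ▷ S.N) x) = r.ev (mulN S r.E x) := r.cl_act_id x

/-- a map whose functional is `ev ∘ L`, where `L` commutes with the two maps, is linear -/
theorem isLinear_of {Y : T} (a : ModStr D.R Y) (f : Y ⟶ r.E)
    (h : ∀ x, r.cl Y f (V.map S.χ (a.act ▷ S.N) x) = r.cl Y f (mulN S Y x)) :
    a.IsLinear r.mod f := (r.isLinear_iff a f).2 (LinearMap.ext h)

/-! ### Operations -/

/-- the operation of `g : A ⊗ N ⟶ N` -/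
def op {A : T} (g : A ⊗ S.N ⟶ S.N) : r.E ⊗ A ⟶ r.E :=
  (r.cl _).symm (r.ev.comp (V.map S.χ (opN S g r.E)))

theorem cl_op_id {A : T} (g : A ⊗ S.N ⟶ S.N) (x : VV S (r.E ⊗ A)) :
    r.cl _ (r.op g) x = r.ev (V.map S.χ (opN S g r.E) x) := by
  rw [op, AddEquiv.apply_symm_apply, LinearMap.comp_apply]

theorem cl_op {A : T} (g : A ⊗ S.N ⟶ S.N) {W : T} (f : W ⟶ r.E) (x : VV S (W ⊗ A)) :
    r.cl _ (f ▷ A ≫ r.op g) x = r.cl W f (V.map S.χ (opN S g W) x) := by
  rw [cl_comp_apply, cl_op_id, cl_apply, V.map_map, V.map_map, opN_nat]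

theorem op_lin {A : T} (g : A ⊗ S.N ⟶ S.N) : (r.mod.tensorRight A).IsLinear r.mod (r.op g) := by
  refine r.isLinear_of _ _ fun x => ?_
  rw [← cl_comp_apply]
  change r.cl _ (((α_ D.R r.E A).inv ≫ r.act ▷ A) ≫ r.op g) x = _
  rw [Category.assoc, cl_comp_apply, cl_op, cl_act_id, cl_op_id]
  congr 1
  rw [mulN_apply, mulN_apply, V.map_mul, V.map_map, V.map_map, V.map_map]
  congr 3
  rw [opN, opN]
  generalize S.N = N at g ⊢
  monoidal

/-- the Bockstein operation -/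
def β : r.E ⊗ Sph T (-1) ⟶ r.E := r.op (b0 S)

/-! ### Periodicity -/

/-- the periodicity map -/
def perH (j : ℤ) : r.E ⊗ Se T j ⟶ r.E :=
  (r.cl _).symm (r.ev.comp (perN S j r.E).symm.toLinearMap)

theorem cl_perH_id (j : ℤ) (x : VV S r.E) : r.cl _ (r.perH j) (perN S j r.E x) = r.ev x := by
  rw [perH, AddEquiv.apply_symm_apply, LinearMap.comp_apply, LinearEquiv.coe_coe,
    LinearEquiv.symm_apply_apply]

theorem cl_perH (j : ℤ) {W : T} (f : W ⟶ r.E) (x : VV S W) :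
    r.cl _ (f ▷ Se T j ≫ r.perH j) (perN S j W x) = r.cl W f x := by
  rw [cl_comp_apply, map_perN, cl_perH_id, cl_apply]

theorem hom_ext_per (j : ℤ) {W : T} {f g : W ⊗ Se T j ⟶ r.E}
    (h : ∀ x, r.cl _ f (perN S j W x) = r.cl _ g (perN S j W x)) : f = g :=
  r.hom_ext fun y => by
    obtain ⟨x, rfl⟩ := (perN S j W).surjective y
    exact h x

theorem perN_perN {i j k : ℤ} (h : i + j = k) (W : T) (x : VV S W) :
    V.map S.χ (((α_ W _ _).hom ≫ W ◁ ((stdEven T).mu i j k h).hom) ▷ S.N)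
      (perN S j _ (perN S i W x)) = perN S k W x := by
  rw [perN_apply, perN_apply, perN_apply, ← V.map_mu_gen h,
    ← V.cross_comm (V.gen S.χ j) (V.gen S.χ i), cross_map_right, ← V.cross_assoc, V.map_map S.χ (β_ _ _).hom, cross_map_left, V.map_map, V.map_map,
    V.map_map, V.map_map, shN_hom, shN_hom, shN_hom, sh_sh]

theorem perN_zero (W : T) (x : VV S W) :
    V.map S.χ ((W ◁ (stdEven T).zero.inv ≫ (ρ_ W).hom) ▷ S.N) (perN S 0 W x) = x := by
  have h : (shN S (Se T 0) W).hom ≫ (W ◁ (stdEven T).zero.inv ≫ (ρ_ W).hom) ▷ S.N =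
      (stdEven T).zero.inv ▷ (W ⊗ S.N) ≫ (λ_ _).hom := by
    rw [shN_hom, Category.assoc, ← comp_whiskerRight, ← BraidedCategory.braiding_naturality_left_assoc,
      braiding_rightUnitor, comp_whiskerRight, ← associator_inv_naturality_left_assoc]
    congr 1
    generalize S.N = N
    monoidal
  rw [perN_apply, V.map_map, h, ← V.map_map, ← cross_map_left, V.map_zero_inv_gen, V.one_cross]

theorem perH_perH {i j k : ℤ} (h : i + j = k) :
    r.perH i ▷ Se T j ≫ r.perH j =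
      ((α_ r.E _ _).hom ≫ r.E ◁ ((stdEven T).mu i j k h).hom) ≫ r.perH k := by
  refine r.hom_ext_per j fun y => ?_
  obtain ⟨x, rfl⟩ := (perN S i r.E).surjective y
  rw [cl_perH, cl_perH_id, cl_comp_apply, perN_perN, cl_perH_id]

theorem perH_zero : r.perH 0 = r.E ◁ (stdEven T).zero.inv ≫ (ρ_ r.E).hom := by
  refine r.hom_ext_per 0 fun x => ?_
  rw [cl_perH_id, cl_apply, perN_zero]

theorem isIso_perH (j : ℤ) : IsIso (r.perH j) := by
  have h0 : IsIso (r.perH 0) := by rw [perH_zero]; infer_instance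
  have h1 : ∀ i j : ℤ, i + j = 0 → IsIso (r.perH i ▷ Se T j ≫ r.perH j) := fun i j h => by
    rw [r.perH_perH h]; infer_instance
  have h2 : ∀ j : ℤ, IsSplitEpi (r.perH j) := fun j => by
    have := h1 (-j) j (neg_add_cancel j)
    exact IsSplitEpi.mk' ⟨inv (r.perH (-j) ▷ Se T j ≫ r.perH j) ≫ r.perH (-j) ▷ Se T j, by
      rw [Category.assoc, IsIso.inv_hom_id]⟩
  have h3 := h1 (-j) j (neg_add_cancel j)
  have h4 := h2 (-j)
  have h5 : IsSplitEpi (r.perH (-j) ▷ Se T j) :=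
    inferInstanceAs (IsSplitEpi ((tensorRight (Se T j)).map (r.perH (-j))))
  have h6 : Mono (r.perH (-j) ▷ Se T j) := mono_of_mono _ (r.perH j)
  have h7 : IsIso (r.perH (-j) ▷ Se T j) := isIso_of_mono_of_isSplitEpi _
  exact IsIso.of_isIso_comp_left (r.perH (-j) ▷ Se T j) _

/-- The periodicity. -/
def per (j : ℤ) : r.E ⊗ Se T j ≅ r.E :=
  haveI := r.isIso_perH j
  asIso (r.perH j)

theorem per_hom (j : ℤ) : (r.per j).hom = r.perH j := rfl

theorem mulN_perN (j : ℤ) (W : T) (x : VV S (D.R ⊗ W)) :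
    mulN S (W ⊗ Se T j) (V.map S.χ ((α_ D.R W (Se T j)).hom ▷ S.N) (perN S j _ x)) =
      perN S j W (mulN S W x) := by
  rw [perN_apply, perN_apply, mulN_apply, mulN_apply, ← V.cross_comm, ← V.cross_comm (V.mul _ _ _),
    ← V.mul_cross_right, cross_map_left, V.map_map, V.map_map, V.map_map, V.map_map, V.map_mul,
    V.map_map, V.map_map, shN_hom, shN_hom, sh_mul]

theorem per_lin (j : ℤ) : (r.mod.tensorRight (Se T j)).IsLinear r.mod (r.per j).hom := by
  rw [ModStr.IsLinear, per_hom, ← cancel_epi (α_ D.R r.E (Se T j)).hom]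
  refine r.hom_ext_per j fun x => ?_
  change r.cl _ (_ ≫ ((α_ D.R r.E _).inv ≫ r.act ▷ _) ≫ _) _ = _
  rw [Category.assoc, Iso.hom_inv_id_assoc, cl_perH, cl_act_id, cl_comp_apply, mod_act, cl_act,
    mulN_perN, cl_perH_id]

/-- the multiplication by a homogeneous element -/
theorem cl_mulR {j : ℤ} (z : Se T j ⟶ D.R) {W : T} (f : W ⟶ r.E) (x : VV S W) :
    r.cl _ (f ▷ Se T j ≫ TD.mulR r.mod z) (perN S j W x) =
      S.χ (HRing.of (stdEven T) D.R j z) • r.cl W f x := by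
  have h1 : f ▷ Se T j ≫ TD.mulR r.mod z = ((β_ W _).hom ≫ z ▷ W) ≫ D.R ◁ f ≫ r.act := by
    rw [TD.mulR, BraidedCategory.braiding_naturality_left_assoc, whisker_exchange_assoc,
      Category.assoc, mod_act]
  have h2 : (shN S (Se T j) W).hom ≫ ((β_ W _).hom ≫ z ▷ W) ▷ S.N ≫ (α_ D.R W S.N).hom =
      z ▷ (W ⊗ S.N) := by
    rw [shN_hom, Category.assoc, ← comp_whiskerRight_assoc, SymmetricCategory.symmetry_assoc,
      associator_naturality_left, Iso.inv_hom_id_assoc]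
  rw [h1, cl_comp_apply, cl_act, perN_apply, mulN_apply, V.map_map, V.map_map, h2,
    ← cross_map_left, V.mul_cross, ← V.hur_eq, V.eps_hur, map_smul]

end Rep

end Vale.Agent.P221X.TC
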