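import Vale.Agent.P221X.TC.EL0
import Vale.Agent.P221X.TC.Rep
import Vale.Agent.P221X.TC.VN

/-!
# P221X, block TOP-C: the fields `loc`, `v2_iso` of `E2` and `nn`, `oddM` of `Kap`
-/

open CategoryTheory MonoidalCategory Limits Pretriangulated PowerSeries

set_option linter.unusedSectionVars false

universe u

noncomputable section

namespace Vale.Agent.P221X.TC

open Vale.Agent.P251 Vale.Agent.P251.T Vale.Agent.P251.M Vale.Agent.P251.S Vale.Agent.P251.F
  Vale.Agent.P251.I Vale.Agent.P251.X Vale.Agent.P251.Z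
open Vale.Agent.P251.M.EvenSpheres VT

variable {T : Type u} [Category.{0} T] [Preadditive T] [HasZeroObject T] [HasShift T ℤ]
  [∀ n : ℤ, (shiftFunctor T n).Additive] [Pretriangulated T] [IsTriangulated T]
  [MonoidalCategory T] [SymmetricCategory T] [TensorTriangulated T] [MonoidalClosed T]
  [HasCoproducts.{0} T] [HasProducts.{0} T] [StableCat T]
  {D : MUData T} {p : ℕ} [Fact p.Prime] {F : Type} [Field F] {S : TS D p F}

theorem Cx.VV_zero (c : Cx S) {W : T} (hW : Acyclic S.Kh W) (x : VV S W) : x = 0 :=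
  EL.V_zero S c.H c.hD c.card c.hL hW x

theorem Cx.unit_v2 (c : Cx S) : IsUnit (S.χ (vA D p 2)) := EL.unit_v2 S c.card

theorem Cx.oddM (c : Cx S) : OddZero (D.R ⊗ (S.W.M ⊗ S.LS)) := EL.oddM S c.hD c.hL

/-- the field `nn` -/
def Cx.nn (c : Cx S) : MP (stdEven T) D.R (S.W.M ⊗ S.LS) ≃+ NN p 1 1 :=
  (EL.exists_nn S c.hD c.hL).choose

theorem Cx.nn_smul (c : Cx S) (z : Laz) (x : MP (stdEven T) D.R (S.W.M ⊗ S.LS)) :
    c.nn (L0 D z • x) = algebraMap (QN p 1 1) (NN p 1 1) (Ideal.Quotient.mk _ z) * c.nn x :=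
  (EL.exists_nn S c.hD c.hL).choose_spec.1 z x

theorem Cx.nn_one (c : Cx S) :
    c.nn (MP.map _ D.R (S.W.iM ≫ S.toL S.W.M) (MP.one _ D.R)) = 1 :=
  (EL.exists_nn S c.hD c.hL).choose_spec.2

namespace Rep

variable (r : Rep S)

/-- the field `loc` -/
theorem loc (c : Cx S) : IsLocal S.Kh r.E := fun W hW f =>
  r.hom_ext fun x => by rw [c.VV_zero hW x, map_zero, map_zero]

/-- the multiplication by a power series -/
def sc (b : F⟦X⟧) : r.E ⟶ r.E := (r.cl _).symm (b • r.ev)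

theorem cl_sc (b : F⟦X⟧) {W : T} (f : W ⟶ r.E) (x : VV S W) :
    r.cl W (f ≫ r.sc b) x = b • r.cl W f x := by
  rw [cl_comp_apply, sc, AddEquiv.apply_symm_apply, LinearMap.smul_apply, cl_apply]

theorem sc_sc (a b : F⟦X⟧) : r.sc a ≫ r.sc b = r.sc (b * a) := r.hom_ext fun x => by
  rw [cl_sc, ← Category.id_comp (r.sc a), ← Category.id_comp (r.sc (b * a)), cl_sc, cl_sc, mul_smul]

theorem sc_one : r.sc 1 = 𝟙 r.E := r.hom_ext fun x => by
  rw [← Category.id_comp (r.sc 1), cl_sc, one_smul]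

theorem isIso_sc {b : F⟦X⟧} (hb : IsUnit b) : IsIso (r.sc b) := by
  obtain ⟨b, rfl⟩ := hb
  exact ⟨r.sc (b⁻¹ : F⟦X⟧ˣ), by rw [sc_sc, Units.inv_mul, sc_one],
    by rw [sc_sc, Units.mul_inv, sc_one]⟩

theorem mulR_sc {j : ℤ} (z : Se T j ⟶ D.R) :
    TD.mulR r.mod z = r.perH j ≫ r.sc (S.χ (HRing.of (stdEven T) D.R j z)) :=
  r.hom_ext_per j fun x => by
    have h := r.cl_mulR z (𝟙 r.E) x
    rw [id_whiskerRight, Category.id_comp, cl_id] at h
    rw [h, cl_sc, cl_perH_id]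

theorem isIso_mulR {j : ℤ} {z : Se T j ⟶ D.R} (h : IsUnit (S.χ (HRing.of (stdEven T) D.R j z))) :
    IsIso (TD.mulR r.mod z) := by
  have := r.isIso_perH j
  have := r.isIso_sc h
  rw [mulR_sc]
  infer_instance

/-- the field `v2_iso` -/
theorem v2_iso (c : Cx S) : IsZero (r.E ⊗ S.W.V2) := by
  have h : IsIso (TD.mulR r.mod (P257.H702.vK D p (𝟙 D.R) 2)) := by
    rw [P257.H702.vK, Category.comp_id]
    exact r.isIso_mulR c.unit_v2
  exact (S.W.zero2_mod (𝟙 D.R) r.mod).2 inferInstance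

end Rep

end Vale.Agent.P221X.TC
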