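import Vale.Agent.P221X.TC.Rep
import Vale.Agent.P221X.TC.VN
import Vale.Agent.P221X.VT.RB

/-!
# P221X, block TOP-C: `V χ (E ⊗ N)` is the module of locally constant functions

* `lin_of_ev`, `evM_of_ev` : a functional which equalises the action and the multiplication;
* `exists_chiT` : the point of the generic law;
* `orb_bijective` : the orbit map of such a functional is bijective if it is bijective on the
  homotopy in every even degree; `Rep.orb_bijective` for the representing object.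
-/

open CategoryTheory MonoidalCategory Limits Pretriangulated PowerSeries TensorProduct

set_option linter.unusedSectionVars false

universe u

noncomputable section

namespace Vale.Agent.P221X.TC

open Vale.Agent.P251 Vale.Agent.P251.T Vale.Agent.P251.M Vale.Agent.P251.S Vale.Agent.P251.F
  Vale.Agent.P251.I Vale.Agent.P251.X Vale.Agent.P251.Z Vale.Agent.P217
open Vale.Agent.P251.M.EvenSpheres VT

variable {T : Type u} [Category.{0} T] [Preadditive T] [HasZeroObject T] [HasShift T ℤ]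
  [∀ n : ℤ, (shiftFunctor T n).Additive] [Pretriangulated T] [IsTriangulated T]
  [MonoidalCategory T] [SymmetricCategory T] [TensorTriangulated T] [MonoidalClosed T]
  [HasCoproducts.{0} T] [HasProducts.{0} T] [StableCat T]
  {D : MUData T} {p : ℕ} [Fact p.Prime] {F : Type} [Field F]

section ev

variable {A : Type} [CommRing A] {χ : HRing (stdEven T) D.R →+* A} {Y : T} {a : ModStr D.R Y}
  {I : Type} [AddCommGroup I] [Module A I] (ev : V χ Y →ₗ[A] I)

/-- the values on the Hurewicz classes -/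
def onHur (j : ℤ) : (Se T j ⟶ Y) →+ I :=
  AddMonoidHom.mk' (fun y => ev (V.hur χ j y)) fun y y' => by rw [V.hur_add, map_add]

theorem onHur_apply (j : ℤ) (y : Se T j ⟶ Y) : onHur ev j y = ev (V.hur χ j y) := rfl

variable (hev : ∀ x, ev (V.map χ a.act x) = ev (V.mul χ Y x))

include hev

theorem lin_of_ev : Lin χ a (onHur ev) := fun _ _ _ h z y => by
  rw [onHur_apply, onHur_apply, ← V.rho_hur χ a h, V.rho_apply, hev, V.mul_cross, V.eps_hur,
    map_smul]

theorem evM_of_ev : V.evM (lin_of_ev ev hev) = ev := V.hom_ext fun j x => by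
  rw [V.evM_of, onHur_apply, ← V.map_hur, hev, V.mul_hur]

end ev

theorem p_OInv {A : Type} [CommRing A] (h : (p : A) = 0) : (p : OInv A) = 0 := by
  rw [← map_natCast (OInv.inc A), h, map_zero]

/-- the point of the generic law -/
theorem exists_chiT (hD : P261Z.T3.MUAt D p) {A : Type} [CommRing A] (hp : (p : A) = 0)
    (Φ : Law A) : ∃ χT : HRing (stdEven T) D.R →+* OInv A, D.law.map χT = genLaw Φ :=
  exists_hom_law hD (p_OInv hp) _

theorem inv_smul_gen {A : Type} [CommRing A] {χ : HRing (stdEven T) D.R →+* A}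
    {χT : HRing (stdEven T) D.R →+* OInv A} (h : D.law.map χT = genLaw (D.law.map χ)) :
    (OInv.f A)⁻¹ • (D.law.map χT).map (RingHom.id _) = D.law.map ((OInv.inc A).comp χ) := by
  rw [Law.map_id, h, genLaw, inv_smul_smul, Law.map_map]

variable [CharP F p] {G G' : Type} [Group G] [ProG G] [MulSemiringAction G F⟦X⟧]
  [MulSemiringAction G (KK F)] [ActK G F] [Group G'] [ProG G'] [MulSemiringAction G' (KK F)]
  {S : TS D p F}

/-- **The orbit map is bijective.** -/
theorem orb_bijective (c : Cx S) (B : BG p F G G') (hP : RowPTS B) {Y : T} [Disc G (VX c B Y)]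
    (a : ModStr D.R Y) (ev : V S.χ Y →ₗ[F⟦X⟧] KO F)
    (hev : ∀ x, ev (V.map S.χ a.act x) = ev (V.mul S.χ Y x))
    (hN : ∀ j, Function.Bijective fun y : Se T j ⟶ Y => ev (V.hur S.χ j y))
    (ev' : VX c B Y →ₗ[F⟦X⟧] KO F) (hev' : ∀ x, ev' (VX.eqv c B Y x) = ev x) :
    Function.Bijective (orb G ev') := by
  obtain ⟨χT, hχT⟩ := exists_chiT c.hD c.p0 (D.law.map S.χ)
  have hA : LawExt D (OInv F⟦X⟧) := lawExt_of c.hD (p_OInv c.p0)
  have hl := lin_of_ev ev hev
  let io : KO F →+ TK χT := (TensorProduct.mk F⟦X⟧ (OInv F⟦X⟧) (KO F) 1).toAddMonoidHom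
  have hio : ∀ (b : F⟦X⟧) y, io (b • y) = OInv.inc F⟦X⟧ b • io y := fun b y => by
    change ((1 : OInv F⟦X⟧) ⊗ₜ[F⟦X⟧] (b • y) : OInv F⟦X⟧ ⊗[F⟦X⟧] KO F) =
      algebraMap F⟦X⟧ (OInv F⟦X⟧) b • ((1 : OInv F⟦X⟧) ⊗ₜ[F⟦X⟧] y : OInv F⟦X⟧ ⊗[F⟦X⟧] KO F)
    rw [TensorProduct.tmul_smul, algebraMap_smul]
  have hl₀ := hl.comp (OInv.inc F⟦X⟧) io hio
  let κ := kap c.H hA _ (inv_smul_gen hχT) hl₀
  have hκ : Function.Bijective κ :=
    kap_bijective c.H hA (inv_smul_gen hχT) hl₀ (onHur ev) hN io (fun _ _ => rfl)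
      (hb_tensor F⟦X⟧ (KO F))
  let κL : MP (stdEven T) D.R Y →ₗ[HRing (stdEven T) D.R] TK χT :=
    { toFun := κ
      map_add' := κ.map_add
      map_smul' := fun z x => kap_smul c.H hA _ (inv_smul_gen hχT) hl₀ z x }
  let κE := LinearEquiv.ofBijective κL hκ
  have h1 : Function.Bijective (BC.map S.χ κL) := by
    refine Function.bijective_iff_has_inverse.2 ⟨BC.map S.χ κE.symm.toLinearMap, fun x => ?_,
      fun x => ?_⟩
    · have h : (BC.map S.χ κE.symm.toLinearMap).comp (BC.map S.χ κL) = LinearMap.id :=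
        BC.hom_ext fun m => by
          rw [LinearMap.comp_apply, BC.map_mk, BC.map_mk]
          exact congrArg (BC.mk S.χ) (κE.symm_apply_apply m)
      exact LinearMap.congr_fun h x
    · have h : (BC.map S.χ κL).comp (BC.map S.χ κE.symm.toLinearMap) = LinearMap.id :=
        BC.hom_ext fun m => by
          rw [LinearMap.comp_apply, BC.map_mk, BC.map_mk]
          exact congrArg (BC.mk S.χ) (κE.apply_symm_apply m)
      exact LinearMap.congr_fun h x
  have hpt : ∀ g, (B.pt g).comp χT = S.χ := fun g => c.lawExt _ _ (by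
    rw [← Law.map_map, hχT, genLaw, InvSeries.map_smul, BG.pt, OInv.map_lift_f, Law.map_map,
      OInv.lift_comp_inc, S.law, (B.emb g).law])
  obtain ⟨Ev, hEv, hEv'⟩ := hP _ (L0 D) S.χ χT (by rw [L0, Laz.comp_lift, S.law])
    (by rw [L0, Laz.comp_lift, hχT, S.law]) hpt
  have h2 : (orb G ev').comp (VX.eqv c B Y).toLinearMap = Ev.comp (BC.map S.χ κL) := by
    refine BC.hom_ext fun m => LC.ext fun g => ?_
    let φ := MulSemiringAction.toRingHom G F⟦X⟧ g
    let P : TK χT →+ KO F := ((LC.evA g).comp Ev.toAddMonoidHom).comp (BC.mk S.χ)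
    have hP1 : ∀ t y, P (TK.tm χT t y) = B.pt g t • g • y := fun t y => hEv' t y g
    have hP2 : ∀ (t : OInv F⟦X⟧) (w : TK χT), P (t • w) = B.pt g t • P w := fun t w => by
      refine TensorProduct.induction_on (motive := fun w : TK χT => P (t • w) = B.pt g t • P w)
        w ?_ ?_ ?_
      · exact (congrArg P (smul_zero t)).trans
          ((map_zero P).trans ((smul_zero _).symm.trans (congrArg _ (map_zero P).symm)))
      · intro t' y
        change P (TK.tm χT (t * t') y) = B.pt g t • P (TK.tm χT t' y)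
        rw [hP1, hP1, map_mul, mul_smul]
      · intro (x : TK χT) (y : TK χT) hx hy
        change P (t • (x + y)) = B.pt g t • P (x + y)
        rw [smul_add, map_add, map_add, hx, hy, smul_add]
    have hl' := hl.comp φ (DistribSMul.toAddMonoidHom (KO F) g) fun b y => smul_distrib_smul g b y
    have hχ : (B.pt g).comp ((OInv.inc F⟦X⟧).comp S.χ) = φ.comp S.χ := by
      rw [← RingHom.comp_assoc, BG.pt, OInv.lift_comp_inc, ← B.toRingHom_eq]
    have h₁ : (B.emb g).γ⁻¹ • (D.law.map S.χ).map (RingHom.id _) = D.law.map (φ.comp S.χ) := by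
      rw [Law.map_id, ← Law.map_map, inv_smul_eq_iff]
      exact ((B.coc S).smul g).symm
    have h3 := kap_pt c.H hA _ (inv_smul_gen hχT) hl₀ c.lawExt (B.pt g) P hP2 hχ hl'
      (fun j y => by
        change g • onHur ev j y = P (TK.tm χT 1 (onHur ev j y))
        rw [hP1, map_one, one_smul]) (RingHom.id _)
      (by rw [map_inv, BG.pt, OInv.map_lift_f]) h₁ m
    have h4 : (B.emb g).γ⁻¹ = InvSeries.map φ (B.emb g⁻¹).γ := by
      have h := (B.coc S).mul g g⁻¹
      rw [mul_inv_cancel, (B.coc S).one] at h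
      exact inv_eq_of_mul_eq_one_right h.symm
    have h5 := bc_act c.H c.lawExt c.lawExt _ _ ((B.coc S).smul g⁻¹) φ rfl (RingHom.id _) _ h₁
      (fun b => (smul_inv_smul g b).symm) h4 (V.mk S.χ Y m)
    have h6 := V.evM_bc hl hl' φ rfl (DistribSMul.toAddMonoidHom (KO F) g)
      (fun b y => smul_distrib_smul g b y) (fun _ _ => rfl)
      (act c.H c.lawExt _ _ ((B.coc S).smul g⁻¹) Y (V.mk S.χ Y m))
    rw [h5, ← h3, evM_of_ev ev hev, ← hev'] at h6
    rw [LinearMap.comp_apply, LinearMap.comp_apply, BC.map_mk]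
    exact h6.symm
  have h7 : Function.Bijective ((orb G ev').comp (VX.eqv c B Y).toLinearMap) := by
    rw [h2]
    exact hEv.comp h1
  exact (Function.Bijective.of_comp_iff _ (VX.eqv c B Y).bijective).1 h7

theorem Rep.ev_act' (r : Rep S) (x : V S.χ (D.R ⊗ (r.E ⊗ S.N))) :
    r.ev (V.map S.χ (r.mod.tensorRight S.N).act x) = r.ev (V.mul S.χ _ x) := by
  change r.ev (V.map S.χ ((α_ _ _ _).inv ≫ r.act ▷ S.N) x) = _
  rw [← V.map_map, r.ev_act, mulN_apply, V.map_map, Iso.inv_hom_id, V.map_id, LinearMap.id_apply]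

/-- **`V χ (E ⊗ N)` is the module of locally constant functions on `G`.** -/
theorem Rep.orb_bijective (r : Rep S) (c : Cx S) (B : BG p F G G') (hP : RowPTS B)
    (hN : ∀ j, Function.Bijective fun y : Se T j ⟶ r.E ⊗ S.N => r.ev (V.hur S.χ j y))
    (ev' : VN c B r.E →ₗ[F⟦X⟧] KO F) (hev' : ∀ x, ev' (VX.eqv c B _ x) = r.ev x) :
    Function.Bijective (orb G ev') :=
  TC.orb_bijective c B hP (r.mod.tensorRight S.N) r.ev r.ev_act' hN ev' hev'

end Vale.Agent.P221X.TC
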