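import Vale.Agent.P221X.TC.LocL

/-!
# P221X, block TOP-C: functionals on the homotopy of `Y ⊗ LS` and `Y ⊗ N`
-/

open CategoryTheory MonoidalCategory Limits Pretriangulated PowerSeries

set_option linter.unusedSectionVars false

universe u

noncomputable section

namespace Vale.Agent.P221X.TC

open Vale.Agent.P251 Vale.Agent.P251.T Vale.Agent.P251.M Vale.Agent.P251.S Vale.Agent.P251.F
  Vale.Agent.P251.I Vale.Agent.P251.X
open Vale.Agent.P251.M.EvenSpheres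

/-- extension of a functional to a localisation -/
theorem exists_loc {A K M M' : Type*} [CommRing A] [Field K] (χ : A →+* K) {v : A} (hv : χ v ≠ 0)
    [AddCommGroup M] [Module A M] [AddCommGroup M'] [Module A M'] (f : M →+ M')
    (hf : ∀ (z : A) x, f (z • x) = z • f x) (hi : Function.Injective f)
    (hs : ∀ y, ∃ (n : ℕ) (x : M), v ^ n • y = f x) (l : M →+ K)
    (hl : ∀ (z : A) y, l (z • y) = χ z * l y) :
    ∃ L : M' →+ K, (∀ (z : A) y, L (z • y) = χ z * L y) ∧ ∀ x, L (f x) = l x := by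
  choose n x hx using hs
  let L : M' → K := fun y => (χ v ^ n y)⁻¹ * l (x y)
  have key : ∀ (y : M') (m : ℕ) (x' : M), v ^ m • y = f x' → χ v ^ m * L y = l x' := by
    intro y m x' h
    have h1 : v ^ m • x y = v ^ n y • x' :=
      hi (by rw [hf, hf, ← hx, ← h, smul_comm])
    have h2 := congrArg l h1
    rw [hl, hl, map_pow, map_pow] at h2
    have h3 : χ v ^ n y ≠ 0 := pow_ne_zero _ hv
    change χ v ^ m * ((χ v ^ n y)⁻¹ * l (x y)) = l x'
    rw [mul_left_comm, h2, inv_mul_cancel_left₀ h3]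
  refine ⟨AddMonoidHom.mk' L fun y y' => ?_, fun z y => ?_, fun x' => ?_⟩
  · have h1 := key y (n y + n y') (v ^ n y' • x y) (by rw [hf, ← hx, smul_smul, ← pow_add, add_comm])
    have h2 := key y' (n y + n y') (v ^ n y • x y') (by rw [hf, ← hx, smul_smul, ← pow_add])
    have h3 := key (y + y') (n y + n y') (v ^ n y' • x y + v ^ n y • x y') (by
      rw [map_add, hf, hf, ← hx, ← hx, smul_smul, smul_smul, ← pow_add, ← pow_add, smul_add,
        add_comm (n y')])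
    apply mul_left_cancel₀ (pow_ne_zero (n y + n y') hv)
    rw [h3, mul_add, h1, h2, map_add]
  · have h1 := key (z • y) (n y) (z • x y) (by rw [hf, ← hx, smul_comm])
    apply mul_left_cancel₀ (pow_ne_zero (n y) hv)
    change _ * L _ = _ * (_ * L y)
    rw [h1, hl, mul_left_comm, key y _ _ (hx y)]
  · have h1 := key (f x') 0 x' (by rw [pow_zero, one_smul])
    rwa [pow_zero, one_mul] at h1

variable {T : Type u} [Category.{0} T] [Preadditive T] [HasZeroObject T] [HasShift T ℤ]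
  [∀ n : ℤ, (shiftFunctor T n).Additive] [Pretriangulated T] [IsTriangulated T]
  [MonoidalCategory T] [SymmetricCategory T] [TensorTriangulated T] [MonoidalClosed T]
  [HasCoproducts.{0} T] [HasProducts.{0} T] [StableCat T]
  {D : MUData T} {Y : T} {p : ℕ} [Fact p.Prime] {F : Type} [Field F] {S : TS D p F}

theorem TS.chi_vA (S : TS D p F) (i : ℕ) : S.χ (vA D p i) = vv p i (Qt.FO p F) := by
  rw [← S.law, vv_map, D.vel_spec]
  rfl

/-- The extensions of the functional `l`. -/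
structure LamN (S : TS D p F) (a : ModStr D.R Y) (l : He Y →+ F⟦X⟧) where
  lL : He (Y ⊗ S.LS) →+ KK F
  lL_sm : ∀ z w, lL (sm (a.tensorRight S.LS) z w) = algebraMap F⟦X⟧ (KK F) (S.χ z) * lL w
  lL_toL : ∀ y, lL (He.map (S.toL Y) y) = algebraMap F⟦X⟧ (KK F) (l y)
  lN : He (Y ⊗ S.N) →+ KO F
  lN_sm : ∀ z w, lN (sm (a.tensorRight S.N) z w) = S.χ z • lN w
  lN_gN : ∀ w, lN (He.map (Y ◁ S.gN) w) = KO.mk (lL w)

theorem alg_inj : Function.Injective (algebraMap F⟦X⟧ (KK F)) := IsFractionRing.injective _ _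

theorem alg_ne {f : F⟦X⟧} {w : F⟦X⟧ˣ} (h : f = (w : F⟦X⟧) * X) : algebraMap F⟦X⟧ (KK F) f ≠ 0 := by
  rw [h, ← map_zero (algebraMap F⟦X⟧ (KK F))]
  exact fun h1 => mul_ne_zero w.ne_zero X_ne_zero (alg_inj h1)

theorem exists_alg {z : KK F} (h : z ∈ KK.ge 0) : ∃ f, z = algebraMap F⟦X⟧ (KK F) f := by
  refine ⟨PowerSeries.mk fun n => KK.cf n z, KK.ext fun n => ?_⟩
  rcases lt_or_ge n 0 with hn | hn
  · rw [KK.cf_algebraMap_neg _ hn, KK.mem_ge.1 h n hn]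
  · obtain ⟨m, rfl⟩ := Int.eq_ofNat_of_zero_le hn
    rw [KK.cf_algebraMap, coeff_mk]

theorem exists_mul_alg (z : KK F) : ∃ (n : ℕ) (f : F⟦X⟧),
    algebraMap F⟦X⟧ (KK F) X ^ n * z = algebraMap F⟦X⟧ (KK F) f := by
  obtain ⟨n, hn⟩ := KO.exists_tors (KO.mk z)
  rw [KO.smul_mk, map_pow] at hn
  exact ⟨n, exists_alg (KO.mk_eq_zero.1 hn)⟩

variable (hL : LocF S) {w₀ : F⟦X⟧ˣ} (hv : S.χ (vA D p 1) = (w₀ : F⟦X⟧) * X) (a : ModStr D.R Y)
  (hp : (p : ℤ) • 𝟙 Y = 0) (ho : OddZero Y) (hi : Function.Injective (sm a (vA D p 1)))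

include hL hv hp ho hi in
theorem exists_lamN (l : He Y →+ F⟦X⟧) (hl : ∀ z y, l (sm a z y) = S.χ z * l y) :
    Nonempty (LamN S a l) := by
  obtain ⟨lL, h1, h2⟩ := exists_loc (M := HM a) (M' := HM (a.tensorRight S.LS))
    ((algebraMap F⟦X⟧ (KK F)).comp S.χ) (alg_ne hv) (He.map (S.toL Y))
    (map_sm a _ (S.toL_lin a)) (hL.injL a hp hi) (hL.surjL a hp)
    ((algebraMap F⟦X⟧ (KK F)).toAddMonoidHom.comp l)
    fun z y => (congrArg (algebraMap F⟦X⟧ (KK F)) (hl z y)).trans (map_mul _ _ _)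
  have hs : Function.Surjective (He.map (Y ◁ S.gN)) := He.map_surj (hL.surjN a hp ho hi)
  let g : He (Y ⊗ S.LS) →+ KO F := (KO.mk (F := F)).toAddMonoidHom.comp lL
  have hk : (He.map (Y ◁ S.gN)).ker ≤ g.ker := by
    intro w hw
    obtain ⟨x, rfl⟩ := He.map_exact (exactN hp) w hw
    exact KO.mk_eq_zero.2 ((h2 x).symm ▸ KK.algebraMap_mem_ge _)
  let lN := AddMonoidHom.liftOfSurjective _ hs ⟨g, hk⟩
  have h3 : ∀ w, lN (He.map (Y ◁ S.gN) w) = KO.mk (lL w) := fun w =>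
    AddMonoidHom.liftOfRightInverse_comp_apply _ _ _ _ w
  refine ⟨⟨lL, h1, h2, lN, fun z w => ?_, h3⟩⟩
  obtain ⟨w, rfl⟩ := hs w
  rw [← map_sm _ _ (lin_left a S.gN), h3, h3, KO.smul_mk]
  exact congrArg _ (h1 z w)

include hL hp in
/-- homogeneous form of `surjL` -/
theorem LocF.surjL' (j : ℤ) (w : Se T j ⟶ Y ⊗ S.LS) : ∃ (n : ℕ) (k : ℤ) (x : Se T k ⟶ Y),
    sm (a.tensorRight S.LS) (vA D p 1 ^ n) (He.of _ j w) = He.map (S.toL Y) (He.of Y k x) := by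
  obtain ⟨n, x, hx⟩ := hL.surjL a hp (He.of _ j w)
  obtain ⟨c, hc⟩ := exists_pow_of (D := D) _ (D.vel p 1) n
  refine ⟨n, _, He.cp Y (n * ((p ^ 1 : ℤ) - 1) + j) x, ?_⟩
  rw [He.map_of, ← He.cp_map, ← hx, vA, hc, sm_of _ rfl, He.cp_same]

variable {a} {l : He Y →+ F⟦X⟧} (Λ : LamN S a l)

include hL hp in
theorem LamN.lL_inj (hb : ∀ (j : ℤ) (y : Se T j ⟶ Y), l (He.of Y j y) = 0 → y = 0) (j : ℤ)
    (w : Se T j ⟶ Y ⊗ S.LS) (hw : Λ.lL (He.of _ j w) = 0) : w = 0 := by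
  obtain ⟨n, k, x, hx⟩ := hL.surjL' a hp j w
  have h1 := congrArg Λ.lL hx
  rw [Λ.lL_sm, hw, mul_zero, Λ.lL_toL] at h1
  have h2 : x = 0 := hb k x (alg_inj (by rw [← h1, map_zero]))
  rw [h2, map_zero, map_zero] at hx
  exact He.of_inj j (sm_pow_inj _ (hL.bijL a hp).1 n (by rw [hx, map_zero, sm_zero]))

include hL hv hp in
theorem LamN.lL_surj (hb : ∀ (j : ℤ) (f : F⟦X⟧), ∃ y : Se T j ⟶ Y, l (He.of Y j y) = f) (j : ℤ)
    (z : KK F) : ∃ w : Se T j ⟶ Y ⊗ S.LS, Λ.lL (He.of _ j w) = z := by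
  obtain ⟨n, f, hf⟩ := exists_mul_alg z
  obtain ⟨c, hc⟩ := exists_pow_of (D := D) _ (D.vel p 1) n
  obtain ⟨y, hy⟩ := hb (n * ((p ^ 1 : ℤ) - 1) + j) ((w₀ : F⟦X⟧) ^ n * f)
  obtain ⟨w, hw⟩ := sm_pow_surj _ (hL.bijL a hp).2 n (He.map (S.toL Y) (He.of Y _ y))
  refine ⟨He.cp _ j w, ?_⟩
  have h1 : sm (a.tensorRight S.LS) (vA D p 1 ^ n) (He.of _ j (He.cp _ j w)) =
      He.map (S.toL Y) (He.of Y _ y) := by
    rw [vA, hc] at hw ⊢
    rw [sm_of _ rfl, ← cp_sm, hw, He.map_of, He.cp_same]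
  have h2 := congrArg Λ.lL h1
  rw [Λ.lL_sm, Λ.lL_toL, hy, map_pow, map_pow] at h2
  apply mul_left_cancel₀ (pow_ne_zero n (alg_ne hv))
  rw [h2, hv, map_mul, map_mul, mul_pow, mul_assoc, ← hf, map_pow]

include hL hv hp ho hi in
theorem LamN.lN_bij (hb : ∀ j : ℤ, Function.Bijective fun y : Se T j ⟶ Y => l (He.of Y j y))
    (j : ℤ) : Function.Bijective fun w : Se T j ⟶ Y ⊗ S.N => Λ.lN (He.of _ j w) := by
  have hb1 : ∀ (j : ℤ) (y : Se T j ⟶ Y), l (He.of Y j y) = 0 → y = 0 := fun j y h =>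
    (hb j).1 (by simp only [h, map_zero])
  constructor
  · refine (injective_iff_map_eq_zero (Λ.lN.comp (He.of _ j))).2 fun w hw => ?_
    obtain ⟨w, rfl⟩ := hL.surjN a hp ho hi j w
    have h1 : KO.mk (Λ.lL (He.of _ j w)) = 0 := by rw [← Λ.lN_gN, He.map_of]; exact hw
    obtain ⟨f, hf⟩ := exists_alg (KO.mk_eq_zero.1 h1)
    obtain ⟨y, hy⟩ := (hb j).2 f
    have h2 : w - y ≫ S.toL Y = 0 := Λ.lL_inj hL hp hb1 j _ (by
      rw [map_sub, map_sub, ← He.map_of, Λ.lL_toL, hf]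
      exact sub_eq_zero.2 (congrArg _ hy.symm))
    rw [sub_eq_zero.1 h2, Category.assoc, toL_gN, comp_zero]
  · intro x
    obtain ⟨z, rfl⟩ := KO.mk_surj x
    obtain ⟨w, rfl⟩ := Λ.lL_surj hL hv hp (fun j => (hb j).2) j z
    exact ⟨w ≫ Y ◁ S.gN, by rw [← Λ.lN_gN, He.map_of]⟩

include hL hv hp in
theorem LamN.lL_bij (hb : ∀ j : ℤ, Function.Bijective fun y : Se T j ⟶ Y => l (He.of Y j y))
    (j : ℤ) : Function.Bijective fun w : Se T j ⟶ Y ⊗ S.LS => Λ.lL (He.of _ j w) :=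
  ⟨(injective_iff_map_eq_zero (Λ.lL.comp (He.of _ j))).2
    (Λ.lL_inj hL hp (fun j y h => (hb j).1 (by simp only [h, map_zero])) j),
    Λ.lL_surj hL hv hp (fun j => (hb j).2) j⟩

end Vale.Agent.P221X.TC
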