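import Vale.Agent.P221X.TC.VK
import Vale.Agent.P221X.TC.Lam
import Vale.Agent.P221X.TC.LamN
import Vale.Agent.P221X.TC.LamBij

/-!
# P221X, block TOP-C: the homotopy of `E`, `E ⊗ LS` and `E ⊗ N`

* `Rep.evK` : the lift `V (E ⊗ LS) ⟶ K` of the universal functional; `evK_lam`;
* `Rep.pz` : `π_{2j} E ≃ O`; `Rep.lamN`;
* `Rep.hurN_bijective`, `Rep.hurL_bijective` : `π_{2j} (E ⊗ N) ≃ K / O`, `π_{2j} (E ⊗ LS) ≃ K`;
* `Rep.lam_bij` : the measures are the endomorphisms of `E`.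
-/

open CategoryTheory MonoidalCategory Limits Pretriangulated PowerSeries

set_option linter.unusedSectionVars false

universe u

noncomputable section

namespace Vale.Agent.P221X.TC

open Vale.Agent.P251 Vale.Agent.P251.T Vale.Agent.P251.M Vale.Agent.P251.S Vale.Agent.P251.F
  Vale.Agent.P251.I Vale.Agent.P251.X Vale.Agent.P221X.VT
open Vale.Agent.P251.M.EvenSpheres ProG

variable {T : Type u} [Category.{0} T] [Preadditive T] [HasZeroObject T] [HasShift T ℤ]
  [∀ n : ℤ, (shiftFunctor T n).Additive] [Pretriangulated T] [IsTriangulated T]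
  [MonoidalCategory T] [SymmetricCategory T] [TensorTriangulated T] [MonoidalClosed T]
  [HasCoproducts.{0} T] [HasProducts.{0} T] [StableCat T]
  {D : MUData T} {p : ℕ} [Fact p.Prime] {F : Type} [Field F] {S : TS D p F}

theorem toM_iN2 (S : TS D p F) : S.toM S.LS ≫ S.iN ▷ S.W.M = S.gN := (toM_nat S S.iN).symm

/-- the functional of a family of additive maps -/
def He.lift {Y : T} {I : Type} [AddCommGroup I] (l : ∀ j : ℤ, (Se T j ⟶ Y) →+ I) : He Y →+ I :=
  DirectSum.toAddMonoid (β := (stdEven T).Gr Y) l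

theorem He.lift_of {Y : T} {I : Type} [AddCommGroup I] (l : ∀ j : ℤ, (Se T j ⟶ Y) →+ I) (j : ℤ)
    (y : Se T j ⟶ Y) : He.lift l (He.of Y j y) = l j y :=
  DirectSum.toAddMonoid_of (β := (stdEven T).Gr Y) l j y

theorem He.lift_sm {A : Type} [CommRing A] {χ : HRing (stdEven T) D.R →+* A} {Y : T}
    {a : ModStr D.R Y} {I : Type} [AddCommGroup I] [Module A I]
    {l : ∀ j : ℤ, (Se T j ⟶ Y) →+ I} (hl : Lin χ a l) (z : HRing (stdEven T) D.R) (y : He Y) :
    He.lift l (sm a z y) = χ z • He.lift l y := by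
  induction z using DirectSum.induction_on with
  | zero => rw [zero_sm, map_zero, map_zero, zero_smul]
  | add z z' h h' => rw [add_sm, map_add, map_add, add_smul, h, h']
  | of i z =>
    induction y using He.ind with
    | zero => rw [sm_zero, map_zero, smul_zero]
    | add y y' h h' => rw [sm_add, map_add, map_add, smul_add, h, h']
    | of j y =>
      refine (congrArg (He.lift l) (sm_of a rfl z y)).trans ?_
      rw [He.lift_of, He.lift_of]
      exact hl rfl z y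

/-- the lift of a functional on `V (W ⊗ N)` -/
def Cx.liftM (c : Cx S) {W : T} (φ : VV S W →ₗ[F⟦X⟧] KO F) : V S.χ (W ⊗ S.LM) →ₗ[F⟦X⟧] KK F :=
  liftK (c.X_bijLM W) (φ.comp (V.map S.χ (W ◁ S.iN ▷ S.W.M)))

theorem Cx.mk_liftM (c : Cx S) {W : T} (φ : VV S W →ₗ[F⟦X⟧] KO F) (x : V S.χ (W ⊗ S.LM)) :
    KO.mk (c.liftM φ x) = φ (V.map S.χ (W ◁ S.iN ▷ S.W.M) x) := mk_liftK _ _ x

theorem Cx.X_surjLM (c : Cx S) : Function.Surjective fun x : V S.χ S.LM => (X : F⟦X⟧) • x :=
  fun y => by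
    obtain ⟨x, hx⟩ := (c.X_bijLM (𝟙_ T)).2 (V.map S.χ (λ_ _).inv y)
    refine ⟨V.map S.χ (λ_ _).hom x, ?_⟩
    have h := congrArg (V.map S.χ (λ_ S.LM).hom) hx
    rwa [map_smul, V.map_map, Iso.inv_hom_id, V.map_id] at h

namespace Rep

variable (r : Rep S) (c : Cx S)

/-- the lift of the universal functional -/
def evK : V S.χ (r.E ⊗ S.LS) →ₗ[F⟦X⟧] KK F :=
  (c.liftM r.ev).comp (V.map S.χ (r.E ◁ S.toM S.LS))

theorem mk_evK (x : V S.χ (r.E ⊗ S.LS)) :
    KO.mk (r.evK c x) = r.ev (V.map S.χ (r.E ◁ S.gN) x) := by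
  rw [evK, LinearMap.comp_apply, c.mk_liftM, V.map_map, ← MonoidalCategory.whiskerLeft_comp,
    toM_iN2]

/-- the endomorphism of `K / O` of a homotopy class -/
def fn (j : ℤ) (x : Se T j ⟶ r.E) : KO F →ₗ[F⟦X⟧] KO F :=
  (r.cl _ x).comp ((V.per S.χ j S.N).toLinearMap.comp c.kap.symm.toLinearMap)

/-- the coordinate of a homotopy class -/
def pz0 (j : ℤ) (x : Se T j ⟶ r.E) : F⟦X⟧ := (KO.exists_end (r.fn c j x)).exists.choose

theorem pz0_spec (j : ℤ) (x : Se T j ⟶ r.E) (v : V S.χ S.N) :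
    r.cl _ x (V.per S.χ j S.N v) = r.pz0 c j x • c.kap v := by
  have h := (KO.exists_end (r.fn c j x)).exists.choose_spec (c.kap v)
  rw [← pz0] at h
  rw [← h]
  exact congrArg (fun w => r.cl _ x (V.per S.χ j S.N w)) (c.kap.symm_apply_apply v).symm

theorem pz0_eq {j : ℤ} {x : Se T j ⟶ r.E} {f : F⟦X⟧}
    (h : ∀ v, r.cl _ x (V.per S.χ j S.N v) = f • c.kap v) : r.pz0 c j x = f :=
  (KO.exists_end (r.fn c j x)).unique (KO.exists_end (r.fn c j x)).exists.choose_spec fun y =>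
    (h (c.kap.symm y)).trans (by rw [LinearEquiv.apply_symm_apply])

/-- the coordinate, as an additive map -/
def pz (j : ℤ) : (Se T j ⟶ r.E) →+ F⟦X⟧ :=
  AddMonoidHom.mk' (r.pz0 c j) fun x y => r.pz0_eq c fun v => by
    rw [map_add, LinearMap.add_apply, pz0_spec r c, pz0_spec r c, add_smul]

theorem pz_spec (j : ℤ) (x : Se T j ⟶ r.E) (v : V S.χ S.N) :
    r.cl _ x (V.per S.χ j S.N v) = r.pz c j x • c.kap v := r.pz0_spec c j x v

theorem pz_eq {j : ℤ} {x : Se T j ⟶ r.E} {f : F⟦X⟧}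
    (h : ∀ v, r.cl _ x (V.per S.χ j S.N v) = f • c.kap v) : r.pz c j x = f := r.pz0_eq c h

theorem pz_bijective (j : ℤ) : Function.Bijective (r.pz c j) := by
  refine ⟨(injective_iff_map_eq_zero _).2 fun x hx => r.hom_ext fun y => ?_, fun f => ?_⟩
  · obtain ⟨v, rfl⟩ := (V.per S.χ j S.N).surjective y
    rw [pz_spec r c, hx, zero_smul, map_zero, LinearMap.zero_apply]
  · refine ⟨(r.cl _).symm (f • c.kap.toLinearMap.comp (V.per S.χ j S.N).symm.toLinearMap),
      r.pz_eq c fun v => ?_⟩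
    rw [AddEquiv.apply_symm_apply, LinearMap.smul_apply, LinearMap.comp_apply, LinearEquiv.coe_coe,
      LinearEquiv.coe_coe, LinearEquiv.symm_apply_apply]

theorem evK_hur (j : ℤ) (x : Se T j ⟶ r.E) :
    r.evK c (V.hur S.χ j (x ≫ S.toL r.E)) = algebraMap F⟦X⟧ (KK F) (r.pz c j x) := by
  have h : ((c.liftM r.ev).comp (V.map S.χ (x ▷ S.LM))).comp (V.per S.χ j S.LM).toLinearMap =
      r.pz c j x • c.kK.toLinearMap := liftK_ext c.X_surjLM fun y => by
    change KO.mk (c.liftM r.ev (V.map S.χ (x ▷ S.LM) (V.per S.χ j S.LM y))) =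
      KO.mk (r.pz c j x • c.kK y)
    rw [c.mk_liftM, map_smul, ← c.kap_prN, ← pz_spec, ← V.map_per, cl_apply, V.map_map, V.map_map,
      whisker_exchange]
  have h1 : c.liftM r.ev (V.map S.χ (x ▷ S.LM) (V.per S.χ j S.LM S.oneLM)) =
      r.pz c j x • c.kK S.oneLM := LinearMap.congr_fun h S.oneLM
  have h2 : V.cross S.χ (Se T j) (𝟙_ T) (V.gen S.χ j) (V.one S.χ) =
      V.map S.χ (ρ_ _).inv (V.gen S.χ j) := by
    rw [← V.cross_one (V.gen S.χ j), V.map_map, Iso.hom_inv_id, V.map_id, LinearMap.id_apply,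
      V.cross_one]
  rw [c.kK_one, Algebra.smul_def, mul_one, TS.oneLM, ← V.map_per, V.per_apply, h2, V.map_map,
    V.map_map, iM_uM] at h1
  rw [← h1, evK, LinearMap.comp_apply, V.hur_eq, V.map_map]
  congr 3
  rw [whisker_exchange, TS.toL, ← rightUnitor_inv_naturality_assoc]
  simp

variable [CharP F p]

theorem evK_act (x : V S.χ (D.R ⊗ (r.E ⊗ S.LS))) :
    r.evK c (V.map S.χ (r.mod.tensorRight S.LS).act x) = r.evK c (V.mul S.χ _ x) := by
  have h0 : IsZero ((D.R ⊗ (r.E ⊗ S.LS)) ⊗ S.W.V1) :=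
    ((tensorLeft D.R).map_isZero (zero_LS c.hL r.E)).of_iso (α_ _ _ _)
  refine LinearMap.congr_fun (liftK_ext (ψ := (r.evK c).comp (V.map S.χ _))
    (ψ' := (r.evK c).comp (V.mul S.χ _))
    (c.X_bij (Vn.p_left (Vn.p_right r.pE _) _) h0).2 fun y => ?_) x
  rw [LinearMap.comp_apply, LinearMap.comp_apply, mk_evK, mk_evK, V.map_map,
    lin_left r.mod S.gN, ← V.map_map, ev_act', V.map_mul]

theorem pz_lin : Lin S.χ r.mod (r.pz c) := fun i j k h z y => alg_injective (by
  have h1 := lin_of_ev (r.evK c) (r.evK_act c) h z (y ≫ S.toL r.E)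
  rw [onHur_apply, onHur_apply, gsmul_comp _ _ (S.toL_lin r.mod), evK_hur, evK_hur] at h1
  rw [h1, smul_eq_mul, map_mul, Algebra.smul_def])

include c in
theorem oddE : OddZero r.E := fun n hn x => r.hom_ext fun y => by
  rw [VN_odd c.hL hn y, map_zero, map_zero]

include c in
theorem v1_inj : Function.Injective (sm r.mod (vA D p 1)) := fun x y hxy => He.ext_cp fun j => by
  have h := congrArg (fun w => r.pz c _ (He.cp r.E (((p : ℤ) ^ 1 - 1) + j) w)) hxy
  simp only [vA] at h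
  rw [cp_sm _ rfl, cp_sm _ rfl, r.pz_lin c rfl, r.pz_lin c rfl, S.chi_v1] at h
  exact (r.pz_bijective c j).1 (mul_left_cancel₀ X_ne_zero h)

/-- the functionals on the homotopy of `E ⊗ LS` and `E ⊗ N` -/
def lamN : LamN S r.mod (He.lift (r.pz c)) where
  lL := He.lift (onHur (r.evK c))
  lL_sm z w := by rw [He.lift_sm (lin_of_ev _ (r.evK_act c)), Algebra.smul_def]
  lL_toL y := by
    induction y using He.ind with
    | zero => rw [map_zero, map_zero, map_zero, map_zero]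
    | add y y' h h' => rw [map_add, map_add, map_add, map_add, h, h']
    | of j y => rw [He.map_of, He.lift_of, He.lift_of, onHur_apply, evK_hur]
  lN := He.lift (onHur r.ev)
  lN_sm z w := He.lift_sm (lin_of_ev _ r.ev_act') z w
  lN_gN w := by
    induction w using He.ind with
    | zero => rw [map_zero, map_zero, map_zero, map_zero]
    | add y y' h h' => rw [map_add, map_add, map_add, map_add, h, h']
    | of j y => rw [He.map_of, He.lift_of, He.lift_of, onHur_apply, onHur_apply, mk_evK, V.map_hur]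

theorem pz_bij' (j : ℤ) :
    Function.Bijective fun y : Se T j ⟶ r.E => He.lift (r.pz c) (He.of r.E j y) := by
  simp only [He.lift_of]
  exact r.pz_bijective c j

include c in
/-- **`π_{2j} (E ⊗ N) ≃ K / O`** -/
theorem hurN_bijective (j : ℤ) :
    Function.Bijective fun y : Se T j ⟶ r.E ⊗ S.N => r.ev (V.hur S.χ j y) := by
  obtain ⟨w, hw⟩ := c.chi_v1
  have h := (r.lamN c).lN_bij c.hL hw r.pE (r.oddE c) (r.v1_inj c) (r.pz_bij' c) j
  simp only [lamN, He.lift_of] at h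
  exact h

/-- **`π_{2j} (E ⊗ LS) ≃ K`** -/
theorem hurL_bijective (j : ℤ) :
    Function.Bijective fun y : Se T j ⟶ r.E ⊗ S.LS => r.evK c (V.hur S.χ j y) := by
  obtain ⟨w, hw⟩ := c.chi_v1
  have h := (r.lamN c).lL_bij c.hL hw r.pE (r.pz_bij' c) j
  simp only [lamN, He.lift_of] at h
  exact h

include c in
theorem oddEL : OddZero (r.E ⊗ S.LS) := c.hL.oddL r.mod r.pE (r.oddE c)

include c in
theorem oddEN' : OddZero (r.E ⊗ S.N') := c.hL.oddN' r.mod r.pE (r.oddE c) (r.v1_inj c)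

variable {G G' : Type} [Group G] [ProG G] [MulSemiringAction G F⟦X⟧]
  [MulSemiringAction G (KK F)] [ActK G F] [Group G'] [ProG G'] [MulSemiringAction G' F⟦X⟧]
  [MulSemiringAction G' (KK F)] [ActK G' F] (B : BG p F G G')

/-- **The measures are the endomorphisms of `E`.** -/
theorem lam_bij (hP : RowPTS B) : Function.Bijective (r.lam c B) :=
  (r.lam_bij_iff c B).2 (r.orb_bijective c B hP (r.hurN_bijective c) (r.evG c B) fun _ => rfl)

/-- the lifted functional on the module with the action of `G` -/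
def evKG : VX c B (r.E ⊗ S.LS) →ₗ[F⟦X⟧] KK F := r.evK c

theorem evK_lam (g : G) (x : VX c B (r.E ⊗ S.LS)) :
    r.evKG c B (VX.map c B ((r.lam c B (Meas.ofG F⟦X⟧ (KO F) g) : r.E ⟶ r.E) ▷ S.LS) x) =
      g • r.evKG c B (g⁻¹ • x) := by
  have h0 : ∀ y, KO.mk (r.evKG c B y) = r.evG c B (VX.map c B (r.E ◁ S.gN) y) := r.mk_evK c
  let L := VX.map c B ((r.lam c B (Meas.ofG F⟦X⟧ (KO F) g) : r.E ⟶ r.E) ▷ S.LS)
  refine sub_eq_zero.1 (eq_zero_of_mk (L := VX c B (r.E ⊗ S.LS)) (c.X_bijL r.pE).2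
    (fun y => r.evKG c B (L y) - g • r.evKG c B (g⁻¹ • y)) (fun y => ⟨1, ?_⟩) (fun y => ?_) x)
  · rw [map_smul, map_smul, smul_distrib_smul, map_smul, Algebra.smul_def (g⁻¹ • X), smul_mul',
      ActK.alg, smul_inv_smul, ← Algebra.smul_def, mul_one, smul_sub]
  · have h1 := r.clG_lam_g c B (𝟙 r.E) g (VX.map c B (r.E ◁ S.gN) y)
    rw [Category.id_comp, clG_id, clG_def, LinearMap.comp_apply, VX.map_map, whisker_exchange,
      ← VX.map_map, ← VX.map_g] at h1
    rw [map_sub, h0, h1, ← h0]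
    exact sub_self _

end Rep

end Vale.Agent.P221X.TC
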