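import Vale.Agent.P221X.TC.Onto
import Vale.Agent.P221X.VT.LtoFO
import Vale.Agent.P251.F.HondaMain
import Mathlib.RingTheory.ZMod.UnitsCyclic

/-!
# P221X, block TOP-C, row HT1

* `dense_aut` : an open subgroup of the automorphisms of a Honda law of height one which contains
  `[1 + p]` and elements with every linear coefficient is everything (`p` odd);
* `inv_honda`, `inv_iso`, `inv_field` : the orbit theorem for a Honda law over a field `C`, for a
  law isomorphic to it, and for every law of height one over a field;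
* `rowHT1`.
-/

set_option linter.all false

open PowerSeries TensorProduct

noncomputable section

namespace Vale.Agent.P221X.TC

open Vale.Agent.P251 Vale.Agent.P251.F Vale.Agent.P217

variable {p : ℕ} [hp : Fact p.Prime]

theorem one_add_pow_pow (h2 : p ≠ 2) (n m : ℕ) :
    ∃ y : ℕ, (1 + p) ^ (p ^ n * m) = 1 + p ^ (n + 1) * (m + p * y) := by
  have h3 : 3 ≤ p := by have := hp.out.two_le; omega
  obtain ⟨y, hy⟩ := ZMod.exists_one_add_mul_pow_prime_pow_eq (R := ℕ) (u := p) (v := p) hp.out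
    dvd_rfl (by
      have := pow_dvd_pow p h3
      rwa [pow_three, ← mul_assoc] at this) 1 n
  rw [mul_one, Nat.cast_id] at hy
  rw [pow_mul, hy]
  induction m with
  | zero => exact ⟨0, by simp⟩
  | succ m ih =>
    obtain ⟨z, hz⟩ := ih
    refine ⟨z + y + p ^ n * (m + p * z) * (1 + p * y), ?_⟩
    rw [pow_succ, hz]
    ring

/-- the closure of the group generated by `[1 + p]` and the roots of unity -/
theorem dense_aut (h2 : p ≠ 2) {H : FormalGroup (ZMod p)} [H.IsComm] (hH : HondaOver p 1 H)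
    (U : Subgroup (AutF H)) {N : ℕ} (hN : ∀ γ : AutF H, (X : (ZMod p)⟦X⟧) ^ N ∣ γ.val - X → γ ∈ U)
    {ψ : AutF H} (hψ : ψ ∈ U) (hψv : ψ.val = multSeries H (1 + p))
    (hμ : ∀ ζ : (ZMod p)ˣ, ∃ γ ∈ U, γ.cf 1 = ζ) (γ : AutF H) : γ ∈ U := by
  let e : AutF H →* EndF H := (Units.coeHom _).comp AutF.toUnits.toMonoidHom
  have he : ∀ a : AutF H, (e a).val = a.val := fun a => rfl
  have hS : ((p : ℕ) : EndF H) = hH.D.S := hH.p_eq.trans (pow_one _)
  have hψe : e ψ = ((1 + p : ℕ) : EndF H) := EndF.ext (by rw [he, hψv, EndF.val_natCast])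
  have hq : ∀ (n : ℕ) (δ : AutF H), e γ - e δ ∈ hH.D.I n → e (δ⁻¹ * γ) - 1 ∈ hH.D.I n := by
    intro n δ h
    have h1 := hH.D.mul_mem_I_left (e δ⁻¹) h
    rwa [mul_sub, ← map_mul, ← map_mul, inv_mul_cancel, map_one] at h1
  have key : ∀ n : ℕ, ∃ δ ∈ U, e γ - e δ ∈ hH.D.I (n + 1) := by
    intro n
    induction n with
    | zero =>
      obtain ⟨δ, hδ, h1⟩ := hμ γ.cf_one_isUnit.unit
      refine ⟨δ, hδ, hH.D.mem_I_one.2 ?_⟩
      rw [map_sub, sub_eq_zero]
      exact h1.symm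
    | succ n ih =>
      obtain ⟨δ, hδ, h1⟩ := ih
      obtain ⟨a, ha⟩ := hq _ δ h1
      obtain ⟨y, hy⟩ := one_add_pow_pow h2 n (hH.D.r a).val
      refine ⟨δ * ψ ^ (p ^ n * (hH.D.r a).val), mul_mem hδ (pow_mem hψ _), ?_⟩
      have h3 : e γ = e δ * (1 + a * hH.D.S ^ (n + 1)) := by
        rw [← ha, add_sub_cancel, ← map_mul, mul_inv_cancel_left]
      rw [h3, map_mul, map_pow, hψe, ← Nat.cast_pow, hy, ← mul_sub]
      refine hH.D.mul_mem_I_left _ ?_
      rw [mul_comm (p ^ (n + 1)), Nat.cast_add, Nat.cast_one, Nat.cast_mul, Nat.cast_pow, hS,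
        add_sub_add_left_eq_sub, ← sub_mul, hH.D.mul_S_pow_mem_succ_iff, map_sub, map_natCast]
      simp
  obtain ⟨δ, hδ, h1⟩ := key N
  have h3 := (EndF.sub_mem_I_iff hH.frob hH.teich).1 (hq _ δ h1)
  have h4 : δ⁻¹ * γ ∈ U := by
    refine hN _ (X_pow_dvd_iff.2 fun j hj => ?_)
    rw [map_sub, sub_eq_zero]
    exact h3 j (hj.trans ((Nat.lt_succ_self N).trans (Nat.lt_pow_self hp.out.one_lt)))
  have h5 := mul_mem hδ h4
  rwa [mul_inv_cancel_left] at h5

theorem rho_toO {K : Type} [CommRing K] {Φ Φ' : Law K} (hΦ : IsTy p 1 1 Φ) (hΦ' : IsTy p 1 1 Φ')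
    {δ : InvSeries K} (h : δ • Φ = Φ') :
    (rho δ).comp (RJ.toO (k := K) hΦ) = RJ.toO (k := K) hΦ' := by
  have h1 : (rho δ).comp (OInv.inc K) = OInv.inc K := OInv.lift_comp_inc _ _
  have h2 : InvSeries.map (rho δ) (OInv.f K) = OInv.f K * InvSeries.map (OInv.inc K) δ :=
    OInv.map_lift_f _ _
  apply RJ.hom_ext
  · rw [RingHom.comp_assoc, RJ.toO_comp_algebraMap, RJ.toO_comp_algebraMap, ← RingHom.comp_assoc,
      h1]
  · rw [← Law.map_map, RJ.law_map_toO, RJ.law_map_toO, InvSeries.map_smul, h2, Law.map_map, h1,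
      mul_smul, ← InvSeries.map_smul, h]

/-- the orbit theorem for a Honda law over a field of characteristic `p` -/
theorem inv_honda {C : Type} [Field C] (ι : ZMod p →+* C) {H : Law (ZMod p)}
    (hH : multSeries H.toFG p = X ^ p ^ 1) (hC : IsTy p 1 1 (H.map ι)) :
    Function.Injective (RJ.toO (k := C) hC) ∧ ∀ t,
      (∀ γ : AutF H.toFG, rho (InvSeries.map ι γ.toInv) t = t) →
        t ∈ (RJ.toO (k := C) hC).range := by
  letI : Algebra (RJ C p 1 1) (OInv C) := (RJ.toO (k := C) hC).toAlgebra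
  letI : Algebra (ZMod p) (RJ C p 1 1) := ((algebraMap C (RJ C p 1 1)).comp ι).toAlgebra
  have hι : (algebraMap (RJ C p 1 1) (OInv C)).comp (algebraMap C (RJ C p 1 1)) = OInv.inc C :=
    RJ.toO_comp_algebraMap hC
  have hT : IsIsoRep (RJ.law C p 1 1).toFG (H.toFG.map (algebraMap (ZMod p) (RJ C p 1 1)))
      (OInv C) ((OInv.f C)⁻¹).val := by
    have h := isIsoRep_oinv (H := H.map ι) (F := RJ.law C p 1 1) hι (RJ.law_map_toO hC)
      (fun B _ x y h1 h2 => RJ.hom_ext h1 h2)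
    rwa [Law.map_toFG, FG_map_map] at h
  have S : OrbitSetup p 1 (ZMod p) H.toFG (RJ C p 1 1) (RJ.law C p 1 1).toFG :=
    ⟨hp.out, one_ne_zero, by rw [Nat.card_zmod, pow_one], H.comm, hH, (RJ.law C p 1 1).comm,
      RJ.isTy.hasHeight one_ne_zero⟩
  obtain ⟨h1, h2⟩ := hT.invariants S
  refine ⟨h1, fun t ht => h2 t fun γ => ?_⟩
  have h3 : InvSeries.map ((hT.ract γ⁻¹ : OInv C →ₐ[RJ C p 1 1] OInv C) : OInv C →+* OInv C)
      (OInv.f C)⁻¹ = InvSeries.map (OInv.inc C) (InvSeries.map ι (γ⁻¹).toInv) * (OInv.f C)⁻¹ := by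
    apply InvSeries.ext
    refine (hT.map_ract γ⁻¹).trans ?_
    rw [InvSeries.mul_val, autR, pmap_pmap, InvSeries.map_map, ← hι]
    rfl
  rw [map_inv, AutF.toInv_inv, map_inv, map_inv, ← mul_inv_rev, inv_inj] at h3
  have h4 : ((hT.ract γ⁻¹ : OInv C →ₐ[RJ C p 1 1] OInv C) : OInv C →+* OInv C) =
      rho (InvSeries.map ι γ.toInv) := by
    apply OInv.hom_ext
    · rw [rho, OInv.lift_comp_inc, ← hι, ← RingHom.comp_assoc, AlgHom.comp_algebraMap]
    · rw [h3, rho, OInv.map_lift_f]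
  exact (RingHom.congr_fun h4 t).trans (ht γ)

/-- the automorphisms of a Honda law of height one are defined over the prime field -/
theorem exists_aut {C : Type} [Field C] (ι : ZMod p →+* C) {H : Law (ZMod p)}
    (hH : multSeries H.toFG p = X ^ p ^ 1) {β : InvSeries C} (hβ : β • H.map ι = H.map ι) :
    ∃ γ : AutF H.toFG, InvSeries.map ι γ.toInv = β := by
  letI : Algebra (ZMod p) C := ι.toAlgebra
  haveI : CharP C p := charP_of_injective_ringHom ι.injective p
  have h1 : multSeries (H.map ι).toFG p = X ^ Nat.card (ZMod p) := by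
    rw [Law.map_toFG, ← map_multSeries, hH, map_pow, map_X, Nat.card_zmod, pow_one]
  have h2 := (InvSeries.smul_eq_iff _ _ _).1 hβ
  have h3 : ∀ n, ∃ c, ι c = coeff n β.val := by
    intro n
    have h4 := mem_fixSub.1 (coeff_mem_fixSub (k := ZMod p) h1 h1 h2.1 n)
    rw [Nat.card_zmod, ← Subfield.mem_bot_iff_pow_eq_self, ← ZMod.fieldRange_castHom_eq_bot p,
      Subsingleton.elim (ZMod.castHom (dvd_refl p) C) ι] at h4
    exact h4
  choose c hc using h3
  have h5 : PowerSeries.map ι (PowerSeries.mk c) = β.val := by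
    ext n
    rw [coeff_map, coeff_mk, hc]
  refine ⟨AutF.mk (PowerSeries.mk c) ⟨IsHom_of_map ι.injective (h5 ▸ h2.1), ?_⟩,
    InvSeries.ext h5⟩
  rw [coeff_mk, isUnit_iff_ne_zero]
  intro h0
  have h6 := hc 1
  rw [h0, map_zero] at h6
  exact h2.2.ne_zero h6.symm

/-- the orbit theorem for a law which is isomorphic to a Honda law -/
theorem inv_iso (h2 : p ≠ 2) {C : Type} [Field C] (ι : ZMod p →+* C) {H : Law (ZMod p)}
    (hH : HondaOver p 1 H.toFG) {Φ : Law C} (hΦ : IsTy p 1 1 Φ) {g : InvSeries C}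
    (hg : g • Φ = H.map ι) {ψ : InvSeries C} (hψ : ψ.val = multSeries Φ.toFG (1 + p))
    (hψ' : ψ • Φ = Φ) {μ : (ZMod p)ˣ → InvSeries C} (hμ : ∀ ζ, (μ ζ).c 0 = ι ζ)
    (hμ' : ∀ ζ, μ ζ • Φ = Φ) :
    Function.Injective (RJ.toO (k := C) hΦ) ∧ ∀ t, rho ψ t = t → (∀ ζ, rho (μ ζ) t = t) →
      t ∈ (RJ.toO (k := C) hΦ).range := by
  have hC : IsTy p 1 1 (H.map ι) := hg ▸ hΦ.smul g
  obtain ⟨h3, h4⟩ := inv_honda ι hH.mult hC
  have e1 := rho_toO hΦ hC hg
  have e2 := rho_toO hC hΦ (inv_smul_eq_iff.2 hg.symm)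
  refine ⟨fun a b hab => h3 ?_, fun t ht ht' => ?_⟩
  · rw [← e1, RingHom.comp_apply, RingHom.comp_apply, hab]
  have hconj : ∀ α : InvSeries C, α • Φ = Φ → rho α t = t → ∃ γ : AutF H.toFG,
      InvSeries.map ι γ.toInv = g * α * g⁻¹ ∧ rho (InvSeries.map ι γ.toInv) (rho g t) = rho g t := by
    intro α hα hα'
    obtain ⟨γ, hγ⟩ := exists_aut ι hH.mult (β := g * α * g⁻¹) (by
      rw [← hg, mul_smul, mul_smul, inv_smul_smul, hα])
    refine ⟨γ, hγ, ?_⟩
    rw [hγ, rho_rho, inv_mul_cancel_right, ← rho_rho, hα']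
  let U : Subgroup (AutF H.toFG) :=
    { carrier := {γ | rho (InvSeries.map ι γ.toInv) (rho g t) = rho g t}
      one_mem' := by
        change rho (InvSeries.map ι (1 : AutF H.toFG).toInv) _ = _
        rw [AutF.toInv_one, map_one, rho_one]
      mul_mem' := fun {a b} ha hb => by
        change rho (InvSeries.map ι (a * b).toInv) _ = _
        rw [AutF.toInv_mul, map_mul, ← rho_rho, hb, ha]
      inv_mem' := fun {a} ha => by
        change rho (InvSeries.map ι (a⁻¹).toInv) _ = _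
        conv_lhs => rw [← ha]
        rw [rho_rho, AutF.toInv_inv, ← map_mul, inv_mul_cancel, map_one, rho_one] }
  obtain ⟨N, hN⟩ := exists_fix (rho g t)
  obtain ⟨γ, hγ, hγU⟩ := hconj ψ hψ' ht
  have hγv : γ.val = multSeries H.toFG (1 + p) := by
    apply PowerSeries.map_injective ι ι.injective
    have h5 := subst_multSeries ((InvSeries.smul_eq_iff _ _ _).1 hg).1 (1 + p)
    have h6 := congrArg InvSeries.val hγ
    rw [InvSeries.mul_val, InvSeries.mul_val, hψ, h5, psubst_psubst g.cc g⁻¹.cc,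
      ← InvSeries.mul_val, mul_inv_cancel, InvSeries.one_val, X_subst] at h6
    rw [map_multSeries]
    exact h6
  have hU : ∀ γ, γ ∈ U := dense_aut h2 hH U (fun δ hδ => hN _ (map_near ι (δ := δ.toInv) hδ))
    (ψ := γ) hγU hγv fun ζ => by
      obtain ⟨δ, hδ, hδU⟩ := hconj (μ ζ) (hμ' ζ) (ht' ζ)
      refine ⟨δ, hδU, ι.injective ?_⟩
      have h5 := congrArg (fun s => InvSeries.c s 0) hδ
      simp only [InvSeries.c_map, InvSeries.c_zero_mul] at h5
      rw [hμ, mul_right_comm, ← InvSeries.c_zero_mul, mul_inv_cancel, InvSeries.c_zero_one,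
        one_mul] at h5
      exact h5
  obtain ⟨r, hr⟩ := h4 _ hU
  refine ⟨r, ?_⟩
  rw [← e2, RingHom.comp_apply, hr, rho_rho, inv_mul_cancel, rho_one]

section descent

variable {K C : Type} [Field K] [Field C] [Algebra K C] {Φ : Law K} (hΦ : IsTy p 1 1 Φ)

theorem mapE_rho (δ : InvSeries K) (t : OInv K) :
    OInv.mapE (algebraMap K C) (rho δ t) =
      rho (InvSeries.map (algebraMap K C) δ) (OInv.mapE (algebraMap K C) t) := by
  have h : (OInv.mapE (algebraMap K C)).comp (rho δ) =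
      (rho (InvSeries.map (algebraMap K C) δ)).comp (OInv.mapE (algebraMap K C)) := by
    rw [rho, rho, OInv.comp_lift, OInv.lift_comp_mapE, OInv.mapE_comp_inc, map_mul,
      OInv.map_mapE_f, InvSeries.map_map, InvSeries.map_map, OInv.mapE_comp_inc]
  exact RingHom.congr_fun h t

theorem desc_inj (h : Function.Injective (RJ.toO (k := C) (hΦ.map (algebraMap K C)))) :
    Function.Injective (RJ.toO (k := K) hΦ) := by
  let j : RJ K p 1 1 →+* RJ C p 1 1 :=
    RJ.lift ((algebraMap C _).comp (algebraMap K C)) (RJ.law C p 1 1) RJ.isTy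
  let iR : RJ K p 1 1 →+* C ⊗[K] RJ K p 1 1 :=
    (Algebra.TensorProduct.includeRight : RJ K p 1 1 →ₐ[K] C ⊗[K] RJ K p 1 1)
  let Θ : RJ C p 1 1 →+* C ⊗[K] RJ K p 1 1 :=
    RJ.lift Algebra.TensorProduct.includeLeftRingHom ((RJ.law K p 1 1).map iR) (RJ.isTy.map iR)
  have h1 : Θ.comp j = iR := by
    apply RJ.hom_ext
    · rw [RingHom.comp_assoc, RJ.lift_comp_algebraMap, ← RingHom.comp_assoc,
        RJ.lift_comp_algebraMap]
      exact Algebra.TensorProduct.includeLeftRingHom_comp_algebraMap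
    · rw [← Law.map_map, RJ.law_map_lift, RJ.law_map_lift]
  have h2 : Function.Injective j := by
    refine Function.Injective.of_comp (f := Θ) ?_
    rw [← RingHom.coe_comp, h1]
    exact Algebra.TensorProduct.includeRight_injective (algebraMap K C).injective
  have h3 : (OInv.mapE (algebraMap K C)).comp (RJ.toO (k := K) hΦ) =
      (RJ.toO (k := C) (hΦ.map (algebraMap K C))).comp j := by
    apply RJ.hom_ext
    · rw [RingHom.comp_assoc, RJ.toO_comp_algebraMap, RingHom.comp_assoc, RJ.lift_comp_algebraMap,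
        ← RingHom.comp_assoc, ← RingHom.comp_assoc, RJ.toO_comp_algebraMap, OInv.mapE_comp_inc]
      rfl
    · rw [← Law.map_map, ← Law.map_map, RJ.law_map_lift, RJ.law_map_toO, RJ.law_map_toO,
        InvSeries.map_smul, OInv.map_mapE_f, Law.map_map, Law.map_map, OInv.mapE_comp_inc]
  refine Function.Injective.of_comp (f := OInv.mapE (algebraMap K C)) ?_
  rw [← RingHom.coe_comp, h3]
  exact h.comp h2

theorem desc_range {t : OInv K}
    (h : OInv.mapE (algebraMap K C) t ∈ (RJ.toO (k := C) (hΦ.map (algebraMap K C))).range) :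
    t ∈ (RJ.toO (k := K) hΦ).range := by
  obtain ⟨r, hr⟩ := (Algebra.linearMap K C).exists_leftInverse_of_injective
    (LinearMap.ker_eq_bot.2 (algebraMap K C).injective)
  have hr1 : r 1 = 1 := by
    have := LinearMap.congr_fun hr 1
    simpa using this
  let iR : OInv K →+* C ⊗[K] OInv K :=
    (Algebra.TensorProduct.includeRight : OInv K →ₐ[K] C ⊗[K] OInv K)
  let iL : C →+* C ⊗[K] OInv K := Algebra.TensorProduct.includeLeftRingHom
  let Θ : OInv C →+* C ⊗[K] OInv K := OInv.lift iL (InvSeries.map iR (OInv.f K))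
  have hLR : iL.comp (algebraMap K C) = iR.comp (OInv.inc K) :=
    Algebra.TensorProduct.includeLeftRingHom_comp_algebraMap
  have h1 : Θ.comp (OInv.mapE (algebraMap K C)) = iR := by
    apply OInv.hom_ext
    · rw [OInv.lift_comp_mapE, OInv.lift_comp_inc, hLR]
    · rw [OInv.lift_comp_mapE, OInv.map_lift_f]
  have h2 : (Θ.comp (RJ.toO (k := C) (hΦ.map (algebraMap K C)))).comp (RJ.incR C p 1 1) =
      (iR.comp (RJ.toO (k := K) hΦ)).comp (RJ.incR K p 1 1) := by
    apply NN.hom_ext_law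
    rw [← Law.map_map, ← Law.map_map, ← Law.map_map, ← Law.map_map]
    change ((RJ.law C p 1 1).map _).map _ = ((RJ.law K p 1 1).map _).map _
    rw [RJ.law_map_toO, RJ.law_map_toO, InvSeries.map_smul, InvSeries.map_smul, OInv.map_lift_f,
      Law.map_map, OInv.lift_comp_inc, Law.map_map, Law.map_map, hLR]
  let R : C ⊗[K] OInv K →ₗ[K] OInv K := (TensorProduct.lid K _).toLinearMap ∘ₗ r.rTensor _
  have hR : ∀ c s, R (c ⊗ₜ s) = OInv.inc K (r c) * s := fun c s =>
    (TensorProduct.lid_tmul s (r c)).trans (Algebra.smul_def _ _)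
  have h3 : ∀ x, R (Θ (RJ.toO (k := C) (hΦ.map (algebraMap K C)) x)) ∈
      (RJ.toO (k := K) hΦ).range := by
    refine RJ.ind ?_ ?_ ?_
    · rw [map_zero, map_zero, map_zero]
      exact zero_mem _
    · intro a b ha hb
      rw [map_add, map_add, map_add]
      exact add_mem ha hb
    · intro c n
      have e1 : Θ (RJ.toO (k := C) (hΦ.map (algebraMap K C)) (algebraMap C _ c)) = iL c :=
        (congrArg Θ (RingHom.congr_fun (RJ.toO_comp_algebraMap (hΦ.map _)) c)).trans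
          (OInv.lift_inc _ _ _)
      have e2 : Θ (RJ.toO (k := C) (hΦ.map (algebraMap K C)) (RJ.incR C p 1 1 n)) =
          iR (RJ.toO (k := K) hΦ (RJ.incR K p 1 1 n)) := RingHom.congr_fun h2 n
      have e3 : ∀ s, iL c * iR s = c ⊗ₜ s := fun s =>
        (Algebra.TensorProduct.tmul_mul_tmul c 1 1 s).trans (by rw [mul_one, one_mul])
      rw [map_mul, map_mul, e1, e2, e3, hR]
      refine ⟨algebraMap K _ (r c) * RJ.incR K p 1 1 n, ?_⟩
      rw [map_mul]
      exact congrArg (· * _) (RingHom.congr_fun (RJ.toO_comp_algebraMap hΦ) (r c))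
  obtain ⟨x, hx⟩ := h
  have h4 := h3 x
  rw [hx, ← RingHom.comp_apply, h1] at h4
  have h5 : R (iR t) = t := (hR 1 t).trans (by rw [hr1, map_one, one_mul])
  rwa [h5] at h4

end descent

/-- the orbit theorem for a law of height one over a field -/
theorem inv_field (h2 : p ≠ 2) {K : Type} [Field K] (ι : ZMod p →+* K) {Φ : Law K}
    (hΦ : IsTy p 1 1 Φ) {ψ : InvSeries K} (hψ : ψ.val = multSeries Φ.toFG (1 + p))
    (hψ' : ψ • Φ = Φ) {μ : (ZMod p)ˣ → InvSeries K} (hμ : ∀ ζ, (μ ζ).c 0 = ι ζ)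
    (hμ' : ∀ ζ, μ ζ • Φ = Φ) :
    Function.Injective (RJ.toO (k := K) hΦ) ∧ ∀ t, rho ψ t = t → (∀ ζ, rho (μ ζ) t = t) →
      t ∈ (RJ.toO (k := K) hΦ).range := by
  letI : Algebra (ZMod p) K := ι.toAlgebra
  have hk : Nat.card (ZMod p) = p ^ 1 := by rw [Nat.card_zmod, pow_one]
  obtain ⟨Γ, -, hΓ, hH, -⟩ := exists_hondaOver (p := p) le_rfl hk (RingHom.id _)
  rw [FG_map_id] at hH
  obtain ⟨g, hg0, hg1, hg⟩ := hΦ.hasHeight one_ne_zero
  obtain ⟨B, _, _, hff, f, hf⟩ := exists_ff_iso p one_ne_zero hk ⟨Γ, hΓ⟩ hH.mult Φ g hg0 hg1 hg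
  haveI : Nontrivial B := (FaithfulSMul.algebraMap_injective K B).nontrivial
  obtain ⟨m, hm⟩ := Ideal.exists_maximal B
  letI : Field (B ⧸ m) := Ideal.Quotient.field m
  have e : (Ideal.Quotient.mk m).comp (algebraMap K B) = algebraMap K (B ⧸ m) := rfl
  have hf' := congrArg (Law.map (Ideal.Quotient.mk m)) hf
  rw [InvSeries.map_smul, Law.map_map, Law.map_map, Law.map_map, e] at hf'
  have hs : ∀ α : InvSeries K, α • Φ = Φ → InvSeries.map (algebraMap K (B ⧸ m)) α •
      Φ.map (algebraMap K (B ⧸ m)) = Φ.map (algebraMap K (B ⧸ m)) := fun α hα => by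
    rw [← InvSeries.map_smul, hα]
  obtain ⟨h3, h4⟩ := inv_iso h2 _ (H := ⟨Γ, hΓ⟩) hH (hΦ.map _) hf'
    (ψ := InvSeries.map (algebraMap K (B ⧸ m)) ψ)
    (by rw [InvSeries.map_val, hψ, map_multSeries, Law.map_toFG]) (hs ψ hψ')
    (μ := fun ζ => InvSeries.map (algebraMap K (B ⧸ m)) (μ ζ))
    (fun ζ => by rw [InvSeries.c_map, hμ]; rfl) fun ζ => hs _ (hμ' ζ)
  refine ⟨desc_inj hΦ h3, fun t ht ht' => desc_range hΦ (h4 _ ?_ fun ζ => ?_)⟩
  · rw [← mapE_rho, ht]
  · rw [← mapE_rho, ht']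

variable {F : Type} [Field F] [CharP F p]

theorem isTy_FK (hF : Nat.card F = p ^ 2) : IsTy p 1 1 (FK p F) := by
  rw [isTy_one_iff one_ne_zero]
  refine ⟨fun i hi => ?_, ?_⟩
  · rw [Nat.lt_one_iff.1 hi, vv_zero, ← map_natCast (algebraMap F (KK F)), CharP.cast_eq_zero,
      map_zero]
  · obtain ⟨w, hw⟩ := VT.vv_FO hF
    rw [FK, vv_map, hw, isUnit_iff_ne_zero, map_ne_zero_iff _ (IsFractionRing.injective _ _)]
    exact mul_ne_zero w.ne_zero X_ne_zero

/-- Row HT1. -/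
theorem rowHT1 (h2 : p ≠ 2) {G G' : Type} [Group G] [ProG G] [MulSemiringAction G F⟦X⟧]
    [MulSemiringAction G (KK F)] [Group G'] [ProG G'] [MulSemiringAction G' (KK F)]
    (B : BG p F G G') : RowHT1 B := by
  have hF := isTy_FK B.card
  have hs : ∀ g : G, (B.emb g).φ = 1 →
      InvSeries.map (algebraMap F⟦X⟧ (KK F)) (B.emb g).γ • FK p F = FK p F := by
    intro g hg
    have h := (B.emb g).law
    rw [hg, Qt.LPair.coe_one, Law.map_id] at h
    rw [FK, ← InvSeries.map_smul, h]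
  obtain ⟨h3, h4⟩ := inv_field h2 ((algebraMap F⟦X⟧ (KK F)).comp
    ((C : F →+* F⟦X⟧).comp (ZMod.castHom (dvd_refl p) F))) hF
    (ψ := InvSeries.map (algebraMap F⟦X⟧ (KK F)) (B.emb B.ψ).γ)
    (by rw [InvSeries.map_val, B.ψ_γ, map_multSeries, FK, Law.map_toFG]) (hs _ B.ψ_φ)
    (μ := fun ζ => InvSeries.map (algebraMap F⟦X⟧ (KK F)) (B.emb (B.c ζ)).γ)
    (fun ζ => by rw [InvSeries.c_map, B.c_γ, InvSeries.c_zero_lin]; rfl) fun ζ => hs _ (B.c_φ ζ)
  refine ⟨hF, h3, fun t => ⟨?_, fun h => h4 t ?_ fun ζ => ?_⟩, rhoK_onto B⟩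
  · rintro ⟨x, rfl⟩
    refine ⟨?_, fun ζ => ?_⟩
    · rw [rhoK_eq]
      exact RingHom.congr_fun (rho_toO hF hF (hs _ B.ψ_φ)) x
    · rw [rhoK_eq]
      exact RingHom.congr_fun (rho_toO hF hF (hs _ (B.c_φ ζ))) x
  · rw [← rhoK_eq]
    exact h.1
  · rw [← rhoK_eq]
    exact h.2 ζ

end Vale.Agent.P221X.TC
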