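import Vale.Agent.P221X.TC.HTopC

/-!
# P221X, row TC-HTOP

`rowHTOP : RowHTOP S B`.
-/

open CategoryTheory MonoidalCategory Limits Pretriangulated PowerSeries

set_option linter.unusedSectionVars false

universe u

noncomputable section

namespace Vale.Agent.P221X.TC

namespace HT

open Vale.Agent.P251 Vale.Agent.P251.T Vale.Agent.P251.M Vale.Agent.P251.S Vale.Agent.P251.F
  Vale.Agent.P251.I Vale.Agent.P251.X Vale.Agent.P251.Z Vale.Agent.P217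
open Vale.Agent.P251.M.EvenSpheres ProG

variable {T : Type u} [Category.{0} T] [Preadditive T] [HasZeroObject T] [HasShift T ℤ]
  [∀ n : ℤ, (shiftFunctor T n).Additive] [Pretriangulated T] [IsTriangulated T]
  [MonoidalCategory T] [SymmetricCategory T] [TensorTriangulated T] [MonoidalClosed T]
  [HasCoproducts.{0} T] [HasProducts.{0} T] [StableCat T]
  {D : MUData T} {p : ℕ} [Fact p.Prime] {F : Type} [Field F]
  [CharP F p] {G G' : Type} [Group G] [ProG G] [MulSemiringAction G F⟦X⟧]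
  [MulSemiringAction G (KK F)] [ActK G F] [Group G'] [ProG G'] [MulSemiringAction G' F⟦X⟧]
  [MulSemiringAction G' (KK F)] [ActK G' F]
  {S : TS D p F} {B : BG p F G G'} {X : E2 S B}

theorem psi_K (B : BG p F G G') (z : KK F) : B.ψ • z = z := by
  have h : MulSemiringAction.toRingHom G (KK F) B.ψ = RingHom.id _ := by
    refine IsLocalization.ringHom_ext (nonZeroDivisors F⟦X⟧) (RingHom.ext fun f => ?_)
    change B.ψ • algebraMap F⟦X⟧ (KK F) f = algebraMap F⟦X⟧ (KK F) f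
    rw [ActK.alg, B.emb_O, B.ψ_φ]
    rfl
  exact RingHom.congr_fun h z

theorem p_K (z : KK F) : p • z = 0 := by
  rw [nsmul_eq_mul, ← map_natCast (algebraMap F (KK F)), CharP.cast_eq_zero, map_zero, zero_mul]

variable (Y : E1 X)

theorem pi_one (x : Sph T 1 ⟶ S.Le.L.obj Y.E) : x = 0 := by
  have h5 : (5 : ℤ) ≤ p := by exact_mod_cast S.h5
  exact Y.πV_van 1 (fun h => by have := Int.le_of_dvd one_pos h; omega) x

theorem pi_two (x : Sph T 2 ⟶ S.Le.L.obj Y.E) : x = 0 := by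
  have h5 : (5 : ℤ) ≤ p := by exact_mod_cast S.h5
  exact Y.πV_van 2 (fun h => by have := Int.le_of_dvd two_pos h; omega) x

/-- the sphere of degree zero -/
def c0 (T : Type u) [Category.{0} T] [Preadditive T] [HasZeroObject T] [HasShift T ℤ]
    [∀ n : ℤ, (shiftFunctor T n).Additive] [Pretriangulated T] [MonoidalCategory T]
    [SymmetricCategory T] [TensorTriangulated T] (p : ℕ) : Se T (((p : ℤ) - 1) * 0) ≅ 𝟙_ T :=
  (stdEven T).castIso _ 0 (mul_zero _) ≪≫ (stdEven T).zero.symm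

/-- the element of `K` on the bottom cell -/
def bot : (S.W.M ⟶ S.Le.L.obj Y.E) →+ KK F :=
  AddMonoidHom.mk' (fun h => Y.ke 0 ((c0 T p).hom ≫ S.W.iM ≫ h)) fun a b => by
    rw [Preadditive.comp_add, Preadditive.comp_add, map_add]

theorem bot_apply (h : S.W.M ⟶ S.Le.L.obj Y.E) :
    bot Y h = Y.ke 0 ((c0 T p).hom ≫ S.W.iM ≫ h) := rfl

theorem bot_bij : Function.Bijective (bot Y) := by
  constructor
  · rw [injective_iff_map_eq_zero]
    intro h hh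
    rw [bot_apply, map_eq_zero_iff _ (Y.ke 0).injective] at hh
    refine ext_M S.W (pi_one Y) h ?_
    rw [← cancel_epi (c0 T p).hom, hh, comp_zero]
  · intro z
    obtain ⟨h, hh⟩ := exists_M S.W (pLE Y) ((c0 T p).inv ≫ (Y.ke 0).symm z)
    exact ⟨h, by rw [bot_apply, hh, Iso.hom_inv_id_assoc, AddEquiv.apply_symm_apply]⟩

theorem comp_t (h : S.W.M ⟶ S.Le.L.obj Y.E) : h ≫ S.Le.L.map (tE Y) = 0 := by
  refine (injective_iff_map_eq_zero _).1 (bot_bij Y).1 _ ?_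
  have h1 := Y.ke_lam 0 ((c0 T p).hom ≫ S.W.iM ≫ h) (Meas.ofG F⟦X⟧ (KO F) (B.π B.ψ) - 1)
  have h2 : ∀ z, Meas.actK (Meas.ofG F⟦X⟧ (KO F) (B.π B.ψ) - 1) z = 0 := fun z => by
    rw [map_sub Meas.actK, map_one]
    change Meas.actK (Meas.ofG F⟦X⟧ (KO F) (B.π B.ψ)) z - z = 0
    rw [Meas.actK_ofG, B.π_K, psi_K, sub_self]
  rw [h2, Category.assoc, Category.assoc] at h1
  exact h1

theorem exists_equiv {W : T} {i : S.Le.L.obj Y.E ⟶ W} {d : W ⟶ (S.Le.L.obj Y.E)⟦(1 : ℤ)⟧}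
    (H : Triangle.mk (S.Le.L.map (tE Y)) i d ∈ distTriang T) :
    ∃ e : KK F ≃+ (S.W.M⟦(1 : ℤ)⟧ ⟶ W), ∀ z, ∃ h : S.W.M ⟶ S.Le.L.obj Y.E,
      e z ≫ d = h⟦(1 : ℤ)⟧' ∧ bot Y h = z := by
  let e1 := AddEquiv.ofBijective (bot Y) (bot_bij Y)
  let e2 : (S.W.M ⟶ S.Le.L.obj Y.E) ≃+ (S.W.M⟦(1 : ℤ)⟧ ⟶ (S.Le.L.obj Y.E)⟦(1 : ℤ)⟧) :=
    AddEquiv.ofBijective (shiftFunctor T (1 : ℤ)).mapAddHom
      ⟨(shiftFunctor T (1 : ℤ)).map_injective, (shiftFunctor T (1 : ℤ)).map_surjective⟩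
  have h3 : Function.Bijective (Preadditive.rightComp (S.W.M⟦(1 : ℤ)⟧) d) := by
    constructor
    · rw [injective_iff_map_eq_zero]
      intro g hg
      obtain ⟨y, rfl⟩ := exact₃ H g hg
      rw [zero_M S.W (pi_one Y) (pi_two Y) y, zero_comp]
    · intro y
      obtain ⟨h, rfl⟩ := (shiftFunctor T (1 : ℤ)).map_surjective y
      obtain ⟨g, hg⟩ := exact₁ H (h⟦(1 : ℤ)⟧') (by
        rw [← Functor.map_comp, comp_t, Functor.map_zero])
      exact ⟨g, hg.symm⟩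
  let e3 := AddEquiv.ofBijective _ h3
  exact ⟨e1.symm.trans (e2.trans e3.symm), fun z =>
    ⟨e1.symm z, e3.apply_symm_apply _, e1.apply_symm_apply z⟩⟩

variable (hL : LocF S) (κ : Kap X) (hF : IsTy p 1 1 (FK p F))

theorem chi_L (z : Laz) : κ.χK (L0 D z) = Laz.lift (genLaw (FK p F)) z := by
  rw [← κ.lawK, L0]
  have h : D.law.map κ.χK = Laz.univ.map (κ.χK.comp (Laz.lift D.law)) := by
    rw [← Law.map_map, Laz.univ_map_lift]
  rw [h, Laz.lift_map_univ]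
  rfl

theorem kp_map (h : S.W.M ⟶ S.Le.L.obj Y.E) (m : MP (stdEven T) D.R (S.W.M ⊗ S.LS)) :
    kp Y hL κ (MP.map _ D.R (h ▷ S.LS) m) = pt hF (κ.nn m) * OInv.inc _ (bot Y h) := by
  let φ : NN p 1 1 →+ OInv (KK F) := (kp Y hL κ).comp
    ((MP.map _ D.R (h ▷ S.LS)).toAddMonoidHom.comp κ.nn.symm.toAddMonoidHom)
  have h0 : ∀ m, φ (κ.nn m) = kp Y hL κ (MP.map _ D.R (h ▷ S.LS) m) := fun m =>
    congrArg (fun x => kp Y hL κ (MP.map _ D.R (h ▷ S.LS) x)) (κ.nn.symm_apply_apply m)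
  have h1 : φ 1 = OInv.inc _ (bot Y h) := by
    rw [← κ.nn_one, h0, bot_apply, ← kp_hur Y hL κ, hur, mp_map, Category.assoc, toL_nat,
      Category.assoc, Category.assoc, ← mp_map (c0 T p).hom]
    exact congrArg (fun x => kp Y hL κ (MP.map _ D.R _ x)) (mp_cast (mul_zero _)).symm
  rw [← h0, ← h1]
  refine eq_pt_mul hF φ (fun z n => ?_) _
  obtain ⟨m, rfl⟩ := κ.nn.surjective n
  rw [← κ.nn_smul, h0, h0, map_smul, kp_smul, chi_L]
  rfl

theorem kp_Lam {I : Type} (h : I → (S.W.M ⟶ S.Le.L.obj Y.E))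
    (m : I →₀ MP (stdEven T) D.R (S.W.M ⊗ S.LS)) :
    kp Y hL κ (MP.map _ D.R (Sigma.desc h ▷ S.LS) (Lam D.R I _ _ m)) =
      Psi hF (fun i => bot Y (h i)) (Finsupp.mapRange.addEquiv κ.nn m) := by
  induction m using Finsupp.induction_linear with
  | zero => simp only [map_zero]
  | add a b ha hb => simp only [map_add, ha, hb]
  | single i x =>
    rw [Lam_single, mp_map, ← comp_whiskerRight, Sigma.ι_desc, kp_map Y hL κ hF,
      Finsupp.mapRange.addEquiv_apply, Finsupp.mapRange_single, Psi_single]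

theorem isIso_wh {P N U V W Z Z' : T} {t : U ⟶ V} {i : V ⟶ W} {d : W ⟶ U⟦(1 : ℤ)⟧}
    (H : Triangle.mk t i d ∈ distTriang T) (f : Z' ⟶ W) (e : Z' ≅ Z⟦(1 : ℤ)⟧) (h : Z ⟶ U)
    (hf : f ≫ d = e.hom ≫ h⟦(1 : ℤ)⟧')
    (h1 : ∀ (k : ℤ) (x : Sph T k ⟶ P ⊗ (Z ⊗ N)), x ≫ P ◁ (h ▷ N) = 0 → x = 0)
    (h2 : ∀ (k : ℤ) (y : Sph T k ⟶ P ⊗ (U ⊗ N)), y ≫ P ◁ (t ▷ N) = 0 →
      ∃ x : Sph T k ⟶ P ⊗ (Z ⊗ N), x ≫ P ◁ (h ▷ N) = y)
    (h3 : ∀ (k : ℤ) (y : Sph T k ⟶ P ⊗ (V ⊗ N)), ∃ x : Sph T k ⟶ P ⊗ (U ⊗ N),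
      x ≫ P ◁ (t ▷ N) = y) : IsIso (P ◁ (f ▷ N)) := by
  let Φ : T ⥤ T := tensorRight N ⋙ tensorLeft P
  have H1 : Triangle.mk (Φ.map t) (Φ.map i) (Φ.map d ≫ (Φ.commShiftIso (1 : ℤ)).hom.app U) ∈
    distTriang T := Φ.map_distinguished _ H
  refine isIso_of_ses H1 (Φ.map f) (Φ.mapIso e ≪≫ (Φ.commShiftIso (1 : ℤ)).app Z) (Φ.map h) ?_
    h1 h2 h3
  rw [← Φ.map_comp_assoc, hf, Φ.map_comp, Category.assoc]
  exact (congrArg (Φ.map e.hom ≫ ·) (Φ.commShiftIso_hom_naturality h (1 : ℤ))).trans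
    (Category.assoc _ _ _).symm

include hL κ in
theorem main (hB : RowHT1 B) {W : T} {i : S.Le.L.obj Y.E ⟶ W}
    {d : W ⟶ (S.Le.L.obj Y.E)⟦(1 : ℤ)⟧}
    (H : Triangle.mk (S.Le.L.map (tE Y)) i d ∈ distTriang T) :
    ∃ (I : Type) (_ : Nonempty I) (g : I → (S.W.M⟦(1 : ℤ)⟧ ⟶ W)),
      KEq S.Ke (Sigma.desc g) ∧ ZB p g := by
  obtain ⟨hF, hinj, hr, hs⟩ := hB
  obtain ⟨e, he⟩ := exists_equiv Y H
  obtain ⟨I, k, hk, hl⟩ := exists_zb (p := p) (KK F) p_K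
  choose h hd hb using fun i => he (k i)
  have hb' : (fun i => bot Y (h i)) = k := funext hb
  refine ⟨I, hk.nonempty, fun i => e (k i), hL.keq_of _ ?_, hk.map e⟩
  let sg := (PreservesCoproduct.iso (shiftFunctor T (1 : ℤ)) fun _ : I => S.W.M).symm
  refine isIso_wh H _ sg (Sigma.desc h) ?_ (sph_inj _ (odd_coprod κ.oddM) fun x hx => ?_)
    (sph_exact _ _ (odd_LE Y hL κ) fun y hy => ?_)
    (fun n y => sph_exact _ (0 : _ ⟶ 𝟙_ T) (odd_LE Y hL κ) (fun y _ => t_surj Y hL κ hs y) n y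
      (by rw [MonoidalPreadditive.whiskerLeft_zero, comp_zero]))
  · refine Sigma.hom_ext _ _ fun i => ?_
    have h2 : Sigma.ι _ i ≫ sg.hom = (Sigma.ι (fun _ : I => S.W.M) i)⟦(1 : ℤ)⟧' :=
      ι_comp_sigmaComparison (shiftFunctor T (1 : ℤ)) (fun _ : I => S.W.M) i
    rw [Sigma.ι_desc_assoc, reassoc_of% h2, ← Functor.map_comp, Sigma.ι_desc]
    exact hd i
  · obtain ⟨m, rfl⟩ := mp_coprod I _ _ x
    have h2 := kp_Lam Y hL κ hF h m
    rw [hx, map_zero, hb'] at h2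
    have h4 : Function.Injective (Psi hF k) := hinj.comp (Ps0_inj hl)
    have h3 := h4 (h2.symm.trans (map_zero (Psi hF k)).symm)
    rw [(map_eq_zero_iff _ (Finsupp.mapRange.addEquiv κ.nn).injective).1 h3, map_zero]
  · have h2 := kp_t Y hL κ y
    rw [hy, map_zero] at h2
    obtain ⟨t, ht⟩ := (hr (kp Y hL κ y)).2 ⟨sub_eq_zero.1 h2.symm, fun ζ => kp_c Y hL κ ζ y⟩
    obtain ⟨n, rfl⟩ := Ps0_surj hk t
    obtain ⟨m, rfl⟩ := (Finsupp.mapRange.addEquiv (ι := I) κ.nn).surjective n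
    refine ⟨Lam D.R I _ _ m, kp_inj Y hL κ ?_⟩
    rw [kp_Lam Y hL κ hF, hb']
    exact ht

end HT

open HT Vale.Agent.P251 Vale.Agent.P251.T Vale.Agent.P251.M Vale.Agent.P251.S Vale.Agent.P251.F
  Vale.Agent.P251.I Vale.Agent.P251.X Vale.Agent.P251.Z Vale.Agent.P217
open Vale.Agent.P251.M.EvenSpheres ProG

variable {T : Type u} [Category.{0} T] [Preadditive T] [HasZeroObject T] [HasShift T ℤ]
  [∀ n : ℤ, (shiftFunctor T n).Additive] [Pretriangulated T] [IsTriangulated T]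
  [MonoidalCategory T] [SymmetricCategory T] [TensorTriangulated T] [MonoidalClosed T]
  [HasCoproducts.{0} T] [HasProducts.{0} T] [StableCat T]
  {D : MUData T} {p : ℕ} [Fact p.Prime] {F : Type} [Field F]
  [CharP F p] {G G' : Type} [Group G] [ProG G] [MulSemiringAction G F⟦X⟧]
  [MulSemiringAction G (KK F)] [ActK G F] [Group G'] [ProG G'] [MulSemiringAction G' F⟦X⟧]
  [MulSemiringAction G' (KK F)] [ActK G' F]

/-- **Row HTOP.** -/
theorem rowHTOP (S : TS D p F) (B : BG p F G G') : RowHTOP S B :=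
  fun hL hB _ Y κ _ _ _ H => main Y hL κ hB (S.Le.map_dist H)

end Vale.Agent.P221X.TC
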