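import Vale.Agent.P221X.TC.LamBij
import Vale.Agent.P221X.TC.Lam
import Vale.Agent.P221X.TC.LamN
import Vale.Agent.P221X.TC.ELoc
import Vale.Agent.P221X.TC.Tel

/-!
# P221X, block TOP-C: the structure `Kap`

* `oddZero_R` : `R ⊗ Y` has no odd homotopy if the module `Y` has none;
* `kap_of` : `Kap X` from the twisted linearity of the maps `X.lam g`;
* `PiD.ev_cross`, `PiD.act` : the twisted linearity for the representing object;
* `kap_ofRep : Nonempty (Kap (E2.ofRep P Q))`.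
-/

open CategoryTheory MonoidalCategory Limits Pretriangulated PowerSeries TensorProduct

set_option linter.unusedSectionVars false

universe u

noncomputable section

namespace Vale.Agent.P221X.TC

open Vale.Agent.P251 Vale.Agent.P251.T Vale.Agent.P251.M Vale.Agent.P251.S Vale.Agent.P251.F
  Vale.Agent.P251.I Vale.Agent.P251.X Vale.Agent.P251.Z Vale.Agent.P217
open Vale.Agent.P251.M.EvenSpheres VT

variable {T : Type u} [Category.{0} T] [Preadditive T] [HasZeroObject T] [HasShift T ℤ]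
  [∀ n : ℤ, (shiftFunctor T n).Additive] [Pretriangulated T] [IsTriangulated T]
  [MonoidalCategory T] [SymmetricCategory T] [TensorTriangulated T] [MonoidalClosed T]
  [HasCoproducts.{0} T] [HasProducts.{0} T] [StableCat T]
  {D : MUData T} {p : ℕ} [Fact p.Prime] {F : Type} [Field F] {S : TS D p F}

/-- `R ⊗ Y` has no odd homotopy if the module `Y` has none -/
theorem oddZero_R {Fc : SpaceFunctor T} {e : Fc.S.obj CCF ≅ (stdEven T).L} (H : MUUniv e D) {Y : T}
    (a : ModStr D.R Y) (ho : OddZero Y) : OddZero (D.R ⊗ Y) := by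
  have h1 : ∀ (j : ℤ) (y : Se T j ⟶ Y ⊗ (𝟙_ T)⟦(1 : ℤ)⟧), y = 0 := fun j y => by
    rw [← cancel_mono (TensorTriangulated.e Y).hom, zero_comp]
    exact oddZero_iff.1 ho j _
  have h2 : ∀ m : MP (stdEven T) D.R (Y ⊗ (𝟙_ T)⟦(1 : ℤ)⟧), m = 0 := fun m => by
    refine ind_right H (a.tensorRight _) (motive := fun m => m = 0) m rfl ?_ ?_
    · intro α j y
      rw [h1 j y, V.hur_zero, map_zero, map_zero]
    · rintro _ _ rfl rfl
      exact add_zero _
  refine oddZero_iff.2 fun j x => ?_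
  rw [← cancel_mono ((TensorTriangulated.e (D.R ⊗ Y)).inv ≫ (α_ _ _ _).hom), zero_comp]
  exact MP.of_injective j ((h2 _).trans (map_zero _).symm)

/-- twisted linearity passes to a localisation -/
theorem tw_loc {Fc : SpaceFunctor T} {e : Fc.S.obj CCF ≅ (stdEven T).L} (H : MUUniv e D)
    {O A : Type} [CommRing O] [CommRing A] (hO : LawExt D O) (hA : LawExt D A)
    {χ : HRing (stdEven T) D.R →+* O} {χ₀ : HRing (stdEven T) D.R →+* A} (φ : O →+* A)
    (hφ : φ.comp χ = χ₀) {Y Y' : T} {a : ModStr D.R Y} {a' : ModStr D.R Y'}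
    {l : ∀ j : ℤ, (Se T j ⟶ Y) →+ O} {l₀ : ∀ j : ℤ, (Se T j ⟶ Y') →+ A} (hl : Lin χ a l)
    (hl₀ : Lin χ₀ a' l₀) {t : Y ⟶ Y'} (ht : a.IsLinear a' t)
    (hll : ∀ j y, l₀ j (y ≫ t) = φ (l j y)) {f : Y ⟶ Y} {f' : Y' ⟶ Y'} (hf : t ≫ f' = f ≫ t)
    (σ : O →+* O) (hσ : ∀ b, φ (σ b) = φ b) (ga : InvSeries O)
    (h : ga • (D.law.map χ).map σ = D.law.map χ)
    (hact : ∀ v, V.evM hl (V.map χ f (act H hO σ ga h Y v)) = σ (V.evM hl v))
    (hγ : InvSeries.map φ ga • (D.law.map χ₀).map (RingHom.id A) = D.law.map χ₀)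
    (hs : ∀ m : MP (stdEven T) D.R Y', ∃ z m', IsUnit (χ₀ z) ∧ z • m = MP.map _ D.R t m')
    (x : V χ₀ Y') :
    V.evM hl₀ (V.map χ₀ f' (act H hA (RingHom.id A) _ hγ Y' x)) = V.evM hl₀ x := by
  have h3 : InvSeries.map φ ga • (D.law.map χ).map φ = D.law.map χ₀ := by
    rw [Law.map_id] at hγ
    rw [Law.map_map, hφ, hγ]
  have h4 : ∀ w : V χ Y, V.evM hl₀ (V.bc φ hφ _ (V.map χ t w)) = φ (V.evM hl w) := fun w =>
    V.evM_bc_map hl hl₀ φ hφ ht φ.toAddMonoidHom (fun b y => φ.map_mul b y) hll w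
  have h5 : ((V.evM hl₀).comp (V.map χ₀ f')).comp (act H hA (RingHom.id A) _ hγ Y') =
      V.evM hl₀ := by
    refine BC.hom_ext fun m => ?_
    obtain ⟨z, m', hu, hm⟩ := hs m
    refine hu.smul_left_cancel.1 ?_
    rw [← LinearMap.map_smul, ← LinearMap.map_smul, ← V.mk_smul, hm, ← V.bc_mk φ hφ,
      ← V.map_mk, h4, LinearMap.comp_apply, LinearMap.comp_apply,
      act_bc H hA hA φ hφ (RingHom.id A) _ hγ φ h3 (fun _ => rfl),
      ← bc_act H hO hA σ ga h φ hφ φ _ h3 (fun b => (hσ b).symm) rfl,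
      ← map_act, V.map_bc, V.map_map, hf, ← V.map_map, h4, hact, hσ]
  exact LinearMap.congr_fun h5 x

variable [CharP F p] {G G' : Type} [Group G] [ProG G] [MulSemiringAction G F⟦X⟧]
  [MulSemiringAction G (KK F)] [ActK G F] [Group G'] [ProG G'] [MulSemiringAction G' F⟦X⟧]
  [MulSemiringAction G' (KK F)] [ActK G' F] {B : BG p F G G'}

section pe

variable {Y : T} {a : ModStr D.R Y} (pe : ∀ j : ℤ, (Se T j ⟶ Y) ≃+ F⟦X⟧)
  (hpe : Lin S.χ a fun j => (pe j).toAddMonoidHom)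

/-- the functional on the even homotopy -/
def peH : He Y →+ F⟦X⟧ :=
  DirectSum.toAddMonoid (β := (stdEven T).Gr Y) fun j => (pe j).toAddMonoidHom

theorem peH_of (j : ℤ) (y : Se T j ⟶ Y) : peH pe (He.of Y j y) = pe j y :=
  DirectSum.toAddMonoid_of (β := (stdEven T).Gr Y) _ j y

include hpe

theorem peH_sm (z : HRing (stdEven T) D.R) (y : He Y) : peH pe (sm a z y) = S.χ z * peH pe y := by
  induction z using DirectSum.induction_on with
  | zero => rw [zero_sm, map_zero, map_zero, zero_mul]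
  | add z z' h h' => rw [add_sm, map_add, h, h', map_add, add_mul]
  | of i z =>
    induction y using He.ind with
    | zero => rw [sm_zero, map_zero, mul_zero]
    | add y y' h h' => rw [sm_add, map_add, h, h', map_add, mul_add]
    | of j y =>
      refine (congrArg (peH pe) (sm_of a (rfl : i + j = i + j) z y)).trans ?_
      rw [peH_of, peH_of]
      exact hpe rfl z y

theorem v1_inj : Function.Injective (sm a (vA D p 1)) := by
  intro x y h
  refine He.ext_cp fun j => (pe j).injective ?_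
  have h1 := congrArg (fun w => pe _ (He.cp Y (((p : ℤ) ^ 1 - 1) + j) w)) h
  simp only [vA] at h1
  rw [cp_sm a rfl, cp_sm a rfl] at h1
  have h2 := (hpe rfl (D.vel p 1) (He.cp Y j x)).symm.trans
    (h1.trans (hpe rfl (D.vel p 1) (He.cp Y j y)))
  rw [S.chi_v1] at h2
  exact mul_left_cancel₀ X_ne_zero h2

end pe

theorem E2.lin (X : E2 S B) : Lin S.χ X.mod fun j => (X.pe j).toAddMonoidHom :=
  fun _ _ _ h z y => X.pe_mod h z y

theorem toL_nat2 {Y Y' : T} (f : Y ⟶ Y') : S.toL Y ≫ f ▷ S.LS = f ≫ S.toL Y' := by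
  rw [TS.toL, TS.toL, Category.assoc, whisker_exchange, rightUnitor_inv_naturality_assoc]

/-- **`Kap X` from the twisted linearity.** -/
theorem kap_of (c : Cx S) (X : E2 S B)
    (hact : ∀ (g : G) (v : V S.χ X.E), V.evM X.lin
      (V.map S.χ (X.lam (Meas.ofG (PowerSeries F) (KO F) g) : X.E ⟶ X.E)
        (act c.H c.lawExt _ _ ((B.coc S).smul g) X.E v)) = g • V.evM X.lin v) :
    Nonempty (Kap X) := by
  obtain ⟨w₀, hv⟩ := c.chi_v1
  have hi := v1_inj X.pe X.lin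
  obtain ⟨Λ⟩ := exists_lamN c.hL hv X.mod X.pE X.odd hi (peH X.pe) (peH_sm X.pe X.lin)
  let al := algebraMap (PowerSeries F) (KK F)
  let lK : ∀ j : ℤ, (Se T j ⟶ X.E ⊗ S.LS) →+ KK F := fun j => Λ.lL.comp (He.of _ j)
  have hlK : Lin (al.comp S.χ) (X.mod.tensorRight S.LS) lK := fun i j k h z y => by
    change Λ.lL (He.of _ k _) = _
    rw [← sm_of, Λ.lL_sm]
    rfl
  have hK : ∀ j, Function.Bijective (lK j) := Λ.lL_bij c.hL hv X.pE fun j => by
    simp only [peH_of]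
    exact (X.pe j).bijective
  have hpK : (p : KK F) = 0 := by rw [← map_natCast al, c.p0, map_zero]
  obtain ⟨χK, hχK⟩ := exists_chiT c.hD hpK (D.law.map (al.comp S.χ))
  have hA : LawExt D (OInv (KK F)) := lawExt_of c.hD (p_OInv hpK)
  have hl₀ := hlK.comp (OInv.inc (KK F)) (OInv.inc (KK F)).toAddMonoidHom
    fun b y => (OInv.inc (KK F)).map_mul b y
  have hκ := kap_bijective c.H hA (inv_smul_gen hχK) hl₀ lK hK (OInv.inc (KK F)).toAddMonoidHom
    (fun _ _ => rfl) (hb_self (KK F))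
  have hlt : ∀ (j : ℤ) (x : Se T j ⟶ X.E), lK j (x ≫ S.toL X.E) = al (X.pe j x) := fun j x => by
    change Λ.lL (He.of _ j _) = _
    rw [← He.map_of, Λ.lL_toL, peH_of]
  refine ⟨⟨χK, ?_, AddEquiv.ofBijective _ hκ, kap_smul c.H hA _ _ hl₀, fun g hg x => ?_,
    fun j x => ?_, oddZero_R c.H (X.mod.tensorRight S.LS) (c.hL.oddL X.mod X.pE X.odd), c.nn,
    c.nn_smul, c.nn_one, c.oddM⟩⟩
  · rw [hχK, ← Law.map_map, S.law]
    rfl
  · let φ : PowerSeries F →+* OInv (KK F) := (OInv.inc (KK F)).comp al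
    have hφ : φ.comp S.χ = (OInv.inc (KK F)).comp (al.comp S.χ) := rfl
    have hg1 : ∀ b : PowerSeries F, g • b = b := fun b => by rw [B.emb_O, hg]; rfl
    have hg2 : (B.emb g).γ • D.law.map S.χ = D.law.map S.χ := by
      have h := (B.emb g).law
      rw [hg, Qt.LPair.coe_one, Law.map_id] at h
      rw [S.law, h]
    have h3 : InvSeries.map φ (B.emb g).γ • (D.law.map S.χ).map φ =
        D.law.map ((OInv.inc (KK F)).comp (al.comp S.χ)) := by
      rw [← InvSeries.map_smul, hg2, Law.map_map, hφ]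
    have hγ : InvSeries.map φ (B.emb g).γ •
        (D.law.map ((OInv.inc (KK F)).comp (al.comp S.χ))).map (RingHom.id _) =
        D.law.map ((OInv.inc (KK F)).comp (al.comp S.χ)) := by
      rw [Law.map_id, ← hφ, ← Law.map_map, h3, Law.map_map, hφ]
    have hρ : (rhoK (B.emb g).γ).comp (OInv.inc (KK F)) = OInv.inc (KK F) :=
      OInv.lift_comp_inc _ _
    refine kap_tw c.H hA _ (inv_smul_gen hχK) hl₀ (InvSeries.map φ (B.emb g).γ) hγ _ ?_
      (rhoK (B.emb g).γ) (rhoK (B.emb g).γ).toAddMonoidHom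
      (fun t y => (rhoK (B.emb g).γ).map_mul t y) (by rw [← RingHom.comp_assoc, hρ])
      (fun j y => (DFunLike.congr_fun hρ _).symm)
      (by rw [map_inv, rhoK, OInv.map_lift_f, mul_inv_rev, mul_inv_cancel_left]) x
    refine tw_loc c.H c.lawExt hA φ hφ X.lin hl₀ (S.toL_lin X.mod)
      (fun j y => congrArg (OInv.inc (KK F)) (hlt j y)) (toL_nat2 _)
      (MulSemiringAction.toRingHom G (PowerSeries F) g) (fun b => congrArg φ (hg1 b)) _
      ((B.coc S).smul g) (hact g) hγ fun m => ?_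
    obtain ⟨n, m', hm⟩ := (EL.loc_MP S c.hL X.E X.pE).2.1 m
    refine ⟨_, m', ?_, hm⟩
    rw [map_pow]
    exact ((IsUnit.mk0 _ (alg_ne hv)).map (OInv.inc (KK F))).pow n
  · refine (kap_hur c.H hA _ (inv_smul_gen hχK) hl₀ j _).trans ?_
    rw [InvSeries.lead_inv, inv_zpow', smul_eq_mul]
    exact congrArg (_ * OInv.inc (KK F) ·) (hlt j x)

/-! ### The representing object -/

namespace PiD

variable {r : Rep S} {c : Cx S} (P : PiD r c B)

theorem lin : Lin S.χ r.mod fun j => (P.pe j).toAddMonoidHom := fun _ _ _ h z y => P.pe_mod h z y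

theorem ev_hur (j : ℤ) (y : Se T j ⟶ r.E) (x : V S.χ S.N) :
    r.ev (V.cross S.χ _ _ (V.hur S.χ j y) x) = r.cl _ y (V.cross S.χ _ _ (V.gen S.χ j) x) := by
  rw [V.hur_eq, cross_map_left, Rep.cl_apply]

theorem ev_per {i j k : ℤ} (h : i + j = k) (y : Se T i ⟶ r.E) (x : V S.χ S.N) :
    r.ev (V.cross S.χ _ _ (V.hur S.χ k ((stdEven T).ext h y (𝟙 (Se T j)) ≫ (r.per j).hom)) x) =
      r.ev (V.cross S.χ _ _ (V.hur S.χ i y) x) := by
  rw [ev_hur, ev_hur, ← r.cl_perH j y, EvenSpheres.ext, Category.assoc, Rep.cl_comp_apply,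
    tensorHom_id, Rep.per_hom, perN_apply, shN_hom, ← V.map_map, ← V.cross_assoc, V.map_map S.χ
      (α_ _ _ _).hom, Iso.hom_inv_id, V.map_id, LinearMap.id_apply, ← cross_map_left,
    ← cross_map_left, V.cross_comm, ← V.map_mu_gen h, V.map_map, Iso.hom_inv_id, V.map_id,
    LinearMap.id_apply]

theorem pe_o (y : Se T (((p : ℤ) - 1) * 0) ⟶ r.E) (f : F⟦X⟧) :
    P.pe _ (y ≫ r.lam c B (Meas.ofO G (KO F) f)) = f * P.pe _ y := by
  have h := P.pe_lam 0 y (Meas.ofO G (KO F) f)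
  rw [Meas.actK_ofO, neg_zero, KK.uz_zero, _root_.one_mul, _root_.one_mul, ← map_mul] at h
  exact alg_inj h

/-- the class with `pe = 1` -/
def y0 : Se T (((p : ℤ) - 1) * 0) ⟶ r.E := (P.pe _).symm 1

theorem pe_y0 : P.pe _ P.y0 = 1 := AddEquiv.apply_symm_apply _ _

/-- the functional on `V χ N` -/
def k0 : V S.χ S.N →ₗ[F⟦X⟧] KO F := r.ev.comp (V.cross S.χ _ _ (V.hur S.χ _ P.y0))

theorem ev_y0 (f : F⟦X⟧) (x : V S.χ S.N) :
    r.ev (V.cross S.χ _ _ (V.hur S.χ _ (P.y0 ≫ r.lam c B (Meas.ofO G (KO F) f))) x) =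
      f • P.k0 x := by
  rw [ev_hur, Rep.cl_lam_o, LinearMap.smul_apply, ← ev_hur]
  rfl

theorem ev_cross_hur (j : ℤ) (y : Se T j ⟶ r.E) (x : V S.χ S.N) :
    r.ev (V.cross S.χ _ _ (V.hur S.χ j y) x) = P.pe j y • P.k0 x := by
  have h : ((p : ℤ) - 1) * 0 + j = j := by ring
  have h1 : y = (stdEven T).ext h (P.y0 ≫ r.lam c B (Meas.ofO G (KO F) (P.pe j y)))
      (𝟙 (Se T j)) ≫ (r.per j).hom := (P.pe j).injective (by
    rw [P.pe_per, P.pe_o, P.pe_y0, _root_.mul_one])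
  conv_lhs => rw [h1]
  rw [ev_per, P.ev_y0]

/-- `ev (v × x) = pe v • k0 x` -/
theorem ev_cross (v : V S.χ r.E) (x : V S.χ S.N) :
    r.ev (V.cross S.χ _ _ v x) = V.evM P.lin v • P.k0 x := by
  induction v using V.ind with
  | zero => simp only [map_zero, LinearMap.zero_apply, zero_smul]
  | add v v' h h' => simp only [map_add, LinearMap.add_apply, h, h', add_smul]
  | smul b j y =>
    rw [map_smul, LinearMap.smul_apply, map_smul, map_smul, smul_assoc, V.evM_of, ← V.mul_hur,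
      ← V.mul_cross_right, ← mulN_apply, ← r.ev_act, ← cross_map_left, V.map_hur,
      P.ev_cross_hur]
    rfl

theorem k0_faithful {f : F⟦X⟧} (h : ∀ x, f • P.k0 x = 0) : f = 0 := by
  have h1 : P.y0 ≫ r.lam c B (Meas.ofO G (KO F) f) = 0 := r.hom_ext fun z => by
    obtain ⟨x, rfl⟩ := (V.per S.χ _ S.N).surjective z
    rw [map_zero, LinearMap.zero_apply, V.per_apply, ← ev_hur, P.ev_y0, h]
  have h2 := P.pe_o P.y0 f
  rw [h1, map_zero, P.pe_y0, _root_.mul_one] at h2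
  exact h2.symm

/-- `evM` on the module with the action of `G` -/
def LG : VX c B r.E →ₗ[F⟦X⟧] F⟦X⟧ := V.evM P.lin

/-- `k0` on the module with the action of `G` -/
def kG : VX c B S.N →ₗ[F⟦X⟧] KO F := P.k0

theorem ev_crossG (v : VX c B r.E) (x : VX c B S.N) :
    r.evG c B (VX.cross c B _ _ v x) = P.LG v • P.kG x := P.ev_cross v x

theorem act_aux (g : G) (v : VX c B r.E) (x : VX c B S.N) :
    P.LG (VX.map c B (r.lam c B (Meas.ofG F⟦X⟧ (KO F) g) : r.E ⟶ r.E) (g • v)) • P.kG x =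
      (g • P.LG v) • g • P.kG (g⁻¹ • x) := by
  have h := r.clG_lam_g c B (𝟙 r.E) g (g • VX.cross c B _ _ v (g⁻¹ • x))
  rw [inv_smul_smul, Rep.clG_id, Category.id_comp, VX.g_cross, smul_inv_smul] at h
  rw [← smul_distrib_smul, ← P.ev_crossG, ← P.ev_crossG]
  exact (congrArg r.ev (cross_map_left _ _ _)).trans h

theorem kG_g (g : G) (x : VX c B S.N) : g • P.kG (g⁻¹ • x) = P.kG x := by
  have h := P.act_aux g (VX.eqv c B _ (V.hur S.χ _ P.y0)) x
  have h1 : P.LG (VX.map c B (r.lam c B (Meas.ofG F⟦X⟧ (KO F) g) : r.E ⟶ r.E)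
      (g • VX.eqv c B _ (V.hur S.χ _ P.y0))) = 1 := by
    change V.evM P.lin (V.map S.χ _ (act c.H c.lawExt _ _ ((B.coc S).smul g) _
      (V.hur S.χ _ P.y0))) = 1
    rw [act_hur, map_smul, map_smul, V.map_hur, V.evM_hur]
    change ((B.a g ^ _ : F⟦X⟧ˣ) : F⟦X⟧) * P.pe _ _ = 1
    rw [P.pe_g, P.pe_y0, smul_one, _root_.mul_one, ← Units.val_mul, ← zpow_add, add_neg_cancel,
      zpow_zero, Units.val_one]
  have h2 : P.LG (VX.eqv c B _ (V.hur S.χ _ P.y0)) = 1 := (V.evM_hur P.lin _ _).trans P.pe_y0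
  rw [h1, h2, one_smul, smul_one, one_smul] at h
  exact h.symm

/-- **The twisted linearity.** -/
theorem act (g : G) (v : VX c B r.E) :
    P.LG (VX.map c B (r.lam c B (Meas.ofG F⟦X⟧ (KO F) g) : r.E ⟶ r.E) (g • v)) = g • P.LG v :=
  sub_eq_zero.1 (P.k0_faithful fun (x : VX c B S.N) => by
    have h := P.act_aux g v x
    rw [P.kG_g] at h
    rw [sub_smul]
    exact sub_eq_zero.2 h)

end PiD

/-- **Row KAP.** -/
theorem kap_ofRep {r : Rep S} {c : Cx S} (P : PiD r c B) (Q : RestD r c B) :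
    Nonempty (Kap (E2.ofRep P Q)) :=
  kap_of c _ fun g v => P.act g v

end Vale.Agent.P221X.TC
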