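import Vale.Agent.P221X.Meas.KO
import Mathlib.Algebra.Module.LocalizedModule.Away

/-!
# P221X, block TOP-C: functionals with values in `K / O` lift to `K`

* `awayK` : `K` is the localisation of `O` away from `u`;
* `liftK h φ` : for a module `L` on which `u` is bijective, the lift `L ⟶ K` of `φ : L ⟶ K / O`;
  `mk_liftK`, `liftK_ext`.
-/

noncomputable section

namespace Vale.Agent.P221X.TC

open PowerSeries KK

variable {F : Type} [Field F] {L : Type} [AddCommGroup L] [Module F⟦X⟧ L]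

theorem alg_injective : Function.Injective (algebraMap F⟦X⟧ (KK F)) :=
  IsFractionRing.injective _ _

instance awayK : IsLocalizedModule.Away (X : F⟦X⟧) (Algebra.linearMap F⟦X⟧ (KK F)) := by
  refine IsLocalizedModule.Away.mk_of_addCommGroup ?_ (fun z => ?_) fun x hx => ⟨0, ?_⟩
  · refine (Module.End.isUnit_iff _).2 (Function.bijective_iff_has_inverse.2
      ⟨fun z => uz (-1) * z, fun z => ?_, fun z => ?_⟩)
    · change uz (-1) * ((X : F⟦X⟧) • z) = z
      rw [Algebra.smul_def, algebraMap_X, ← mul_assoc, ← uz_add, neg_add_cancel, uz_zero, one_mul]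
    · change (X : F⟦X⟧) • (uz (-1) * z) = z
      rw [Algebra.smul_def, algebraMap_X, ← mul_assoc, ← uz_add, add_neg_cancel, uz_zero, one_mul]
  · obtain ⟨m, hm⟩ := exists_ge z
    obtain ⟨f, rfl⟩ := DEP.exists_ps (ge_mono (show -(m.natAbs : ℤ) ≤ m by omega) hm)
    refine ⟨m.natAbs, f, ?_⟩
    rw [Algebra.smul_def, KO.alg_X_pow, ← mul_assoc, ← uz_add, add_neg_cancel, uz_zero, one_mul]
    rfl
  · rw [alg_injective (hx.trans (map_zero _).symm), smul_zero]

/-- a semilinear map to `K` with values in `O` vanishes on a divisible module -/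
theorem eq_zero_of_mk (h : Function.Surjective fun x : L => (X : F⟦X⟧) • x) (ψ : L → KK F)
    (hψ : ∀ x, ∃ w : F⟦X⟧, ψ ((X : F⟦X⟧) • x) = (X * w : F⟦X⟧) • ψ x)
    (h0 : ∀ x, KO.mk (ψ x) = 0) (x : L) : ψ x = 0 := by
  have h1 : ∀ (n : ℕ) (x : L), ψ x ∈ ge (n : ℤ) := by
    intro n
    induction n with
    | zero => exact fun x => KO.mk_eq_zero.1 (h0 x)
    | succ n ih =>
      intro x
      obtain ⟨y, rfl⟩ := h x
      obtain ⟨w, hw⟩ := hψ y
      change ψ ((X : F⟦X⟧) • y) ∈ ge ((n : ℤ) + 1)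
      rw [hw, Algebra.smul_def, map_mul, algebraMap_X, mul_assoc, mul_comm _ (ψ y)]
      exact KO.uz_mul_mem.2 (DEP.mul_ge (ih y) (algebraMap_mem_ge w))
  exact eq_zero_of_ge fun n => ge_mono (Int.self_le_toNat n) (h1 n.toNat x)

theorem liftK_ext (h : Function.Surjective fun x : L => (X : F⟦X⟧) • x)
    {ψ ψ' : L →ₗ[F⟦X⟧] KK F} (h0 : ∀ x, KO.mk (ψ x) = KO.mk (ψ' x)) : ψ = ψ' :=
  LinearMap.ext fun x => sub_eq_zero.1 (eq_zero_of_mk h (fun y => ψ y - ψ' y)
    (fun y => ⟨1, by rw [map_smul, map_smul, mul_one, smul_sub]⟩)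
    (fun y => by rw [map_sub, h0, sub_self]) x)

variable (h : Function.Bijective fun x : L => (X : F⟦X⟧) • x)

include h in
theorem unit_of_bij (s : Submonoid.powers (X : F⟦X⟧)) :
    IsUnit (algebraMap F⟦X⟧ (Module.End F⟦X⟧ L) s) := by
  obtain ⟨_, n, rfl⟩ := s
  have h1 : IsUnit (algebraMap F⟦X⟧ (Module.End F⟦X⟧ L) X) := (Module.End.isUnit_iff _).2 h
  simpa using h1.pow n

/-- the map `K ⟶ L` with `1 ↦ x` -/
def kx (x : L) : KK F →ₗ[F⟦X⟧] L :=
  IsLocalizedModule.lift (Submonoid.powers (X : F⟦X⟧)) (Algebra.linearMap F⟦X⟧ (KK F))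
    (LinearMap.toSpanSingleton F⟦X⟧ L x) (unit_of_bij h)

theorem kx_alg (x : L) (f : F⟦X⟧) : kx h x (algebraMap F⟦X⟧ (KK F) f) = f • x :=
  IsLocalizedModule.lift_apply _ _ _ _ f

include h in
theorem kx_ext {a b : KK F →ₗ[F⟦X⟧] L} (hab : a 1 = b 1) : a = b :=
  IsLocalizedModule.ext (Submonoid.powers (X : F⟦X⟧)) (Algebra.linearMap F⟦X⟧ (KK F))
    (unit_of_bij h) (LinearMap.ext_ring (by simpa using hab))

theorem kx_one (x : L) : kx h x 1 = x := by
  rw [← map_one (algebraMap F⟦X⟧ (KK F)), kx_alg, one_smul]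

theorem exists_dual (φ : L →ₗ[F⟦X⟧] KO F) (x : L) :
    ∃ w, ∀ y, KO.mk (y * w) = φ (kx h x y) := by
  obtain ⟨n, hn⟩ := KO.exists_tors (φ x)
  refine KO.dual (φ.comp (kx h x)) (a := n) ?_
  rw [LinearMap.comp_apply, ← KO.alg_X_pow, kx_alg, map_smul, hn]

/-- **The lift of a functional.** -/
def liftK (φ : L →ₗ[F⟦X⟧] KO F) : L →ₗ[F⟦X⟧] KK F where
  toFun x := (exists_dual h φ x).choose
  map_add' x x' := KO.eq_of_mk fun y => by
    have e : kx h (x + x') = kx h x + kx h x' :=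
      kx_ext h (by rw [LinearMap.add_apply, kx_one, kx_one, kx_one])
    rw [mul_add, map_add, (exists_dual h φ _).choose_spec, (exists_dual h φ _).choose_spec,
      (exists_dual h φ _).choose_spec, e, LinearMap.add_apply, map_add]
  map_smul' f x := KO.eq_of_mk fun y => by
    have e : kx h (f • x) = f • kx h x :=
      kx_ext h (by rw [LinearMap.smul_apply, kx_one, kx_one])
    rw [RingHom.id_apply, mul_smul_comm, map_smul, (exists_dual h φ _).choose_spec,
      (exists_dual h φ _).choose_spec, e, LinearMap.smul_apply, map_smul]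

theorem mk_liftK (φ : L →ₗ[F⟦X⟧] KO F) (x : L) : KO.mk (liftK h φ x) = φ x := by
  have h1 := (exists_dual h φ x).choose_spec 1
  rwa [one_mul, kx_one] at h1

end Vale.Agent.P221X.TC
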