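import Vale.Agent.P221X.TC.VL
import Vale.Agent.P221X.TC.LiftK

/-!
# P221X, block TOP-C: the values `V M = O`, `V (LS ⊗ M) = K`, `V N = K / O`

* `oddRM`, `oddRV1`, `oddRN`, `oddRLM`, `VN_odd` : vanishing in odd degrees;
* `Cx.lM : O ≃ V M`, `Cx.kK : V (LS ⊗ M) ≃ K`, `Cx.kap : V N ≃ K / O`;
* `kK_g`, `kap_g` : equivariance.
-/

open CategoryTheory MonoidalCategory Limits Pretriangulated PowerSeries

set_option linter.unusedSectionVars false

universe u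

noncomputable section

namespace Vale.Agent.P221X.TC

open Vale.Agent.P251 Vale.Agent.P251.T Vale.Agent.P251.M Vale.Agent.P251.S Vale.Agent.P251.F
  Vale.Agent.P251.I Vale.Agent.P251.X Vale.Agent.P221X.VT
open Vale.Agent.P251.M.EvenSpheres ProG Vn
open Vale.Agent.P257.H314 (sI)

variable {T : Type u} [Category.{0} T] [Preadditive T] [HasZeroObject T] [HasShift T ℤ]
  [∀ n : ℤ, (shiftFunctor T n).Additive] [Pretriangulated T] [IsTriangulated T]
  [MonoidalCategory T] [SymmetricCategory T] [TensorTriangulated T] [MonoidalClosed T]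
  [HasCoproducts.{0} T] [HasProducts.{0} T] [StableCat T]
  {D : MUData T} {p : ℕ} [Fact p.Prime] {F : Type} [Field F]

/-! ### Odd degrees -/

theorem odd_of_cyc {h : ℕ} {Z : T} {i : 𝟙_ T ⟶ Z} (H : P257.H314.Cyc D p h i) :
    OddZero (D.R ⊗ Z) := by
  rintro _ ⟨k, rfl⟩ x
  have h1 := H.odd 0 k (x ≫ (λ_ D.R).inv ▷ Z)
  rwa [Preadditive.IsIso.comp_right_eq_zero] at h1

theorem surj_of_cyc {h : ℕ} {Z : T} {i : 𝟙_ T ⟶ Z} (H : P257.H314.Cyc D p h i) :
    Function.Surjective (MP.map (stdEven T) D.R i) := fun z => by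
  induction z using MP.ind with
  | zero => exact ⟨0, map_zero _⟩
  | add z z' hz hz' =>
    obtain ⟨y, rfl⟩ := hz
    obtain ⟨y', rfl⟩ := hz'
    exact ⟨y + y', map_add _ _ _⟩
  | of j z =>
    obtain ⟨a, ha⟩ := H.surj 0 j (z ≫ (λ_ D.R).inv ▷ Z)
    refine ⟨MP.of _ D.R _ j (D.evw 0 j a ≫ (λ_ D.R).hom ≫ (ρ_ D.R).inv), ?_⟩
    rw [MP.map_of]
    congr 1
    have h1 : z = (z ≫ (λ_ D.R).inv ▷ Z) ≫ (λ_ D.R).hom ▷ Z := by
      rw [Category.assoc, ← comp_whiskerRight, Iso.inv_hom_id, id_whiskerRight, Category.comp_id]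
    rw [h1, ha]
    change _ = (D.evw 0 j a ≫ (ρ_ (𝟙_ T ⊗ D.R)).inv ≫ (𝟙_ T ⊗ D.R) ◁ i) ≫ (λ_ D.R).hom ▷ Z
    simp only [Category.assoc]
    rw [whisker_exchange, rightUnitor_inv_naturality_assoc]

variable {S : TS D p F}

theorem oddRM (S : TS D p F) : OddZero (D.R ⊗ S.W.M) := odd_of_cyc S.W.st1.cyc

theorem oddRV1 (S : TS D p F) : OddZero (D.R ⊗ S.W.V1) := odd_of_cyc S.W.st2.cyc

theorem v1_inj_M (S : TS D p F) :
    Function.Injective fun m : MP (stdEven T) D.R S.W.M => vv p 1 D.law • m := by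
  have h2 := (mp_inj S.W.dist1 (oddRV1 S)).comp (mp_gen_inj (K := D.R) (X := S.W.M) _)
  convert h2 using 1
  funext m
  rw [D.vel_spec]
  exact (MP_map_hur S.W.hur1' m).symm

/-- `LS ⊗ M` -/
abbrev TS.LM (S : TS D p F) : T := S.LS ⊗ S.W.M

theorem oddRLM (hL : LocF S) : OddZero (D.R ⊗ S.LM) :=
  (oddL hL (p_M S.W) (oddRM S)).retract (D.R ◁ (β_ _ _).hom) (D.R ◁ (β_ _ _).inv) (by simp)

theorem oddRN (hL : LocF S) : OddZero (D.R ⊗ S.N) :=
  (oddN' hL (p_M S.W) (oddRM S) (v1_inj_M S)).retract (D.R ◁ (β_ _ _).hom) (D.R ◁ (β_ _ _).inv)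
    (by simp)

theorem odd_shift' {Y : T} (h : OddZero Y) {n : ℤ} (hn : Odd n) (j : ℤ) (x : Se T j ⟶ Y⟦n⟧) :
    x = 0 := by
  let a := (shiftFunctorAdd' T (2 * j - n) n (2 * j) (by ring)).app (𝟙_ T)
  obtain ⟨y, hy⟩ := (shiftFunctor T n).map_surjective (a.inv ≫ (sI T j).inv ≫ x)
  rw [h _ ((even_two_mul j).sub_odd hn) y, Functor.map_zero, eq_comm,
    Preadditive.IsIso.comp_left_eq_zero, Preadditive.IsIso.comp_left_eq_zero] at hy
  exact hy

theorem V_shift_zero {B : Type} [CommRing B] {χ : HRing (stdEven T) D.R →+* B} {Z : T}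
    (h : OddZero (D.R ⊗ Z)) {n : ℤ} (hn : Odd n) (x : V χ (Z⟦n⟧)) : x = 0 := by
  induction x using V.ind with
  | zero => rfl
  | add x y hx hy => rw [hx, hy, add_zero]
  | smul b j x =>
    have h1 := odd_shift' h hn j (x ≫ ((tensorLeft D.R).commShiftIso n).hom.app Z)
    rw [Preadditive.IsIso.comp_right_eq_zero] at h1
    rw [h1, V.of, map_zero, map_zero, smul_zero]

theorem V_odd {B : Type} [CommRing B] {χ : HRing (stdEven T) D.R →+* B} {W Z : T}
    (h : OddZero (D.R ⊗ (W ⊗ Z))) {n : ℤ} (hn : Odd n) (x : V χ (W⟦n⟧ ⊗ Z)) : x = 0 :=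
  (V.map_bijective χ (((tensorRight Z).commShiftIso n).hom.app W)).1
    ((V_shift_zero h hn _).trans (map_zero _).symm)

theorem VN_odd (hL : LocF S) {n : ℤ} (hn : Odd n) (x : V S.χ (Sph T n ⊗ S.N)) : x = 0 :=
  V_odd ((oddRN hL).retract (D.R ◁ (λ_ _).hom) (D.R ◁ (λ_ _).inv) (by simp)) hn x

/-! ### The values -/

theorem smul_one_bijective {B : Type} [CommRing B] (χ : HRing (stdEven T) D.R →+* B) :
    Function.Bijective (LinearMap.toSpanSingleton B _ (V.one χ)) := by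
  constructor
  · refine Function.LeftInverse.injective (g := fun x => V.eps χ (V.map χ MonObj.one x)) fun b => ?_
    change V.eps χ (V.map χ MonObj.one (b • V.one χ)) = b
    rw [map_smul, map_smul, ← V.mkG_one, V.eps_mkG, map_one, map_one, smul_eq_mul, mul_one]
  · intro x
    induction x using BC.ind with
    | zero => exact ⟨0, map_zero _⟩
    | add x y hx hy =>
      obtain ⟨a, rfl⟩ := hx
      obtain ⟨b, rfl⟩ := hy
      exact ⟨a + b, map_add _ _ _⟩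
    | smul b m =>
      obtain ⟨z, rfl⟩ := MP.exists_smul_one m
      exact ⟨b * χ z, by rw [BC.mk_smul, smul_smul]; rfl⟩

/-- `M ⟶ LS ⊗ M` -/
def TS.uM (S : TS D p F) : S.W.M ⟶ S.LM := S.toL S.W.M ≫ (β_ _ _).hom

/-- the unit class of `LS ⊗ M` -/
def TS.oneLM (S : TS D p F) : V S.χ S.LM := V.map S.χ (S.W.iM ≫ S.uM) (V.one S.χ)

theorem iM_uM (S : TS D p F) : S.W.iM ≫ S.uM = S.Le.u (𝟙_ T) ≫ S.toM S.LS := by
  rw [TS.uM, TS.toL, TS.toM, Category.assoc, BraidedCategory.braiding_naturality_right,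
    rightUnitor_inv_naturality_assoc, rightUnitor_inv_naturality_assoc, ← whisker_exchange,
    BraidedCategory.braiding_naturality_left_assoc]
  simp
  rw [unitors_equal, Iso.inv_hom_id_assoc]

theorem braid_iN (S : TS D p F) :
    (β_ S.W.M S.LS).hom ≫ S.iN ▷ S.W.M = S.W.M ◁ S.iN ≫ (β_ _ _).hom :=
  (BraidedCategory.braiding_naturality_right _ _).symm

theorem uM_iN (S : TS D p F) : S.uM ≫ S.iN ▷ S.W.M = 0 := by
  rw [TS.uM, Category.assoc, braid_iN, ← Category.assoc, toL_iN0, zero_comp]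

theorem prN_surj (S : TS D p F) : Function.Surjective (V.map S.χ (S.iN ▷ S.W.M)) := fun y => by
  obtain ⟨y, rfl⟩ := (V.map_bijective S.χ (β_ S.W.M S.N').hom).2 y
  obtain ⟨x, rfl⟩ := surjL S (oddRM S) y
  exact ⟨V.map S.χ (β_ _ _).hom x, by rw [V.map_map, V.map_map, braid_iN]⟩

namespace Cx

variable (c : Cx S)

include c in
theorem iM_bijective : Function.Bijective (V.map S.χ S.W.iM) := by
  have h : S.toM (𝟙_ T) = S.W.iM ≫ (λ_ _).inv := by
    rw [TS.toM, leftUnitor_inv_naturality, unitors_inv_equal]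
  have h1 := c.toM_bijective' (W := 𝟙_ T) (by
    rw [h, MP.map_comp]
    exact (mp_bij (λ_ S.W.M).inv).2.comp (surj_of_cyc S.W.st1.cyc))
  rw [h, V.map_comp] at h1
  exact (Function.Bijective.of_comp_iff' (V.map_bijective S.χ (λ_ S.W.M).inv) _).1 h1

/-- `O ≃ V M` -/
def lM : F⟦X⟧ ≃ₗ[F⟦X⟧] V S.χ S.W.M :=
  LinearEquiv.ofBijective ((V.map S.χ S.W.iM).comp (LinearMap.toSpanSingleton _ _ (V.one S.χ)))
    (c.iM_bijective.comp (smul_one_bijective S.χ))

theorem lM_apply (f : F⟦X⟧) : c.lM f = f • V.map S.χ S.W.iM (V.one S.χ) :=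
  map_smul (V.map S.χ S.W.iM) f (V.one S.χ)

theorem uM_lM (f : F⟦X⟧) : V.map S.χ S.uM (c.lM f) = f • S.oneLM := by
  rw [lM_apply, map_smul, V.map_map, TS.oneLM]

include c in
theorem awayM : IsLocalizedModule.Away (X : F⟦X⟧) (V.map S.χ S.uM) := by
  have := c.away (p_M S.W)
  rw [TS.uM, V.map_comp]
  exact IsLocalizedModule.of_linearEquiv _ _ (V.mapIso S.χ (β_ S.W.M S.LS))

theorem awayO : IsLocalizedModule.Away (X : F⟦X⟧) ((V.map S.χ S.uM).comp c.lM.toLinearMap) :=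
  have := c.awayM
  IsLocalizedModule.of_linearEquiv_right _ _ c.lM

/-- `V (LS ⊗ M) ≃ K` -/
def kK : V S.χ S.LM ≃ₗ[F⟦X⟧] KK F :=
  have := c.awayO
  IsLocalizedModule.linearEquiv (Submonoid.powers (X : F⟦X⟧))
    ((V.map S.χ S.uM).comp c.lM.toLinearMap) (Algebra.linearMap F⟦X⟧ (KK F))

theorem kK_smul_one (f : F⟦X⟧) : c.kK (f • S.oneLM) = algebraMap F⟦X⟧ (KK F) f := by
  have := c.awayO
  rw [← c.uM_lM]
  exact IsLocalizedModule.linearEquiv_apply (Submonoid.powers (X : F⟦X⟧))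
    ((V.map S.χ S.uM).comp c.lM.toLinearMap) (Algebra.linearMap F⟦X⟧ (KK F)) f

theorem kK_one : c.kK S.oneLM = 1 := by
  rw [← one_smul F⟦X⟧ S.oneLM, kK_smul_one, map_one]

include c in
theorem exists_pow (y : V S.χ S.LM) : ∃ (n : ℕ) (f : F⟦X⟧), (X : F⟦X⟧) ^ n • y = f • S.oneLM := by
  have := c.awayO
  obtain ⟨n, f, h⟩ := IsLocalizedModule.Away.surj ((V.map S.χ S.uM).comp c.lM.toLinearMap) X y
  exact ⟨n, f, h.trans (c.uM_lM f)⟩

include c in
theorem X_bijLM (W : T) : Function.Bijective fun x : V S.χ (W ⊗ S.LM) => (X : F⟦X⟧) • x :=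
  c.X_bij (p_left (p_left (p_M S.W) _) W) (((tensorRight S.W.M).map_isZero (zero_LS c.hL W)).of_iso
    (whiskerRightIso (α_ _ _ _).symm _ ≪≫ α_ _ _ _ ≪≫ whiskerLeftIso _ (β_ _ _) ≪≫ (α_ _ _ _).symm))

theorem ker_prN : LinearMap.ker (V.map S.χ (S.iN ▷ S.W.M)) =
    LinearMap.ker (KO.mk.comp c.kK.toLinearMap) := by
  ext y
  change V.map S.χ (S.iN ▷ S.W.M) y = 0 ↔ KO.mk (c.kK y) = 0
  rw [KO.mk_eq_zero]
  constructor
  · intro hy
    obtain ⟨y, rfl⟩ := (V.map_bijective S.χ (β_ S.W.M S.LS).hom).2 y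
    rw [V.map_map, braid_iN, ← V.map_map] at hy
    obtain ⟨x, rfl⟩ := c.exactL (p_M S.W) y
      ((V.map_bijective S.χ (β_ S.W.M S.N').hom).1 (hy.trans (map_zero _).symm))
    obtain ⟨f, rfl⟩ := c.lM.surjective x
    rw [V.map_map, ← TS.uM, uM_lM, kK_smul_one]
    exact KK.algebraMap_mem_ge f
  · intro hy
    obtain ⟨f, hf⟩ := DEP.exists_ps hy
    rw [KK.uz_zero, one_mul, ← c.kK_smul_one, EmbeddingLike.apply_eq_iff_eq] at hf
    rw [hf, ← c.uM_lM, V.map_map, uM_iN, V.map_zero', LinearMap.zero_apply]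

/-- `V N ≃ K / O` -/
def kap : V S.χ S.N ≃ₗ[F⟦X⟧] KO F :=
  ((LinearMap.quotKerEquivOfSurjective _ (prN_surj S)).symm.trans
    (Submodule.quotEquivOfEq _ _ c.ker_prN)).trans
    (LinearMap.quotKerEquivOfSurjective _ (KO.mk_surj.comp c.kK.surjective))

theorem kap_prN (y : V S.χ S.LM) :
    c.kap (V.map S.χ (S.iN ▷ S.W.M) y) = KO.mk (c.kK y) := by
  have h : (LinearMap.quotKerEquivOfSurjective _ (prN_surj S)).symm
      (V.map S.χ (S.iN ▷ S.W.M) y) = Submodule.Quotient.mk y :=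
    (LinearEquiv.symm_apply_eq _).2 rfl
  rw [kap, LinearEquiv.trans_apply, LinearEquiv.trans_apply, h]
  rfl

end Cx

/-! ### Equivariance -/

variable [CharP F p] {G G' : Type} [Group G] [ProG G] [MulSemiringAction G F⟦X⟧]
  [MulSemiringAction G (KK F)] [ActK G F] [Group G'] [ProG G'] [MulSemiringAction G' (KK F)]
  (c : Cx S) (B : BG p F G G')

/-- `V (LS ⊗ M) ≃ K` -/
def VX.kK : VX c B S.LM ≃ₗ[F⟦X⟧] KK F := c.kK

/-- `V N ≃ K / O` -/
def VX.kap : VX c B S.N ≃ₗ[F⟦X⟧] KO F := c.kap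

variable {c B}

theorem gX_ne (g : G) (n : ℕ) : algebraMap F⟦X⟧ (KK F) (g • (X : F⟦X⟧) ^ n) ≠ 0 := fun h => by
  have h1 := alg_injective (h.trans (map_zero _).symm)
  rw [smul_eq_zero_iff_eq] at h1
  exact pow_ne_zero n X_ne_zero h1

theorem VX.kK_g (g : G) (y : VX c B S.LM) : VX.kK c B (g • y) = g • VX.kK c B y := by
  obtain ⟨n, f, h⟩ := c.exists_pow y
  let o : VX c B S.LM := VX.map c B (S.W.iM ≫ S.uM) (VX.one c B)
  have h0 : g • o = o := by rw [← VX.map_g, VX.g_one]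
  have h1 : (X : F⟦X⟧) ^ n • y = f • o := h
  have h2 : ∀ f : F⟦X⟧, VX.kK c B (f • o) = algebraMap F⟦X⟧ (KK F) f := c.kK_smul_one
  have h3 := congrArg (fun z => VX.kK c B (g • z)) h1
  have h4 := congrArg (fun z => g • VX.kK c B z) h1
  simp only [smul_distrib_smul g, h0, h2] at h3
  simp only [h2, ActK.alg] at h4
  rw [map_smul, Algebra.smul_def] at h3
  rw [map_smul, Algebra.smul_def, smul_mul', ActK.alg] at h4
  exact mul_left_cancel₀ (gX_ne g n) (h3.trans h4.symm)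

theorem VX.kap_g (g : G) (x : VX c B S.N) : VX.kap c B (g • x) = g • VX.kap c B x := by
  obtain ⟨y, rfl⟩ : ∃ y : VX c B S.LM, VX.map c B (S.iN ▷ S.W.M) y = x := prN_surj S x
  have h : ∀ y : VX c B S.LM, VX.kap c B (VX.map c B (S.iN ▷ S.W.M) y) = KO.mk (VX.kK c B y) :=
    c.kap_prN
  rw [← VX.map_g, h, h, VX.kK_g]
  rfl

end Vale.Agent.P221X.TC
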