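import Vale.Agent.P221X.TC.Lam
import Vale.Agent.P221X.TC.LamN
import Vale.Agent.P221X.TC.VK
import Vale.Agent.P221X.VT.RB

/-!
# P221X, block TOP-C: the homotopy of the representing object (row PI)
-/

open CategoryTheory MonoidalCategory Limits Pretriangulated PowerSeries

set_option linter.unusedSectionVars false

universe u

noncomputable section

namespace Vale.Agent.P221X.TC

open Vale.Agent.P251 Vale.Agent.P251.T Vale.Agent.P251.M Vale.Agent.P251.S Vale.Agent.P251.F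
  Vale.Agent.P251.I Vale.Agent.P251.X Vale.Agent.P251.Z Vale.Agent.P217
open Vale.Agent.P251.M.EvenSpheres VT ProG

variable {T : Type u} [Category.{0} T] [Preadditive T] [HasZeroObject T] [HasShift T ℤ]
  [∀ n : ℤ, (shiftFunctor T n).Additive] [Pretriangulated T] [IsTriangulated T]
  [MonoidalCategory T] [SymmetricCategory T] [TensorTriangulated T] [MonoidalClosed T]
  [HasCoproducts.{0} T] [HasProducts.{0} T] [StableCat T]
  {D : MUData T} {p : ℕ} [Fact p.Prime] {F : Type} [Field F] {S : TS D p F}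
  [CharP F p] {G G' : Type} [Group G] [ProG G] [MulSemiringAction G F⟦X⟧]
  [MulSemiringAction G (KK F)] [ActK G F] [Group G'] [ProG G'] [MulSemiringAction G' F⟦X⟧]
  [MulSemiringAction G' (KK F)] [ActK G' F]

/-! ### The action on the powers of `u` -/

theorem BG.smul_X (B : BG p F G G') (g : G) :
    g • (X : F⟦X⟧) = ((B.a g ^ ((p : ℤ) - 1) : F⟦X⟧ˣ) : F⟦X⟧) * X := by
  have h := Qt.Kt.phi_X (B.emb g)
  have h1 : (B.emb g).γ.c 0 = (B.a g : F⟦X⟧) := (InvSeries.lead_val _).symm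
  rw [h1, ← B.emb_O] at h
  apply (B.a g).mul_right_inj.1
  rw [← h, ← mul_assoc, ← Units.val_mul, ← zpow_one_add, add_sub_cancel, zpow_natCast,
    Units.val_pow_eq_pow_val, mul_comm]

theorem BG.smul_uz (B : BG p F G G') (g : G) (n : ℤ) : g • (KK.uz n : KK F) =
    algebraMap F⟦X⟧ (KK F) ((B.a g ^ (((p : ℤ) - 1) * n) : F⟦X⟧ˣ) : F⟦X⟧) * KK.uz n := by
  have h1 : ∀ m n : ℤ, algebraMap F⟦X⟧ (KK F) ((B.a g ^ (m + n) : F⟦X⟧ˣ) : F⟦X⟧) =
      algebraMap F⟦X⟧ (KK F) ((B.a g ^ m : F⟦X⟧ˣ) : F⟦X⟧) *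
        algebraMap F⟦X⟧ (KK F) ((B.a g ^ n : F⟦X⟧ˣ) : F⟦X⟧) := fun m n => by
    rw [zpow_add, Units.val_mul, map_mul]
  have h2 : g • (KK.uz 1 : KK F) =
      algebraMap F⟦X⟧ (KK F) ((B.a g ^ ((p : ℤ) - 1) : F⟦X⟧ˣ) : F⟦X⟧) * KK.uz 1 := by
    rw [← KK.algebraMap_X, ActK.alg, B.smul_X, map_mul]
  have h3 : ∀ k : ℤ, g • (KK.uz (k + 1) : KK F) = g • KK.uz k * g • KK.uz 1 := fun k => by
    rw [KK.uz_add, smul_mul']
  have h4 : g • (KK.uz 1 : KK F) ≠ 0 := fun h => by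
    have h5 := h3 (-1)
    rw [h, mul_zero, neg_add_cancel, KK.uz_zero, smul_one] at h5
    exact one_ne_zero h5
  induction n using Int.induction_on with
  | zero => rw [KK.uz_zero, smul_one, mul_zero, zpow_zero, Units.val_one, map_one, one_mul]
  | succ k ih => rw [h3, ih, h2, mul_add, mul_one, h1, KK.uz_add]; ring
  | pred k ih =>
    apply mul_right_cancel₀ h4
    have h5 : ((p : ℤ) - 1) * (-k) = ((p : ℤ) - 1) * (-k - 1) + (p - 1) := by ring
    have h6 : (KK.uz (-k) : KK F) = KK.uz (-k - 1) * KK.uz 1 := by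
      rw [← KK.uz_add, sub_add_cancel]
    rw [← h3, sub_add_cancel, ih, h2, h5, h1, h6]
    ring

/-! ### The homology of `N` -/

/-- The homology of `N` and of `LS ⊗ M`. -/
structure KN (c : Cx S) (B : BG p F G G') where
  kap : VX c B S.N ≃ₗ[F⟦X⟧] KO F
  kap_g : ∀ (g : G) x, kap (g • x) = g • kap x
  kL : V S.χ (S.LS ⊗ S.W.M) ≃ₗ[F⟦X⟧] KK F
  kL_one : kL (V.map S.χ (S.Le.u (𝟙_ T) ≫ S.toM S.LS) (V.one S.χ)) = 1
  kap_kL : ∀ m, kap (V.map S.χ (S.iN ▷ S.W.M) m) = KO.mk (kL m)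
  odd : ∀ k, Odd k → ∀ x : VV S (Sph T k), x = 0

theorem per_per {i j k : ℤ} (h : i + j = k) (n : V S.χ S.N) :
    V.map S.χ (((stdEven T).mu i j k h).inv ▷ S.N) (V.per S.χ k S.N n) =
      V.cross S.χ _ _ (V.cross S.χ _ _ (V.gen S.χ i) (V.gen S.χ j)) n := by
  rw [V.per_apply, ← cross_map_left, ← V.map_mu_gen h, V.map_map, Iso.hom_inv_id, V.map_id,
    LinearMap.id_apply]

theorem perN_per (i j : ℤ) (n : V S.χ S.N) : perN S j (Se T i) (V.per S.χ i S.N n) =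
    V.cross S.χ _ _ (V.cross S.χ _ _ (V.gen S.χ i) (V.gen S.χ j)) n := by
  rw [perN_apply, V.per_apply, ← V.cross_assoc, V.map_map, shN_hom, Iso.hom_inv_id_assoc,
    ← cross_map_left, V.cross_comm]

namespace KN

variable {c : Cx S} {B : BG p F G G'} (κ : KN c B) (r : Rep S)

/-- the functional of `f` -/
def fn (j : ℤ) : F⟦X⟧ →+ (VN c B (Se T j) →ₗ[F⟦X⟧] KO F) :=
  AddMonoidHom.mk' (fun f => f • ((VX.per c B j S.N).symm.trans κ.kap).toLinearMap)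
    fun f g => add_smul f g _

theorem fn_per (j : ℤ) (f : F⟦X⟧) (n : VX c B S.N) :
    κ.fn j f (VX.per c B j S.N n) = f • κ.kap n :=
  congrArg (fun x => f • κ.kap x) ((VX.per c B j S.N).symm_apply_apply n)

theorem smul_inj {f g : F⟦X⟧} (h : ∀ n, f • κ.kap n = g • κ.kap n) : f = g :=
  (KO.exists_end (g • LinearMap.id)).unique
    (fun x => by obtain ⟨n, rfl⟩ := κ.kap.surjective x; exact (h n).symm) fun _ => rfl

theorem fn_bij (j : ℤ) : Function.Bijective (κ.fn j) := by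
  refine ⟨fun f g h => κ.smul_inj fun n => by rw [← fn_per, h, fn_per], fun φ => ?_⟩
  obtain ⟨f, hf, -⟩ := KO.exists_end
    (φ.comp (κ.kap.symm.trans (VX.per c B j S.N)).toLinearMap)
  refine ⟨f, LinearMap.ext fun x => ?_⟩
  obtain ⟨n, rfl⟩ := (VX.per c B j S.N).surjective x
  rw [fn_per, ← hf]
  exact congrArg (fun x => φ (VX.per c B j S.N x)) (κ.kap.symm_apply_apply n)

/-- the homotopy of the representing object -/
def pe (j : ℤ) : (Se T j ⟶ r.E) ≃+ F⟦X⟧ :=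
  (r.clG c B _).trans (AddEquiv.ofBijective (κ.fn j) (κ.fn_bij j)).symm

theorem pe_spec {j : ℤ} (x : Se T j ⟶ r.E) (n : VX c B S.N) :
    r.clG c B _ x (VX.per c B j S.N n) = κ.pe r j x • κ.kap n := by
  rw [← fn_per]
  exact congrArg (fun φ : VN c B (Se T j) →ₗ[F⟦X⟧] KO F => φ (VX.per c B j S.N n))
    ((AddEquiv.ofBijective (κ.fn j) (κ.fn_bij j)).apply_symm_apply _).symm

theorem pe_spec' {j : ℤ} (x : Se T j ⟶ r.E) (n : V S.χ S.N) :
    r.cl _ x (V.per S.χ j S.N n) = κ.pe r j x • κ.kap n := κ.pe_spec r x n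

theorem pe_eq {j : ℤ} {x : Se T j ⟶ r.E} {f : F⟦X⟧}
    (h : ∀ n, r.clG c B _ x (VX.per c B j S.N n) = f • κ.kap n) : κ.pe r j x = f :=
  κ.smul_inj fun n => by rw [← pe_spec, h]

theorem pe_eq' {j : ℤ} {x : Se T j ⟶ r.E} {f : F⟦X⟧}
    (h : ∀ n : V S.χ S.N, r.cl _ x (V.per S.χ j S.N n) = f • κ.kap n) : κ.pe r j x = f :=
  κ.pe_eq r h

include κ in
theorem oddE : OddZero r.E := fun k hk x => r.hom_ext fun y => by
  rw [κ.odd k hk y, map_zero, map_zero]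

theorem orb_per {j : ℤ} (x : Se T j ⟶ r.E) (n : VX c B S.N) (g : G) :
    g • r.clG c B _ x (g⁻¹ • VX.per c B j S.N n) =
      (((B.a g ^ (-j) : F⟦X⟧ˣ) : F⟦X⟧) * g • κ.pe r j x) • κ.kap n := by
  rw [VX.g_per, map_smul, pe_spec, κ.kap_g, smul_distrib_smul g, smul_distrib_smul g,
    smul_inv_smul, B.smul_a_inv, mul_smul]

theorem pe_g (j : ℤ) (x : Se T j ⟶ r.E) (g : G) :
    κ.pe r j (x ≫ r.lam c B (Meas.ofG F⟦X⟧ (KO F) g)) =
      ((B.a g ^ (-j) : F⟦X⟧ˣ) : F⟦X⟧) * g • κ.pe r j x :=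
  κ.pe_eq r fun n => by rw [Rep.clG_lam_g, orb_per]

theorem pe_lam (a : ℤ) (x : Se T (((p : ℤ) - 1) * a) ⟶ r.E) (μ : MG G F) :
    KK.uz (-a) * algebraMap F⟦X⟧ (KK F) (κ.pe r _ (x ≫ r.lam c B μ)) =
      Meas.actK μ (KK.uz (-a) * algebraMap F⟦X⟧ (KK F) (κ.pe r _ x)) := by
  refine KO.eq_of_mk fun y => ?_
  obtain ⟨n, hn⟩ := κ.kap.surjective (KO.mk (y * KK.uz (-a)))
  rw [Meas.mk_actK, ← mul_assoc, mul_comm, ← KO.smul_mk, ← hn, ← pe_spec, Rep.clG_lam,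
    Meas.smul_apply]
  congr 1
  refine LC.ext fun g => ?_
  rw [orb_apply, orb_per, KO.orbK_apply, hn, KO.smul_mk, smul_mul', B.smul_uz, ActK.alg, mul_neg]
  congr 1
  rw [map_mul]
  ring

theorem pe_mod {i j k : ℤ} (h : i + j = k) (z : Se T i ⟶ D.R) (x : Se T j ⟶ r.E) :
    κ.pe r k (gsmul r.mod h z x) = S.χ (HRing.of (stdEven T) D.R i z) * κ.pe r j x := by
  refine κ.pe_eq' r fun n => ?_
  rw [gsmul, EvenSpheres.ext, MonoidalCategory.tensorHom_def, Category.assoc, Category.assoc, Rep.cl_comp_apply,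
    per_per, Rep.cl_comp_apply, ← cross_map_left, ← cross_map_left, Rep.mod_act, Rep.cl_act,
    mulN_apply, V.cross_assoc, V.mul_cross, ← V.hur_eq, V.eps_hur, map_smul, ← V.per_apply,
    κ.pe_spec', mul_smul]

theorem pe_per {i j k : ℤ} (h : i + j = k) (x : Se T i ⟶ r.E) :
    κ.pe r k ((stdEven T).ext h x (𝟙 (Se T j)) ≫ (r.per j).hom) = κ.pe r i x := by
  refine κ.pe_eq' r fun n => ?_
  rw [EvenSpheres.ext, tensorHom_id, Category.assoc, Rep.cl_comp_apply, per_per, ← perN_per,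
    Rep.per_hom, Rep.cl_perH, κ.pe_spec']

end KN

/-! ### Maps out of modules -/

section real

variable {Y : T} {a : ModStr D.R Y} {l : He Y →+ F⟦X⟧} (Λ : LamN S a l)

theorem LamN.linN : Lin S.χ (a.tensorRight S.N) fun j => Λ.lN.comp (He.of _ j) :=
  fun _ _ _ h z y => (congrArg Λ.lN (sm_of _ h z y).symm).trans (Λ.lN_sm _ _)

theorem LamN.linL : Lin S.χ (a.tensorRight S.LS) fun j => Λ.lL.comp (He.of _ j) :=
  fun _ _ _ h z y => (congrArg Λ.lL (sm_of _ h z y).symm).trans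
    ((Λ.lL_sm _ _).trans (Algebra.smul_def _ _).symm)

theorem toM_bij (hp : (p : ℤ) • 𝟙 Y = 0) {A : T} (ho : OddZero (Y ⊗ A)) :
    Function.Bijective (He.map (Y ◁ S.toM A)) :=
  ⟨He.map_inj fun _ => inj_red (S := S) hp A, He.map_surj
    (surj_even (distL Y (redTri_distinguished S.W.distM A)).choose_spec ho)⟩

theorem toM_iN : S.toM S.LS ≫ S.iN ▷ S.W.M = S.gN := (toM_nat S S.iN).symm

/-- the functional on the homotopy of `Y ⊗ (LS ⊗ M)` -/
theorem LamN.exists_lM (hb : Function.Bijective (He.map (Y ◁ S.toM S.LS))) :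
    ∃ lM : ∀ j : ℤ, (Se T j ⟶ Y ⊗ (S.LS ⊗ S.W.M)) →+ KK F,
      Lin S.χ (a.tensorRight (S.LS ⊗ S.W.M)) lM ∧
      (∀ j w, lM j (w ≫ Y ◁ S.toM S.LS) = Λ.lL (He.of _ j w)) ∧
      ∀ j w, Λ.lN (He.of _ j (w ≫ Y ◁ (S.iN ▷ S.W.M))) = KO.mk (lM j w) := by
  let e := AddEquiv.ofBijective _ hb
  have h1 : ∀ w, e.symm (He.map (Y ◁ S.toM S.LS) w) = w := e.symm_apply_apply
  refine ⟨fun j => (Λ.lL.comp e.symm.toAddMonoidHom).comp (He.of _ j), fun i j k h z y => ?_,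
    fun j w => ?_, fun j w => ?_⟩
  · change Λ.lL (e.symm (He.of _ k _)) = _ • Λ.lL (e.symm (He.of _ j y))
    obtain ⟨w, hw⟩ := hb.2 (He.of _ j y)
    rw [← sm_of, ← hw, ← map_sm _ _ (lin_left a _), h1, h1, Λ.lL_sm, Algebra.smul_def]
  · change Λ.lL (e.symm (He.of _ j _)) = _
    rw [← He.map_of, h1]
  · change _ = KO.mk (Λ.lL (e.symm (He.of _ j w)))
    obtain ⟨w', hw⟩ := hb.2 (He.of _ j w)
    rw [← He.map_of, ← hw, h1, He.map_map, ← MonoidalCategory.whiskerLeft_comp, toM_iN, Λ.lN_gN]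

theorem end_K (ψ : KK F →ₗ[F⟦X⟧] KK F) (z : KK F) : ψ z = ψ 1 * z := by
  obtain ⟨n, f, hf⟩ := exists_mul_alg z
  apply mul_left_cancel₀ (pow_ne_zero n (alg_ne (w := 1) (f := (X : F⟦X⟧)) (by simp)))
  rw [mul_left_comm, hf, ← map_pow, ← Algebra.smul_def, ← map_smul, Algebra.smul_def, map_pow, hf,
    Algebra.algebraMap_eq_smul_one, map_smul, Algebra.smul_def, Algebra.smul_def, mul_one,
    mul_comm]

variable {c : Cx S} {B : BG p F G G'} (κ : KN c B)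

/-- the value of the functional of `lN` on `y × n` -/
theorem KN.evM_cross (hb : Function.Bijective (He.map (Y ◁ S.toM S.LS))) (j : ℤ)
    (y : Se T j ⟶ Y) (n : V S.χ S.N) :
    V.evM Λ.linN (V.cross S.χ Y S.N (V.hur S.χ j y) n) = l (He.of Y j y) • κ.kap n := by
  obtain ⟨lM, h1, h2, h3⟩ := Λ.exists_lM hb
  obtain ⟨z, hz⟩ := KO.mk_surj (κ.kap n)
  obtain ⟨m, rfl⟩ := κ.kL.surjective z
  obtain rfl : V.map S.χ (S.iN ▷ S.W.M) m = n := κ.kap.injective ((κ.kap_kL m).trans hz)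
  have h4 : (V.evM Λ.linN).comp (V.map S.χ (Y ◁ (S.iN ▷ S.W.M))) = KO.mk.comp (V.evM h1) :=
    V.hom_ext fun k x => by
      rw [LinearMap.comp_apply, LinearMap.comp_apply, V.map_of, V.evM_of, V.evM_of, ← h3,
        Category.assoc, Category.assoc, lin_left a]
      rfl
  have h5 := end_K (((V.evM h1).comp (V.cross S.χ Y _ (V.hur S.χ j y))).comp
    κ.kL.symm.toLinearMap) (κ.kL m)
  have h6 : κ.kL.symm 1 = V.map S.χ (S.Le.u (𝟙_ T) ≫ S.toM S.LS) (V.one S.χ) :=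
    κ.kL.symm_apply_eq.2 κ.kL_one.symm
  have h7 : V.cross S.χ Y _ (V.hur S.χ j y) (V.one S.χ) = V.hur S.χ j (y ≫ (ρ_ Y).inv) := by
    rw [← V.map_hur, ← V.cross_one (V.hur S.χ j y), V.map_map, Iso.hom_inv_id, V.map_id,
      LinearMap.id_apply, V.cross_one]
  simp only [LinearMap.comp_apply, LinearEquiv.coe_coe, LinearEquiv.symm_apply_apply] at h5
  rw [h6, cross_map_right, h7, V.map_hur, V.evM_hur, MonoidalCategory.whiskerLeft_comp,
    ← Category.assoc, h2, Category.assoc] at h5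
  rw [cross_map_right, ← hz, KO.smul_mk, ← Λ.lL_toL, He.map_of]
  exact (DFunLike.congr_fun h4 _).trans (congrArg KO.mk h5)

variable (r : Rep S)

/-- the map of a functional -/
def LamN.hom : Y ⟶ r.E := (r.cl Y).symm (V.evM Λ.linN)

theorem LamN.cl_hom : r.cl Y (Λ.hom r) = V.evM Λ.linN := (r.cl Y).apply_symm_apply _

theorem LamN.hom_lin : a.IsLinear r.mod (Λ.hom r) := by
  refine r.isLinear_of _ _ fun x => ?_
  rw [Λ.cl_hom, mulN_apply, ← V.evM_mul, V.map_map]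
  congr 3
  exact (Iso.hom_inv_id_assoc _ _).symm

theorem KN.pe_hom (hb : Function.Bijective (He.map (Y ◁ S.toM S.LS))) (j : ℤ)
    (y : Se T j ⟶ Y) : κ.pe r j (y ≫ Λ.hom r) = l (He.of Y j y) :=
  κ.pe_eq' r fun n => by
    rw [Rep.cl_comp_apply, Λ.cl_hom, V.per_apply, ← cross_map_left, ← V.hur_eq,
      κ.evM_cross Λ hb]

theorem KN.real (Y : T) (a : ModStr D.R Y) (hp : (p : ℤ) • 𝟙 Y = 0) (ho : OddZero Y)
    (hi : Function.Injective (sm a (vA D p 1))) (l : He Y →+ F⟦X⟧)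
    (hl : ∀ z y, l (sm a z y) = S.χ z * l y) :
    ∃ f : Y ⟶ r.E, a.IsLinear r.mod f ∧
      ∀ (j : ℤ) (y : Se T j ⟶ Y), κ.pe r j (y ≫ f) = l (He.of Y j y) := by
  obtain ⟨w, hw⟩ := c.chi_v1
  obtain ⟨Λ⟩ := exists_lamN c.hL hw a hp ho hi l hl
  exact ⟨Λ.hom r, Λ.hom_lin r, κ.pe_hom Λ r (toM_bij hp (c.hL.oddL a hp ho))⟩

end real

/-- **Row PI.** -/
def KN.piD {c : Cx S} {B : BG p F G G'} (κ : KN c B) (r : Rep S) : PiD r c B where
  odd := κ.oddE r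
  pe := κ.pe r
  pe_g := κ.pe_g r
  pe_lam := κ.pe_lam r
  pe_mod := κ.pe_mod r
  pe_per := κ.pe_per r
  real := κ.real r

/-- the bundle `KN` -/
def Cx.kn (c : Cx S) (B : BG p F G G') : KN c B where
  kap := VX.kap c B
  kap_g := VX.kap_g
  kL := c.kK
  kL_one := by rw [← iM_uM]; exact c.kK_one
  kap_kL := c.kap_prN
  odd _ hk := VN_odd c.hL hk

/-- **Row PI.** -/
def piD (r : Rep S) (c : Cx S) (B : BG p F G G') : PiD r c B := (c.kn B).piD r

theorem exists_piD (r : Rep S) (c : Cx S) (B : BG p F G G') : Nonempty (PiD r c B) :=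
  ⟨piD r c B⟩

theorem piD_spec (r : Rep S) (c : Cx S) (B : BG p F G G') {j : ℤ} (x : Se T j ⟶ r.E)
    (n : V S.χ S.N) : r.cl _ x (V.per S.χ j S.N n) = (piD r c B).pe j x • c.kap n :=
  (c.kn B).pe_spec' r x n

theorem ev_cross (r : Rep S) (c : Cx S) (B : BG p F G G') {j : ℤ} (x : Se T j ⟶ r.E)
    (n : V S.χ S.N) :
    r.ev (V.cross S.χ _ _ (V.hur S.χ j x) n) = (piD r c B).pe j x • c.kap n := by
  rw [← piD_spec, Rep.cl_apply, V.per_apply, ← cross_map_left, V.hur_eq]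

end Vale.Agent.P221X.TC
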