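import Vale.Agent.P221X.TC.Defs

/-!
# P221X, block TOP-C: the homotopy of `Y ⊗ LS`, `Y ⊗ N'`, `Y ⊗ N` for modules `Y` killed by `p`
-/

open CategoryTheory MonoidalCategory Limits Pretriangulated PowerSeries

set_option linter.unusedSectionVars false

universe u

noncomputable section

namespace Vale.Agent.P221X.TC

open Vale.Agent.P251 Vale.Agent.P251.T Vale.Agent.P251.M Vale.Agent.P251.S Vale.Agent.P251.F
  Vale.Agent.P251.I Vale.Agent.P251.X
open Vale.Agent.P251.M.EvenSpheres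

variable {T : Type u} [Category.{0} T] [Preadditive T] [HasZeroObject T] [HasShift T ℤ]
  [∀ n : ℤ, (shiftFunctor T n).Additive] [Pretriangulated T] [IsTriangulated T]
  [MonoidalCategory T] [SymmetricCategory T] [TensorTriangulated T] [MonoidalClosed T]
  [HasCoproducts.{0} T] [HasProducts.{0} T] [StableCat T]

/-! ### The even homotopy -/

namespace He

variable {Y Y' Y'' : T}

/-- the component of degree `j` -/
def cp (Y : T) (j : ℤ) : He Y →+ (Se T j ⟶ Y) :=
  DFinsupp.evalAddMonoidHom (β := (stdEven T).Gr Y) j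

theorem cp_same (j : ℤ) (x : Se T j ⟶ Y) : cp Y j (He.of Y j x) = x :=
  DirectSum.of_eq_same (β := (stdEven T).Gr Y) j x

theorem cp_ne {i j : ℤ} (h : i ≠ j) (x : Se T i ⟶ Y) : cp Y j (He.of Y i x) = 0 :=
  DirectSum.of_eq_of_ne (β := (stdEven T).Gr Y) i j x h.symm

theorem of_inj (j : ℤ) : Function.Injective (He.of Y j) :=
  DirectSum.of_injective (β := (stdEven T).Gr Y) j

theorem ext_cp {x y : He Y} (h : ∀ j, cp Y j x = cp Y j y) : x = y := DFinsupp.ext h

@[elab_as_elim]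
theorem ind {motive : He Y → Prop} (x : He Y) (zero : motive 0)
    (of : ∀ j x, motive (He.of Y j x)) (add : ∀ x y, motive x → motive y → motive (x + y)) :
    motive x :=
  DirectSum.induction_on (motive := motive) x zero of add

theorem map_of (f : Y ⟶ Y') (j : ℤ) (x : Se T j ⟶ Y) :
    He.map f (He.of Y j x) = He.of Y' j (x ≫ f) :=
  DirectSum.toAddMonoid_of (β := (stdEven T).Gr Y) _ j x

theorem map_map (f : Y ⟶ Y') (g : Y' ⟶ Y'') (x : He Y) :
    He.map g (He.map f x) = He.map (f ≫ g) x := by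
  induction x using ind with
  | zero => simp only [map_zero]
  | of j x => rw [map_of, map_of, map_of, Category.assoc]
  | add x y hx hy => simp only [map_add, hx, hy]

theorem map_id (x : He Y) : He.map (𝟙 Y) x = x := by
  induction x using ind with
  | zero => simp only [map_zero]
  | of j x => rw [map_of, Category.comp_id]
  | add x y hx hy => simp only [map_add, hx, hy]

theorem cp_map (f : Y ⟶ Y') (j : ℤ) (x : He Y) : cp Y' j (He.map f x) = cp Y j x ≫ f := by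
  induction x using ind with
  | zero => simp only [map_zero, zero_comp]
  | of i x =>
    rw [map_of]
    by_cases h : i = j
    · subst h
      rw [cp_same, cp_same]
    · rw [cp_ne h, cp_ne h, zero_comp]
  | add x y hx hy => simp only [map_add, hx, hy, Preadditive.add_comp]

theorem map_bij (f : Y ⟶ Y') [IsIso f] : Function.Bijective (He.map f) :=
  Function.bijective_iff_has_inverse.2 ⟨He.map (inv f),
    fun x => by rw [map_map, IsIso.hom_inv_id, map_id],
    fun x => by rw [map_map, IsIso.inv_hom_id, map_id]⟩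

theorem exists_sum (x : He Y) : ∃ s : Finset ℤ, x = ∑ j ∈ s, He.of Y j (cp Y j x) := by
  classical
  exact ⟨DFinsupp.support x, (DirectSum.sum_support_of x).symm⟩

theorem map_inj {f : Y ⟶ Y'} (h : ∀ (j : ℤ) (x : Se T j ⟶ Y), x ≫ f = 0 → x = 0) :
    Function.Injective (He.map f) := by
  refine (injective_iff_map_eq_zero _).2 fun x hx => ext_cp fun j => ?_
  rw [map_zero]
  exact h j _ (by rw [← cp_map, hx, map_zero])

theorem inj_of_map {f : Y ⟶ Y'} (h : Function.Injective (He.map f)) (j : ℤ) (x : Se T j ⟶ Y)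
    (hx : x ≫ f = 0) : x = 0 :=
  of_inj j (h (by rw [map_of, hx, map_zero, map_zero, map_zero]))

theorem map_surj {f : Y ⟶ Y'} (h : ∀ (j : ℤ) (y : Se T j ⟶ Y'), ∃ x : Se T j ⟶ Y, x ≫ f = y) :
    Function.Surjective (He.map f) := by
  intro y
  induction y using ind with
  | zero => exact ⟨0, map_zero _⟩
  | of j y =>
    obtain ⟨x, rfl⟩ := h j y
    exact ⟨_, map_of f j x⟩
  | add x y hx hy =>
    obtain ⟨x, rfl⟩ := hx
    obtain ⟨y, rfl⟩ := hy
    exact ⟨_, map_add _ x y⟩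

theorem map_exact {f : Y ⟶ Y'} {g : Y' ⟶ Y''}
    (h : ∀ (j : ℤ) (y : Se T j ⟶ Y'), y ≫ g = 0 → ∃ x : Se T j ⟶ Y, x ≫ f = y) (y : He Y')
    (hy : He.map g y = 0) : ∃ x, He.map f x = y := by
  choose x hx using fun j => h j (cp Y' j y) (by rw [← cp_map, hy, map_zero])
  obtain ⟨s, hs⟩ := exists_sum y
  refine ⟨∑ j ∈ s, He.of Y j (x j), ?_⟩
  rw [map_sum, hs]
  exact Finset.sum_congr rfl fun j _ => by rw [map_of, hx]

end He

/-- the even spheres are spheres -/
def seI (T : Type u) [Category.{0} T] [Preadditive T] [HasZeroObject T] [HasShift T ℤ]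
    [∀ n : ℤ, (shiftFunctor T n).Additive] [Pretriangulated T] [MonoidalCategory T]
    [SymmetricCategory T] [TensorTriangulated T] (j : ℤ) : Se T j ≅ Sph T (2 * j) :=
  (stdEven T).sphIso (Iso.refl _) j

theorem distL (Y : T) {A B C : T} {f : A ⟶ B} {g : B ⟶ C} {h : C ⟶ A⟦(1 : ℤ)⟧}
    (hT : Triangle.mk f g h ∈ distTriang T) :
    ∃ d : Y ⊗ C ⟶ (Y ⊗ A)⟦(1 : ℤ)⟧, Triangle.mk (Y ◁ f) (Y ◁ g) d ∈ distTriang T :=
  ⟨_, dist_whiskerLeft Y hT⟩

section tri

variable {X Y Z : T} {f : X ⟶ Y} {g : Y ⟶ Z} {h : Z ⟶ X⟦(1 : ℤ)⟧}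
  (hT : Triangle.mk f g h ∈ distTriang T)

include hT

theorem surj_even (hX : OddZero X) (j : ℤ) (z : Se T j ⟶ Z) : ∃ y : Se T j ⟶ Y, y ≫ g = z := by
  have h0 : z ≫ h = 0 := by
    obtain ⟨w, hw⟩ := exists_desuspend (2 * j) ((seI T j).inv ≫ z ≫ h)
    rw [hX (2 * j - 1) ⟨j - 1, by ring⟩ w, Functor.map_zero, comp_zero] at hw
    rw [← cancel_epi (seI T j).inv, hw, comp_zero]
  obtain ⟨y, hy⟩ := exact₃ hT z h0
  exact ⟨y, hy.symm⟩

theorem oddZero₃ (hY : OddZero Y) (hf : ∀ (j : ℤ) (x : Se T j ⟶ X), x ≫ f = 0 → x = 0) :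
    OddZero Z := by
  rintro _ ⟨j, rfl⟩ z
  have h0 : z ≫ h = 0 := by
    obtain ⟨w, hw⟩ := exists_desuspend (2 * j + 1) (z ≫ h)
    have h1 : w ≫ f = 0 := by
      apply (shiftFunctor T (1 : ℤ)).map_injective
      rw [Functor.map_zero, Functor.map_comp,
        ← cancel_epi ((shiftFunctorAdd' T (2 * j + 1 - 1) 1 (2 * j + 1) (by omega)).app
          (𝟙_ T)).hom, ← Category.assoc, ← hw, Category.assoc, zero₃₁ hT, comp_zero, comp_zero]
    let e : Se T j ≅ Sph T (2 * j + 1 - 1) := seI T j ≪≫ eqToIso (by rw [add_sub_cancel_right])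
    have h2 : w = 0 := by
      rw [← cancel_epi e.hom, comp_zero]
      exact hf j _ (by rw [Category.assoc, h1, comp_zero])
    rw [hw, h2, Functor.map_zero, comp_zero]
  obtain ⟨y, hy⟩ := exact₃ hT z h0
  rw [hy, hY _ ⟨j, rfl⟩ y, zero_comp]

end tri

/-! ### The action of the homotopy ring -/

variable {D : MUData T} {Y Y' : T}

/-- the even homotopy of a module -/
def HM (_a : ModStr D.R Y) : Type := He Y

instance (a : ModStr D.R Y) : AddCommGroup (HM a) := inferInstanceAs (AddCommGroup (He Y))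

instance (a : ModStr D.R Y) : Module (HRing (stdEven T) D.R) (HM a) := hModule a

section sm

variable (a : ModStr D.R Y)

theorem sm_of {i j k : ℤ} (h : i + j = k) (z : Se T i ⟶ D.R) (x : Se T j ⟶ Y) :
    sm a (HRing.of (stdEven T) D.R i z) (He.of Y j x) = He.of Y k (gsmul a h z x) :=
  of_smul_of a h z x

theorem sm_add (z : HRing (stdEven T) D.R) (x y : He Y) : sm a z (x + y) = sm a z x + sm a z y :=
  smul_add (A := HM a) z x y

theorem sm_sub (z : HRing (stdEven T) D.R) (x y : He Y) : sm a z (x - y) = sm a z x - sm a z y :=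
  smul_sub (A := HM a) z x y

theorem sm_zero (z : HRing (stdEven T) D.R) : sm a z 0 = 0 := smul_zero (A := HM a) z

theorem add_sm (z w : HRing (stdEven T) D.R) (x : He Y) : sm a (z + w) x = sm a z x + sm a w x :=
  add_smul (M := HM a) z w x

theorem zero_sm (x : He Y) : sm a 0 x = 0 := zero_smul (A := HM a) _ x

theorem one_sm (x : He Y) : sm a 1 x = x := one_smul (α := HM a) _ x

theorem mul_sm (z w : HRing (stdEven T) D.R) (x : He Y) : sm a (z * w) x = sm a z (sm a w x) :=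
  mul_smul (β := HM a) z w x

theorem sm_comm (z w : HRing (stdEven T) D.R) (x : He Y) :
    sm a z (sm a w x) = sm a w (sm a z x) := by rw [← mul_sm, mul_comm, mul_sm]

theorem map_sm (a' : ModStr D.R Y') {f : Y ⟶ Y'} (hf : a.IsLinear a' f)
    (z : HRing (stdEven T) D.R) (x : He Y) : He.map f (sm a z x) = sm a' z (He.map f x) := by
  induction z using DirectSum.induction_on with
  | zero => rw [zero_sm, zero_sm, map_zero]
  | of i z =>
    induction x using He.ind with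
    | zero => rw [sm_zero, map_zero, sm_zero]
    | of j x =>
      change He.map f (sm a (HRing.of _ _ i z) _) = sm a' (HRing.of _ _ i z) _
      rw [sm_of a rfl, He.map_of, He.map_of, sm_of a' rfl, gsmul_comp a a' hf]
    | add x y hx hy => rw [sm_add, map_add, map_add, sm_add, hx, hy]
  | add z w hz hw => rw [add_sm, add_sm, map_add, hz, hw]

theorem cp_sm {i j k : ℤ} (h : i + j = k) (z : Se T i ⟶ D.R) (x : He Y) :
    He.cp Y k (sm a (HRing.of (stdEven T) D.R i z) x) = gsmul a h z (He.cp Y j x) := by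
  induction x using He.ind with
  | zero => rw [sm_zero, map_zero, map_zero, gsmul, ext_zero_right, zero_comp]
  | of l x =>
    rw [sm_of a rfl]
    by_cases hl : l = j
    · subst hl h
      rw [He.cp_same, He.cp_same]
    · rw [He.cp_ne hl, He.cp_ne (by omega), gsmul, ext_zero_right, zero_comp]
  | add x y hx hy =>
    rw [sm_add, map_add, map_add, hx, hy, gsmul, gsmul, gsmul, ext_add_right,
      Preadditive.add_comp]

theorem sm_pow_inj {z : HRing (stdEven T) D.R} (h : Function.Injective (sm a z)) (n : ℕ) :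
    Function.Injective (sm a (z ^ n)) := by
  induction n with
  | zero => exact fun x y hxy => by rwa [pow_zero, one_sm, one_sm] at hxy
  | succ n ih => exact fun x y hxy => h (ih (by rwa [← mul_sm, ← mul_sm, ← pow_succ]))

theorem sm_pow_surj {z : HRing (stdEven T) D.R} (h : Function.Surjective (sm a z)) (n : ℕ) :
    Function.Surjective (sm a (z ^ n)) := by
  induction n with
  | zero => exact fun x => ⟨x, by rw [pow_zero, one_sm]⟩
  | succ n ih =>
    intro x
    obtain ⟨y, rfl⟩ := ih x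
    obtain ⟨w, rfl⟩ := h y
    exact ⟨w, by rw [pow_succ, mul_sm]⟩

end sm

theorem exists_pow_of (i : ℤ) (z : Se T i ⟶ D.R) (n : ℕ) : ∃ w : Se T (n * i) ⟶ D.R,
    HRing.of (stdEven T) D.R i z ^ n = HRing.of (stdEven T) D.R (n * i) w := by
  induction n with
  | zero =>
    refine ⟨((stdEven T).castIso _ 0 (by simp)).hom ≫ (stdEven T).zero.inv ≫ MonObj.one, ?_⟩
    rw [pow_zero, of_cast, of_one]
  | succ n ih =>
    obtain ⟨w, hw⟩ := ih
    have h : (n : ℤ) * i + i = (n + 1 : ℕ) * i := by push_cast; ring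
    exact ⟨_, by rw [pow_succ, hw, of_mul_of h]⟩

theorem lin_left (a : ModStr D.R Y) {A A' : T} (g : A ⟶ A') :
    (a.tensorRight A).IsLinear (a.tensorRight A') (Y ◁ g) := by
  change ((α_ _ _ _).inv ≫ a.act ▷ A) ≫ Y ◁ g = D.R ◁ Y ◁ g ≫ (α_ _ _ _).inv ≫ a.act ▷ A'
  rw [associator_inv_naturality_right_assoc, whisker_exchange, Category.assoc]

theorem lin_unit (a : ModStr D.R Y) {A : T} (g : 𝟙_ T ⟶ A) :
    a.IsLinear (a.tensorRight A) ((ρ_ Y).inv ≫ Y ◁ g) := by
  change a.act ≫ (ρ_ Y).inv ≫ Y ◁ g =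
    D.R ◁ ((ρ_ Y).inv ≫ Y ◁ g) ≫ (α_ _ _ _).inv ≫ a.act ▷ A
  rw [MonoidalCategory.whiskerLeft_comp, Category.assoc, associator_inv_naturality_right_assoc,
    whisker_exchange, rightUnitor_inv_naturality_assoc]
  simp

theorem p_tensor {n : ℤ} (h : n • 𝟙 Y = 0) (A : T) : n • 𝟙 (Y ⊗ A) = 0 := by
  have h1 : (n • 𝟙 Y) ▷ A = n • (𝟙 Y ▷ A) := (tensorRight A).map_zsmul
  rw [← MonoidalCategory.id_whiskerRight, ← h1, h, MonoidalPreadditive.zero_whiskerRight]

variable {p : ℕ} [Fact p.Prime] {F : Type} [Field F] {S : TS D p F}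

/-- `LS ⟶ N' ⟶ N` -/
def TS.gN (S : TS D p F) : S.LS ⟶ S.N := S.iN ≫ (redC S.W.iM).app S.N'

theorem TS.toL_lin (S : TS D p F) (a : ModStr D.R Y) :
    a.IsLinear (a.tensorRight S.LS) (S.toL Y) := lin_unit a _

section loc

variable (hL : LocF S) (a : ModStr D.R Y) (hp : (p : ℤ) • 𝟙 Y = 0)

include hL a hp

theorem LocF.locL : IsLocal S.Ke (Y ⊗ S.LS) := by
  refine hL.loc _ (a.tensorRight _) (p_tensor hp _) (IsZero.of_iso ?_ (α_ _ _ _))
  exact (tensorLeft Y).map_isZero (hL.zero1 _)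

/-- the localisation of a module -/
theorem LocF.exists_iso : ∃ e : S.Le.L.obj Y ≅ Y ⊗ S.LS, S.Le.u Y ≫ e.hom = S.toL Y ∧
    (S.Le.mod a).IsLinear (a.tensorRight S.LS) e.hom :=
  ⟨S.Le.isoOfKEq (hL.locL a hp) _ (hL.keq Y), S.Le.u_isoOfKEq _ _ _,
    S.Le.isLinear_desc a (hL.locL a hp) (S.toL_lin a)⟩

theorem LocF.bijL : Function.Bijective (sm (a.tensorRight S.LS) (vA D p 1)) := by
  obtain ⟨e, -, he⟩ := hL.exists_iso a hp
  have h1 : sm (a.tensorRight S.LS) (vA D p 1) ∘ He.map e.hom =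
      He.map e.hom ∘ sm (S.Le.mod a) (vA D p 1) := funext fun x => (map_sm _ _ he _ x).symm
  rw [← (He.map_bij e.hom).of_comp_iff, h1]
  exact (He.map_bij e.hom).comp (hL.inv Y a hp).2

theorem LocF.surjL (y : He (Y ⊗ S.LS)) : ∃ (n : ℕ) (x : He Y),
    sm (a.tensorRight S.LS) (vA D p 1 ^ n) y = He.map (S.toL Y) x := by
  obtain ⟨e, h1, he⟩ := hL.exists_iso a hp
  obtain ⟨y, rfl⟩ := (He.map_bij e.hom).2 y
  obtain ⟨n, x, hx⟩ := hL.surj Y a hp y
  exact ⟨n, x, by rw [← map_sm _ _ he, hx, He.map_map, h1]⟩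

theorem LocF.kerL (x : He Y) (hx : He.map (S.toL Y) x = 0) :
    ∃ n : ℕ, sm a (vA D p 1 ^ n) x = 0 := by
  obtain ⟨e, h1, -⟩ := hL.exists_iso a hp
  refine hL.ker Y a hp x ((He.map_bij e.hom).1 ?_)
  rw [He.map_map, h1, hx, map_zero]

theorem LocF.oddL (ho : OddZero Y) : OddZero (Y ⊗ S.LS) := by
  obtain ⟨e, -, -⟩ := hL.exists_iso a hp
  exact (hL.odd Y a hp ho).retract e.inv e.hom e.inv_hom_id

theorem LocF.injL (hi : Function.Injective (sm a (vA D p 1))) :
    Function.Injective (He.map (S.toL Y)) := by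
  refine (injective_iff_map_eq_zero _).2 fun x hx => ?_
  obtain ⟨n, hn⟩ := hL.kerL a hp x hx
  exact sm_pow_inj a hi n (by rw [hn, sm_zero])

theorem LocF.oddN' (ho : OddZero Y) (hi : Function.Injective (sm a (vA D p 1))) :
    OddZero (Y ⊗ S.N') := by
  obtain ⟨d, hd⟩ := distL Y S.distN
  refine oddZero₃ hd (hL.oddL a hp ho) fun j x hx => ?_
  rw [← cancel_mono (ρ_ Y).hom, zero_comp]
  refine He.inj_of_map (hL.injL a hp hi) j _ ?_
  rw [TS.toL, Category.assoc, Iso.hom_inv_id_assoc]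
  exact hx

end loc

theorem exactN' (j : ℤ) (w : Se T j ⟶ Y ⊗ S.LS) (hw : w ≫ Y ◁ S.iN = 0) :
    ∃ x : Se T j ⟶ Y, x ≫ S.toL Y = w := by
  obtain ⟨d, hd⟩ := distL Y S.distN
  obtain ⟨x, hx⟩ := exact₂ hd w hw
  exact ⟨x ≫ (ρ_ Y).hom, by rw [TS.toL, Category.assoc, Iso.hom_inv_id_assoc, hx]⟩

theorem toL_iN : S.toL Y ≫ Y ◁ S.iN = 0 := by
  obtain ⟨d, hd⟩ := distL Y S.distN
  rw [TS.toL, Category.assoc, zero₁₂ hd, comp_zero]

theorem toL_gN : S.toL Y ≫ Y ◁ S.gN = 0 := by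
  rw [TS.gN, MonoidalCategory.whiskerLeft_comp, ← Category.assoc, toL_iN, zero_comp]

theorem surjN' (ho : OddZero Y) (j : ℤ) (w : Se T j ⟶ Y ⊗ S.N') :
    ∃ x : Se T j ⟶ Y ⊗ S.LS, x ≫ Y ◁ S.iN = w :=
  surj_even (distL Y S.distN).choose_spec (ho.retract (ρ_ Y).hom (ρ_ Y).inv (ρ_ Y).hom_inv_id) j w

theorem inj_red (hp : (p : ℤ) • 𝟙 Y = 0) (A : T) {W : T} (w : W ⟶ Y ⊗ A)
    (hw : w ≫ Y ◁ (redC S.W.iM).app A = 0) : w = 0 := by
  obtain ⟨x, hx⟩ := exact₂ (distL Y (redTri_distinguished S.W.distM A)).choose_spec w hw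
  have h1 : Y ◁ ((p : ℤ) • 𝟙 A) = (p : ℤ) • (Y ◁ 𝟙 A) := (tensorLeft Y).map_zsmul
  rw [hx, h1, MonoidalCategory.whiskerLeft_id, p_tensor hp, comp_zero]

theorem exactN (hp : (p : ℤ) • 𝟙 Y = 0) (j : ℤ) (w : Se T j ⟶ Y ⊗ S.LS)
    (hw : w ≫ Y ◁ S.gN = 0) : ∃ x : Se T j ⟶ Y, x ≫ S.toL Y = w := by
  refine exactN' j w (inj_red (S := S) hp _ _ ?_)
  rwa [Category.assoc, ← MonoidalCategory.whiskerLeft_comp]

theorem LocF.surjN (hL : LocF S) (a : ModStr D.R Y) (hp : (p : ℤ) • 𝟙 Y = 0) (ho : OddZero Y)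
    (hi : Function.Injective (sm a (vA D p 1))) (j : ℤ) (w : Se T j ⟶ Y ⊗ S.N) :
    ∃ x : Se T j ⟶ Y ⊗ S.LS, x ≫ Y ◁ S.gN = w := by
  obtain ⟨y, rfl⟩ := surj_even (distL Y (redTri_distinguished S.W.distM S.N')).choose_spec
    (hL.oddN' a hp ho hi) j w
  obtain ⟨x, rfl⟩ := surjN' ho j y
  exact ⟨x, by rw [TS.gN, MonoidalCategory.whiskerLeft_comp, Category.assoc]⟩

end Vale.Agent.P221X.TC
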