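import Vale.Agent.P221X.TC.E0
import Vale.Agent.P221X.TC.LocL
import Vale.Agent.P221X.TB.Blk

/-!
# P221X, block TOP-C, row QUO, second half: the homotopy of `Le E` (helper24)
-/

open CategoryTheory MonoidalCategory Limits Pretriangulated PowerSeries

set_option linter.all false

universe u

noncomputable section

namespace Vale.Agent.P221X.TC

open Vale.Agent.P251 Vale.Agent.P251.T Vale.Agent.P251.M Vale.Agent.P251.S Vale.Agent.P251.F
  Vale.Agent.P251.I Vale.Agent.P251.X Vale.Agent.P251.Z Vale.Agent.P217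
open Vale.Agent.P251.M.EvenSpheres ProG

namespace QB

/-- extension of an additive map to a localisation -/
theorem ex_lift {A B K : Type} [AddCommGroup A] [AddCommGroup B] [Field K] (s : ℕ → A → A)
    (t : ℕ → B → B) (f : A →+ B) (l : A →+ K) {c : K} (hc : c ≠ 0)
    (t0 : ∀ y, t 0 y = y) (tt : ∀ m n y, t (m + n) y = t m (t n y))
    (ta : ∀ n y y', t n (y + y') = t n y + t n y') (ss : ∀ n x x', s n (x - x') = s n x - s n x')
    (hf : ∀ n x, f (s n x) = t n (f x)) (hl : ∀ n x, l (s n x) = c ^ n * l x)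
    (surj : ∀ y, ∃ n x, t n y = f x) (ker : ∀ x, f x = 0 → ∃ n, s n x = 0) :
    ∃ κ : B →+ K, (∀ x, κ (f x) = l x) ∧ ∀ y, κ (t 1 y) = c * κ y := by
  choose n x hx using surj
  have key : ∀ y m x', t m y = f x' → c⁻¹ ^ n y * l (x y) = c⁻¹ ^ m * l x' := fun y m x' h => by
    obtain ⟨k, hk⟩ := ker (s m (x y) - s (n y) x') (by
      rw [map_sub, hf, hf, ← hx, ← h, ← tt, ← tt, add_comm, sub_self])
    have := hl k (s m (x y) - s (n y) x')
    rw [hk, map_zero, map_sub, hl, hl, eq_comm, mul_eq_zero, sub_eq_zero] at this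
    have := this.resolve_left (pow_ne_zero _ hc)
    rw [inv_pow, inv_pow, inv_mul_eq_iff_eq_mul₀ (pow_ne_zero _ hc), mul_left_comm, ← this,
      inv_mul_cancel_left₀ (pow_ne_zero _ hc)]
  refine ⟨AddMonoidHom.mk' (fun y => c⁻¹ ^ n y * l (x y)) fun y y' => ?_, fun x' => ?_,
    fun y => ?_⟩
  · rw [key (y + y') (n y' + n y) (s (n y') (x y) + s (n y) (x y')) (by
      rw [ta, map_add, hf, hf, ← hx, ← hx, ← tt, ← tt, add_comm (n y)]), map_add, hl, hl]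
    simp only [inv_pow, pow_add]
    field_simp
  · exact (key _ 0 x' (t0 _)).trans (by rw [pow_zero, one_mul])
  · exact (key (t 1 y) (n y) (s 1 (x y)) (by rw [hf, ← hx, ← tt, ← tt, add_comm])).trans
      (by rw [hl, pow_one, mul_left_comm]; rfl)

variable {T : Type u} [Category.{0} T] [Preadditive T] [HasZeroObject T] [HasShift T ℤ]
  [∀ n : ℤ, (shiftFunctor T n).Additive] [Pretriangulated T] [IsTriangulated T]
  [MonoidalCategory T] [SymmetricCategory T] [TensorTriangulated T] [MonoidalClosed T]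
  [HasCoproducts.{0} T] [HasProducts.{0} T] [StableCat T]

section mod

variable {R N N' W : T} [MonObj R] {d j k : ℤ} {a : ModStr R N} {a' : ModStr R N'}
  {v : Se T d ⟶ R} {f : N ⟶ N'}

/-- `S^{2k} ≅ S^{2j} ⊗ S^{2d}` -/
def spl (h : d + j = k) : Se T k ≅ Se T j ⊗ Se T d := ((stdEven T).mu d j k h).symm ≪≫ β_ _ _

theorem gs_eq (h : d + j = k) (x : Se T j ⟶ N) :
    gsmul a h v x = (spl h).hom ≫ x ▷ Se T d ≫ TD.mulR a v := by
  simp only [gsmul, EvenSpheres.ext, spl, TD.mulR, Iso.trans_hom, Iso.symm_hom, Category.assoc,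
    BraidedCategory.braiding_naturality_left_assoc, SymmetricCategory.symmetry_assoc,
    tensorHom_def']

theorem mulR_lin (hf : a.IsLinear a' f) {A : T} (w : A ⟶ R) :
    TD.mulR a w ≫ f = f ▷ A ≫ TD.mulR a' w := by
  have h : a.act ≫ f = R ◁ f ≫ a'.act := hf
  rw [TD.mulR, TD.mulR, BraidedCategory.braiding_naturality_left_assoc, whisker_exchange_assoc,
    Category.assoc, Category.assoc, h]

theorem mulR_L {K A : T} (Λ : LocFunctor K) {w : A ⟶ R}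
    (h : TD.mulR a w ≫ f = f ▷ A ≫ TD.mulR a' w) :
    TD.mulR (Λ.mod a) w ≫ Λ.L.map f = Λ.L.map f ▷ A ≫ TD.mulR (Λ.mod a') w := by
  apply ((Λ.keq N).whiskerRight A).hom_ext (Λ.isLocal N')
  rw [← Category.assoc, ← mulR_lin (Λ.isLinear_u a), Category.assoc, Λ.u_naturality,
    reassoc_of% h, ← comp_whiskerRight_assoc, Λ.u_naturality, comp_whiskerRight_assoc,
    mulR_lin (Λ.isLinear_u a')]

theorem bijW (m : N ⊗ Se T d ⟶ N) [IsIso m] (W : T) :
    Function.Bijective fun x : W ⟶ N => x ▷ Se T d ≫ m :=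
  ⟨fun _ _ h => whiskerRight_inj _ ((cancel_mono m).1 h), fun y =>
    (whiskerRight_surj _ (y ≫ inv m)).imp fun x hx => by simp [hx]⟩

theorem gs_bij [IsIso (TD.mulR a v)] (h : d + j = k) :
    Function.Bijective fun x : Se T j ⟶ N => gsmul a h v x := by
  simp only [gs_eq]
  exact ⟨fun _ _ e => (bijW _ _).1 ((cancel_epi _).1 e), fun y =>
    ((bijW (TD.mulR a v) _).2 ((spl h).inv ≫ y)).imp fun x hx => by simp [hx]⟩

theorem gs_comm (hf : TD.mulR a v ≫ f = f ▷ _ ≫ TD.mulR a' v) (h : d + j = k) (x : Se T j ⟶ N) :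
    gsmul a' h v (x ≫ f) = gsmul a h v x ≫ f := by
  simp [gs_eq, hf]

theorem gs_zero (h : d + j = k) : gsmul a h v (0 : Se T j ⟶ N) = 0 := by
  rw [gsmul, ext_zero_right, zero_comp]

end mod

variable {D : MUData T} {p : ℕ} [Fact p.Prime] {F : Type} [Field F] {S : TS D p F}

/-- induction over the homotopy of a localisation -/
theorem ind (hL : LocF S) {N : T} (a : ModStr D.R N) (hp : (p : ℤ) • 𝟙 N = 0)
    {P : ∀ j, (Se T j ⟶ S.Le.L.obj N) → Prop} (base : ∀ j x, P j (x ≫ S.Le.u N))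
    (step : ∀ j y, P _ (gsmul (S.Le.mod a) rfl (D.vel p 1) y) → P j y) (j : ℤ) (y) : P j y := by
  obtain ⟨n, x, h⟩ := hL.surj N a hp (He.of _ j y)
  induction n generalizing j with
  | zero =>
    have := congrArg (He.cp _ j) h
    rw [pow_zero, one_sm, He.cp_same, He.cp_map] at this
    exact this ▸ base _ _
  | succ n ih => exact step j y (ih _ _ (by rw [← h, pow_succ (vA D p 1), mul_sm, vA, sm_of _ rfl]))

theorem chi_v [CharP F p] : S.χ (vA D p 1) = X := by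
  rw [vA, ← D.vel_spec, ← vv_map, S.law, Qt.FO, P261Z.N.hzn, P261Z.N.hz,
    P257.H80.vv_haz_of_zero p (k := 0) (by
      rw [← map_natCast (C (R := F)), CharP.cast_eq_zero, map_zero]) (by simp)]
  simp [P261Z.N.par]

end QB

open QB

variable {T : Type u} [Category.{0} T] [Preadditive T] [HasZeroObject T] [HasShift T ℤ]
  [∀ n : ℤ, (shiftFunctor T n).Additive] [Pretriangulated T] [IsTriangulated T]
  [MonoidalCategory T] [SymmetricCategory T] [TensorTriangulated T] [MonoidalClosed T]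
  [HasCoproducts.{0} T] [HasProducts.{0} T] [StableCat T]
  {D : MUData T} {p : ℕ} [Fact p.Prime] {F : Type} [Field F]
  [CharP F p] {G G' : Type} [Group G] [ProG G] [MulSemiringAction G F⟦X⟧]
  [MulSemiringAction G (KK F)] [ActK G F] [Group G'] [ProG G'] [MulSemiringAction G' F⟦X⟧]
  [MulSemiringAction G' (KK F)] [ActK G' F] {S : TS D p F} {B : BG p F G G'} {Z : E2 S B}

namespace E0

variable (Y : E0 Z)

theorem i_inj {W : T} {x y : W ⟶ Y.E} (h : x ≫ Y.i = y ≫ Y.i) : x = y := by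
  simpa [Y.i_r] using h =≫ Y.r

theorem pE : (p : ℤ) • 𝟙 Y.E = 0 := by
  simpa [Y.i_r] using Y.i ≫= Z.pE =≫ Y.r

theorem odd : OddZero Y.E := Z.odd.retract Y.i Y.r Y.i_r

theorem v_lam (μ : MG G' F) : TD.mulR Y.mod (D.vel p 1) ≫ Y.lam μ =
    (Y.lam μ : Y.E ⟶ Y.E) ▷ _ ≫ TD.mulR Y.mod (D.vel p 1) := by
  obtain ⟨μ', h, -⟩ := Y.lam_i μ
  apply Y.i_inj
  rw [Category.assoc, Category.assoc, h, ← Category.assoc, mulR_lin Y.i_lin, Category.assoc,
    Z.v_lam, ← comp_whiskerRight_assoc, ← comp_whiskerRight_assoc, h]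

/-- the Bockstein -/
def b : Y.E ⊗ Sph T (-1) ⟶ Y.E := Y.i ▷ Sph T (-1) ≫ Z.β ≫ Y.r

theorem b_lin : (Y.mod.tensorRight (Sph T (-1))).IsLinear Y.mod Y.b := by
  have h1 : Y.mod.act ≫ Y.i = D.R ◁ Y.i ≫ Z.mod.act := Y.i_lin
  have h2 : ((α_ _ _ _).inv ≫ Z.mod.act ▷ _) ≫ Z.β = D.R ◁ Z.β ≫ Z.mod.act := Z.β_lin
  have h3 : Z.mod.act ≫ Y.r = D.R ◁ Y.r ≫ Y.mod.act := Y.r_lin
  change ((α_ _ _ _).inv ≫ Y.mod.act ▷ _) ≫ Y.b = D.R ◁ Y.b ≫ Y.mod.act
  rw [b, Category.assoc, ← comp_whiskerRight_assoc, h1, comp_whiskerRight_assoc,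
    ← associator_inv_naturality_middle_assoc, reassoc_of% h2, h3,
    MonoidalCategory.whiskerLeft_comp_assoc, MonoidalCategory.whiskerLeft_comp_assoc]

theorem b_M (j : ℤ) (y : (S.W.M ⊗ Se T j) ⊗ Sph T (-1) ⟶ Y.E) : ∃ x, x ≫ Y.b = y := by
  obtain ⟨x, hx⟩ := Z.β_M j (y ≫ Y.i)
  have h1 : Y.r ≫ Y.i = -∑ ζ, (Z.lam (Meas.ofG F⟦X⟧ (KO F) (B.c ζ)) : Z.E ⟶ Z.E) := by
    rw [← Y.r_i, sub_smul, one_smul, ← Category.comp_id (Y.r ≫ Y.i), ← Preadditive.comp_zsmul,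
      Z.pE, comp_zero, zero_sub, neg_neg]
  have h2 : (Y.r ≫ Y.i) ▷ Sph T (-1) ≫ Z.β = Z.β ≫ Y.r ≫ Y.i := by
    rw [h1, neg_whiskerRight', sum_whiskerRight, Preadditive.neg_comp, Preadditive.comp_neg,
      Preadditive.sum_comp, Preadditive.comp_sum]
    simp only [Z.β_comm]
  refine ⟨(x ≫ Y.r) ▷ _, ?_⟩
  rw [b, ← comp_whiskerRight_assoc, Category.assoc, comp_whiskerRight_assoc, reassoc_of% h2,
    Y.i_r, Category.comp_id, reassoc_of% (show x ▷ _ ≫ Z.β = _ from hx), Y.i_r, Category.comp_id]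

variable (hL : LocF S)
include hL

theorem even_van (j : ℤ) (y : Se T j ⟶ S.Le.L.obj Y.E) : ¬ ((p : ℤ) - 1) ∣ j → y = 0 := by
  have := (hL.inv _ Y.mod Y.pE).1
  refine ind hL Y.mod Y.pE (P := fun j y => ¬ ((p : ℤ) - 1) ∣ j → y = 0) (fun j x h => ?_)
    (fun j y ih h => ?_) j y
  · have : (seI T j).inv ≫ x = 0 := Y.πE_van _ (fun e => h
      (Int.dvd_of_mul_dvd_mul_left two_ne_zero (by rwa [mul_sub, mul_one]))) _
    rw [(Iso.inv_comp_eq _).1 this, comp_zero, zero_comp]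
  · exact (gs_bij rfl).1 ((ih fun e => h ((dvd_add_right (by simp)).1 e)).trans (gs_zero _).symm)

theorem πV_van (n : ℤ) (hn : ¬ (2 * p - 2 : ℤ) ∣ n) (x : Sph T n ⟶ S.Le.L.obj Y.E) : x = 0 := by
  obtain ⟨j, rfl | rfl⟩ := Int.even_or_odd' n
  · rw [← cancel_epi (seI T j).hom, comp_zero]
    exact Y.even_van hL j _ fun e => hn (by simpa [mul_sub] using mul_dvd_mul_left 2 e)
  · exact hL.odd _ Y.mod Y.pE Y.odd _ ⟨j, rfl⟩ x

theorem b_L (j : ℤ) (y : Se T j ⟶ S.Le.L.obj Y.E) : ∀ (W : T) (t : W ⟶ Se T j),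
    (∃ k, Nonempty (W ≅ (S.W.M ⊗ Se T k) ⊗ Sph T (-1))) → ∃ x, x ≫ S.Le.L.map Y.b = t ≫ y := by
  have := (hL.inv _ Y.mod Y.pE).1
  have := (hL.inv _ (Y.mod.tensorRight (Sph T (-1))) (p_tensor Y.pE _)).1
  refine ind hL Y.mod Y.pE (P := fun j y => ∀ (W : T) (t : W ⟶ Se T j),
    (∃ k, Nonempty (W ≅ (S.W.M ⊗ Se T k) ⊗ Sph T (-1))) → ∃ x, x ≫ S.Le.L.map Y.b = t ≫ y)
    ?_ ?_ j y
  · rintro j x W t ⟨k, ⟨e⟩⟩
    obtain ⟨z, hz⟩ := Y.b_M k (e.inv ≫ t ≫ x)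
    exact ⟨e.hom ≫ z ≫ S.Le.u _, by simp [reassoc_of% hz]⟩
  · rintro j y ih W t ⟨k, ⟨e⟩⟩
    obtain ⟨z, hz⟩ := ih _ (t ▷ _ ≫ (spl rfl).inv) ⟨_, ⟨whiskerRightIso e _ ≪≫ α_ _ _ _ ≪≫
      whiskerLeftIso _ (β_ _ _) ≪≫ (α_ _ _ _).symm ≪≫
        whiskerRightIso (α_ _ _ _ ≪≫ whiskerLeftIso _ (spl rfl).symm) _⟩⟩
    obtain ⟨x, rfl⟩ := (bijW (TD.mulR (S.Le.mod (Y.mod.tensorRight (Sph T (-1)))) (D.vel p 1))
      W).2 z
    refine ⟨x, (bijW (TD.mulR (S.Le.mod Y.mod) (D.vel p 1)) W).1 ?_⟩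
    simpa [gs_eq, mulR_lin (S.Le.isLinear_map _ Y.b_lin)] using hz

theorem β_M (a : ℤ) : Function.Surjective
    fun x : S.W.M⟦(2 * p - 2 : ℤ) * a⟧ ⟶ S.Le.L.obj Y.E => x ≫ S.Le.L.map Y.β := fun y => by
  obtain ⟨e, he⟩ := Y.β_i
  obtain ⟨j, hj⟩ : ∃ j : ℤ, 2 * j - 1 + 1 = (2 * p - 2) * a := ⟨(p - 1) * a, by ring⟩
  let c := (shiftFunctorAdd' T _ 1 _ hj).app S.W.M
  obtain ⟨y, rfl⟩ := (TB.shL c S.Le Y.E).surjective y
  obtain ⟨w, hw⟩ := exists_dist_shift S.W.distM (2 * j - 1)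
  obtain ⟨g, rfl⟩ : ∃ g, y = w ≫ g := Triangle.yoneda_exact₃ _ hw y
    (hL.odd _ Y.mod Y.pE Y.odd _ ⟨j - 1, by ring⟩ _)
  let s := seI T j ≪≫ TB.sphI (sub_add_cancel (2 * j) 1)
  obtain ⟨x, hx⟩ := Y.b_L hL j (s.hom ≫ g) _ (w ≫ s.inv) ⟨j, ⟨(tensorSph (-1) _ ≪≫
    (shiftFunctor T (-1 : ℤ)).mapIso (((stdEven T).shiftNat (Iso.refl _) j).app S.W.M) ≪≫
      ((shiftFunctorAdd' T (2 * j) (-1) _ (sub_eq_add_neg _ _).symm).app S.W.M).symm).symm⟩⟩
  refine ⟨TB.shL c S.Le _ x ≫ S.Le.L.map e.inv, ?_⟩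
  rw [Category.assoc, Iso.inv_hom_id_assoc] at hx
  simp only [he, ← hx, TB.shL_map, Category.assoc, ← Functor.map_comp, Iso.inv_hom_id_assoc, b]

theorem ex_kap : ∃ κ : He (S.Le.L.obj Y.E) →+ KK F,
    (∀ j (x : Se T j ⟶ Y.E), κ (He.of _ j (x ≫ S.Le.u Y.E)) =
      algebraMap F⟦X⟧ (KK F) (Z.pe j (x ≫ Y.i))) ∧
    ∀ j k (h : _ + j = k) y, κ (He.of _ k (gsmul (S.Le.mod Y.mod) h (D.vel p 1) y)) =
      KK.uz 1 * κ (He.of _ j y) := by
  let l : He Y.E →+ KK F := DirectSum.toAddMonoid fun j => AddMonoidHom.mk'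
    (fun x : Se T j ⟶ Y.E => algebraMap F⟦X⟧ (KK F) (Z.pe j (x ≫ Y.i))) fun x y => by
      rw [Preadditive.add_comp, map_add, map_add]
  have l0 : ∀ j x, l (He.of _ j x) = algebraMap F⟦X⟧ (KK F) (Z.pe j (x ≫ Y.i)) := fun j x =>
    DirectSum.toAddMonoid_of (β := (stdEven T).Gr Y.E) _ j x
  have l1 : ∀ x, l (sm Y.mod (vA D p 1) x) = KK.uz 1 * l x := fun x => by
    induction x using He.ind with
    | zero => rw [sm_zero, map_zero, mul_zero]
    | of j x =>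
      rw [vA, sm_of _ rfl, l0, l0, ← gsmul_comp _ _ Y.i_lin, Z.pe_mod, map_mul, ← vA, chi_v,
        KK.algebraMap_X]
    | add x y hx hy => rw [sm_add, map_add, map_add, hx, hy, mul_add]
  obtain ⟨κ, h1, h2⟩ := ex_lift (fun n => sm Y.mod (vA D p 1 ^ n))
    (fun n => sm (S.Le.mod Y.mod) (vA D p 1 ^ n)) (He.map (S.Le.u Y.E)) l (DEP.uz_ne 1)
    (fun y => by rw [pow_zero, one_sm]) (fun m n y => by rw [pow_add, mul_sm])
    (fun n => sm_add _ _) (fun n => sm_sub _ _) (fun n => map_sm _ _ (S.Le.isLinear_u _) _)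
    (fun n x => by
      induction n with
      | zero => rw [pow_zero, one_sm, pow_zero, one_mul]
      | succ n ih => rw [pow_succ', mul_sm, l1, ih, pow_succ', mul_assoc])
    (hL.surj _ Y.mod Y.pE) (hL.ker _ Y.mod Y.pE)
  exact ⟨κ, fun j x => by rw [← He.map_of, h1, l0], fun j k h y => by
    rw [← h2, pow_one (vA D p 1), vA, sm_of _ h]⟩

include Y in
/-- **The second half of the row QUO.** -/
theorem toE1 : Nonempty (E1 Z) := by
  obtain ⟨κ, k1, k2⟩ := Y.ex_kap hL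
  have := (hL.inv _ Y.mod Y.pE).1
  have hd : ∀ a : ℤ, (p : ℤ) ^ 1 - 1 + (p - 1) * a = (p - 1) * (a + 1) := fun a => by ring
  have kv : ∀ (a : ℤ) h y, KK.uz (-(a + 1)) * κ (He.of _ (((p : ℤ) - 1) * (a + 1))
      (gsmul (S.Le.mod Y.mod) h (D.vel p 1) y)) =
        KK.uz (-a) * κ (He.of _ (((p : ℤ) - 1) * a) y) := fun a h y => by
    rw [k2, ← mul_assoc, ← KK.uz_add, neg_add', sub_add_cancel]
  have inj : ∀ j y, κ (He.of _ j y) = 0 → y = 0 := ind hL Y.mod Y.pE (fun j x h => by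
    rw [k1, map_eq_zero_iff _ (IsFractionRing.injective _ _), AddEquiv.map_eq_zero_iff] at h
    rw [Y.i_inj (h.trans zero_comp.symm), zero_comp]) fun j y ih h =>
      (gs_bij rfl).1 ((ih (by rw [k2, h, mul_zero])).trans (gs_zero _).symm)
  have sur : ∀ (n : ℕ) (a : ℤ) (f : F⟦X⟧), ∃ y, KK.uz (-a) * κ (He.of _ (((p : ℤ) - 1) * a) y) =
      KK.uz (-(a + n)) * algebraMap F⟦X⟧ (KK F) f := fun n => by
    induction n with
    | zero =>
      intro a f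
      obtain ⟨x, hx⟩ := (Y.pi_i a).2 ((Z.pe _).symm f)
      exact ⟨x ≫ S.Le.u _, by rw [k1, show x ≫ Y.i = _ from hx]; simp⟩
    | succ n ih =>
      intro a f
      obtain ⟨y, hy⟩ := ih (a + 1) f
      obtain ⟨y, rfl⟩ := (gs_bij (a := S.Le.mod Y.mod) (v := D.vel p 1) (hd a)).2 y
      exact ⟨y, by rw [← kv a (hd a), hy, Nat.cast_succ, add_assoc, add_comm 1]⟩
  have bij : ∀ a : ℤ, Function.Bijective (((AddMonoidHom.mulLeft (KK.uz (-a))).comp κ).comp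
      (He.of _ (((p : ℤ) - 1) * a))) := fun a =>
    ⟨(injective_iff_map_eq_zero _).2 fun y h => inj _ y ((mul_eq_zero.1 h).resolve_left
      (DEP.uz_ne _)), fun z => by
      obtain ⟨m, hm⟩ := KK.exists_ge z
      obtain ⟨f, rfl⟩ := DEP.exists_ps (KK.ge_mono (m := -(a + (-m - a).toNat)) (by omega) hm)
      exact sur _ a f⟩
  have lam : ∀ (μ : MG G' F) j y (a : ℤ), j = (p - 1) * a →
      KK.uz (-a) * κ (He.of _ j (y ≫ S.Le.L.map (Y.lam μ))) =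
        Meas.actK μ (KK.uz (-a) * κ (He.of _ j y)) := fun μ => by
    refine ind hL Y.mod Y.pE ?_ ?_
    · rintro _ x a rfl
      obtain ⟨μ', h, h'⟩ := Y.lam_i μ
      rw [Category.assoc, S.Le.u_naturality, ← Category.assoc, k1, k1, Category.assoc, h,
        ← Category.assoc, Z.pe_lam, h']
    · rintro _ y ih a rfl
      have := ih (a + 1) (hd a)
      rwa [← gs_comm (mulR_L S.Le (Y.v_lam μ)), k2, k2, ← mul_assoc, ← mul_assoc, ← KK.uz_add,
        neg_add', sub_add_cancel] at this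
  exact ⟨{ Y with
    ke := fun a => AddEquiv.ofBijective _ (bij a)
    ke_lam := fun a x μ => lam μ _ x a rfl
    ke_u := fun a x => congrArg (KK.uz (-a) * ·) (k1 _ x)
    ke_v := kv
    πV_van := Y.πV_van hL
    β_M := Y.β_M hL }⟩

end E0

/-- The row QUO from its first half. -/
theorem rowQUO_of (h : LocF S → ∀ Z : E2 S B, Nonempty (E0 Z)) : RowQUO S B :=
  fun hL Z => (h hL Z).elim fun Y => Y.toE1 hL

end Vale.Agent.P221X.TC

end
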