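import Vale.Agent.P221X.TC.QuoA
import Vale.Agent.P221X.TC.QuoB
import Vale.Agent.P251.X.Split

/-!
# P221X, row QUO: the summand of the two-periodic object
-/

open CategoryTheory MonoidalCategory Limits Pretriangulated PowerSeries

set_option linter.unusedSectionVars false

universe u

noncomputable section

namespace Vale.Agent.P221X.TC

open Vale.Agent.P251 Vale.Agent.P251.T Vale.Agent.P251.M Vale.Agent.P251.S Vale.Agent.P251.F
  Vale.Agent.P251.I Vale.Agent.P217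
open Vale.Agent.P251.M.EvenSpheres ProG

variable {T : Type u} [Category.{0} T] [Preadditive T] [HasZeroObject T] [HasShift T ℤ]
  [∀ n : ℤ, (shiftFunctor T n).Additive] [Pretriangulated T] [IsTriangulated T]
  [MonoidalCategory T] [SymmetricCategory T] [TensorTriangulated T] [MonoidalClosed T]
  [HasCoproducts.{0} T] [HasProducts.{0} T] [StableCat T]
  {D : MUData T} {p : ℕ} [hp : Fact p.Prime] {F : Type} [Field F] [CharP F p] {G G' : Type}
  [Group G] [ProG G] [MulSemiringAction G F⟦X⟧] [MulSemiringAction G (KK F)] [ActK G F] [Group G']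
  [ProG G'] [MulSemiringAction G' F⟦X⟧] [MulSemiringAction G' (KK F)] [ActK G' F]
  {S : TS D p F} {B : BG p F G G'}

/-- `Y ⊗ S^{2j} ≅ Y⟦2j⟧` -/
def shE (T : Type u) [Category.{0} T] [Preadditive T] [HasZeroObject T] [HasShift T ℤ]
    [∀ n : ℤ, (shiftFunctor T n).Additive] [Pretriangulated T] [MonoidalCategory T]
    [SymmetricCategory T] [TensorTriangulated T] {j n : ℤ} (h : 2 * j = n) :
    tensorRight (Se T j) ≅ shiftFunctor T n :=
  (stdEven T).shiftNat (Iso.refl _) j ≪≫ eqToIso (congrArg _ h)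

/-- `Y ≅ (Y ⊗ S⁻¹)⟦1⟧` -/
def tauS (Y : T) : Y ≅ (Y ⊗ Sph T (-1))⟦(1 : ℤ)⟧ :=
  ((shiftFunctorCompIsoId T (-1 : ℤ) 1 (by norm_num)).app Y).symm ≪≫
    (shiftFunctor T (1 : ℤ)).mapIso (tensorSph (-1) Y).symm

@[reassoc]
theorem tauS_nat {Y Z : T} (f : Y ⟶ Z) :
    f ≫ (tauS Z).hom = (tauS Y).hom ≫ (f ▷ Sph T (-1))⟦(1 : ℤ)⟧' := by
  have h1 := (shiftFunctorCompIsoId T (-1 : ℤ) 1 (by norm_num)).inv.naturality f
  have h2 : f⟦(-1 : ℤ)⟧' ≫ (tensorSph (-1) Z).inv = (tensorSph (-1) Y).inv ≫ f ▷ Sph T (-1) := by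
    rw [Iso.comp_inv_eq, Category.assoc, tensorSph_naturality, Iso.inv_hom_id_assoc]
  simp only [Functor.id_map, Functor.comp_map] at h1
  simp only [tauS, Iso.trans_hom, Iso.symm_hom, Iso.app_inv, Functor.mapIso_hom, Category.assoc]
  rw [← Functor.map_comp, ← h2, Functor.map_comp, reassoc_of% h1]

theorem tau_bij (Y Z : T) : Function.Bijective
    fun y : Y ⊗ Sph T (-1) ⟶ Z => (tauS Y).hom ≫ y⟦(1 : ℤ)⟧' :=
  ((tauS Y).homCongr (Iso.refl _)).symm.bijective.comp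
    (Functor.FullyFaithful.ofFullyFaithful (shiftFunctor T (1 : ℤ))).homEquiv.bijective |>.imp
    (fun h a b e => h (by simpa [Iso.homCongr] using e))
    fun h y => (h y).imp fun x e => by simpa [Iso.homCongr] using e

namespace E2

variable (X : E2 S B)

/-- the action of the measures -/
def l : MG G F →+ (X.E ⟶ X.E) := X.lam.toAddMonoidHom

theorem l_mul (μ ν : MG G F) : X.l (μ * ν) = X.l ν ≫ X.l μ := map_mul X.lam μ ν

theorem l_one : X.l 1 = 𝟙 _ := map_one X.lam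

theorem l_comm (μ : MG G F) : X.l B.eps ≫ X.l μ = X.l μ ≫ X.l B.eps := by
  rw [← l_mul, ← l_mul, B.eps_comm]

theorem eps_nat (Φ : T ⥤ T) [Φ.Additive] {w : Φ.obj X.E ⟶ X.E}
    (h : ∀ ζ, Φ.map (X.l (B.dc ζ)) ≫ w = w ≫ X.l (B.dc ζ)) :
    Φ.map (X.l B.eps) ≫ w = w ≫ X.l B.eps := by
  simp only [BG.eps, map_neg, map_sum, Functor.map_neg, Functor.map_sum, Preadditive.neg_comp,
    Preadditive.comp_neg, Preadditive.sum_comp, Preadditive.comp_sum, h]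

theorem g_per (j : ℤ) (g : G) : X.l (Meas.ofG F⟦X⟧ (KO F) g) ▷ _ ≫ (X.per j).hom = (X.per j).hom ≫
    X.l (Meas.ofO G (KO F) ((B.a g ^ j : F⟦X⟧ˣ) : F⟦X⟧) * Meas.ofG F⟦X⟧ (KO F) g) := by
  have h1 : (X.per j).hom ≫ X.l _ = X.l _ ▷ _ ≫ _ := X.per_g j g
  have h2 : ∀ f, (X.per j).hom ≫ X.l _ = X.l _ ▷ _ ≫ _ := X.per_o j
  rw [l_mul, reassoc_of% h1, h2, ← comp_whiskerRight_assoc, ← l_mul, ← mul_assoc, ← map_mul,
    ← Units.val_mul, ← zpow_add, add_neg_cancel, zpow_zero, Units.val_one, map_one, one_mul]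

theorem c_per {j : ℤ} (h : (p : ℤ) - 1 ∣ j) (ζ : (ZMod p)ˣ) :
    X.l (B.dc ζ) ▷ _ ≫ (X.per j).hom = (X.per j).hom ≫ X.l (B.dc ζ) := by
  rw [g_per, B.a_c_of_dvd ζ h, Units.val_one, map_one, one_mul]

theorem β_l (μ : MG G F) : X.l μ ▷ _ ≫ X.β = X.β ≫ X.l μ := X.β_comm μ

theorem pe_c (j : ℤ) (x : Se T j ⟶ X.E) (ζ : (ZMod p)ˣ) :
    X.pe j (x ≫ X.l (B.dc ζ)) = ((B.a (B.c ζ) ^ (-j) : F⟦X⟧ˣ) : F⟦X⟧) * X.pe j x :=
  (X.pe_g j x _).trans (by rw [B.c_O])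

theorem comp_eps {A : T} {x : A ⟶ X.E} (h : ∀ ζ, x ≫ X.l (B.dc ζ) = x) : x ≫ X.l B.eps = x := by
  simp only [BG.eps, map_neg, map_sum, Preadditive.comp_neg, Preadditive.comp_sum, h]
  refine neg_sum_const ?_
  rw [← natCast_zsmul, ← Category.comp_id x, ← Preadditive.comp_zsmul, X.pE, comp_zero]

end E2

/-- a splitting of the idempotent -/
structure Sp (X : E2 S B) where
  E : T
  i : E ⟶ X.E
  r : X.E ⟶ E
  i_r : i ≫ r = 𝟙 E
  r_i : r ≫ i = X.l B.eps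

attribute [reassoc] Sp.i_r Sp.r_i

theorem exists_sp (X : E2 S B) : Nonempty (Sp X) :=
  have ⟨E, i, r, a, b⟩ := P251.X.exists_split (X.l B.eps) (by rw [← X.l_mul, B.eps_eps])
  ⟨⟨E, i, r, a, b⟩⟩

namespace Sp

variable {X : E2 S B} (P : Sp X)

@[reassoc] theorem i_eps : P.i ≫ X.l B.eps = P.i := by rw [← P.r_i, P.i_r_assoc]

@[reassoc] theorem eps_r : X.l B.eps ≫ P.r = P.r := by
  rw [← P.r_i, Category.assoc, P.i_r, Category.comp_id]

theorem i_dc (ζ : (ZMod p)ˣ) : P.i ≫ X.l (B.dc ζ) = P.i := by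
  rw [← P.i_eps, Category.assoc, ← X.l_mul, B.dc_eps]

theorem dc_r (ζ : (ZMod p)ˣ) : X.l (B.dc ζ) ≫ P.r = P.r := by
  rw [← P.eps_r, ← Category.assoc, ← X.l_mul, ← B.dc_comm, B.dc_eps]

theorem pE : (p : ℤ) • 𝟙 P.E = 0 := by
  rw [← P.i_r, ← Category.id_comp P.r, ← Preadditive.comp_zsmul, ← Preadditive.zsmul_comp, X.pE,
    zero_comp, comp_zero]

/-- the action of the measures on `G` -/
def k (μ : MG G F) : P.E ⟶ P.E := P.i ≫ X.l μ ≫ P.r

@[reassoc] theorem k_i (μ : MG G F) : P.k μ ≫ P.i = P.i ≫ X.l μ := by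
  rw [k, Category.assoc, Category.assoc, P.r_i, ← X.l_comm, P.i_eps_assoc]

@[reassoc] theorem r_k (μ : MG G F) : P.r ≫ P.k μ = X.l μ ≫ P.r := by
  rw [k, P.r_i_assoc, ← Category.assoc, X.l_comm, Category.assoc, P.eps_r]

/-- the action as a ring homomorphism -/
def kap : MG G F →+* End P.E where
  toFun := P.k
  map_one' := by rw [k, X.l_one, Category.id_comp]; exact P.i_r
  map_mul' μ ν := by
    change P.k (μ * ν) = P.k ν ≫ P.i ≫ _
    rw [k_i_assoc, k, X.l_mul, Category.assoc]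
  map_zero' := by rw [k, map_zero, zero_comp, comp_zero]
  map_add' μ ν := by rw [k, map_add, Preadditive.add_comp, Preadditive.comp_add]; rfl

/-- the action of the measures on `G'` -/
def lam : MG G' F →+* End P.E := B.pf.liftOfSurjective B.pf_surj ⟨P.kap, fun μ h => by
  change P.i ≫ X.l μ ≫ P.r = 0
  rw [← P.i_eps, Category.assoc, ← Category.assoc (X.l _), ← X.l_mul, B.pf_ker h, map_zero,
    zero_comp, comp_zero]⟩

theorem lam_pf (μ : MG G F) : (P.lam (B.pf μ) : P.E ⟶ P.E) = P.k μ :=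
  B.pf.liftOfRightInverse_comp_apply _ _ _ μ

section Phi

variable (Φ : T ⥤ T) {w : Φ.obj X.E ⟶ X.E} (hw : Function.Bijective fun μ => w ≫ X.l μ)
include hw

theorem van_aux {ζ : (ZMod p)ˣ} {a : F⟦X⟧} (ha : IsUnit (a - 1))
    (h : Φ.map (X.l (B.dc ζ)) ≫ w = w ≫ X.l (Meas.ofO G (KO F) a * B.dc ζ))
    (x : Φ.obj P.E ⟶ P.E) : x = 0 := by
  obtain ⟨μ, e⟩ := hw.2 (Φ.map P.r ≫ x ≫ P.i)
  have e' : w ≫ X.l μ = _ := e
  have h1 : B.dc ζ * μ = μ := hw.1 (by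
    change w ≫ _ = w ≫ _
    rw [X.l_mul, reassoc_of% e', P.i_dc, e'])
  have h2 : μ * (Meas.ofO G (KO F) a * B.dc ζ) = μ := hw.1 (by
    change w ≫ _ = w ≫ _
    rw [X.l_mul, ← reassoc_of% h, e', ← Φ.map_comp_assoc, P.dc_r])
  rw [← B.dc_comm, ← mul_assoc, ← B.dc_comm, h1] at h2
  have h3 : μ = 0 := (ha.map (Meas.ofO G (KO F))).mul_left_eq_zero.1 (by
    rw [map_sub, map_one, mul_sub, mul_one, h2, sub_self])
  have h4 := congrArg (fun y => Φ.map P.i ≫ y ≫ P.r) e'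
  simpa only [h3, map_zero, comp_zero, zero_comp, Category.assoc, ← Φ.map_comp_assoc, P.i_r,
    Φ.map_id, Category.id_comp, Category.comp_id] using h4.symm

theorem bij_aux (h : Φ.map (X.l B.eps) ≫ w = w ≫ X.l B.eps) :
    Function.Bijective fun ν => ((Φ.map P.i ≫ w ≫ P.r) ≫ P.lam ν : Φ.obj P.E ⟶ P.E) := by
  have e : ∀ μ, (Φ.map P.i ≫ w ≫ P.r) ≫ P.lam (B.pf μ) = Φ.map P.i ≫ w ≫ X.l μ ≫ P.r :=
    fun μ => by rw [lam_pf, Category.assoc, Category.assoc, r_k]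
  refine ⟨fun ν ν' a => ?_, fun x => ?_⟩
  · obtain ⟨μ, rfl⟩ := B.pf_surj ν
    obtain ⟨μ', rfl⟩ := B.pf_surj ν'
    have b := congrArg (fun y => Φ.map P.r ≫ y ≫ P.i) ((e μ).symm.trans (a.trans (e μ')))
    simp only [Category.assoc, ← Φ.map_comp_assoc, P.r_i, reassoc_of% h, ← X.l_mul] at b
    simpa only [map_mul, B.pf_eps, one_mul, mul_one] using congrArg B.pf (hw.1 b)
  · obtain ⟨μ, b⟩ := hw.2 (Φ.map P.r ≫ x ≫ P.i)
    have b' : w ≫ X.l μ = _ := b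
    refine ⟨B.pf μ, (e μ).trans ?_⟩
    rw [reassoc_of% b', ← Φ.map_comp_assoc, P.i_r, Φ.map_id, Category.id_comp, Category.comp_id]

end Phi

theorem lam_bij : Function.Bijective P.lam := by
  simpa only [Functor.id_obj, Functor.id_map, Category.id_comp, P.i_r] using
    P.bij_aux (𝟭 T) (w := 𝟙 _) (by simp only [Category.id_comp]; exact X.lam_bij) (by simp)

theorem eps_act : D.R ◁ X.l B.eps ≫ X.mod.act = X.mod.act ≫ X.l B.eps :=
  X.eps_nat (tensorLeft D.R) fun ζ => (X.c_lin ζ).symm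

/-- the module structure -/
def mod : ModStr D.R P.E where
  act := D.R ◁ P.i ≫ X.mod.act ≫ P.r
  one_act := by
    rw [← whisker_exchange_assoc, reassoc_of% X.mod.one_act, leftUnitor_naturality_assoc, P.i_r,
      Category.comp_id]
  mul_act := by
    rw [← whisker_exchange_assoc, reassoc_of% X.mod.mul_act, ← whiskerLeft_comp_assoc,
      Category.assoc, Category.assoc, P.r_i, whiskerLeft_comp, whiskerLeft_comp, Category.assoc,
      Category.assoc, reassoc_of% eps_act, P.eps_r, associator_naturality_right_assoc]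

theorem i_lin : P.mod.IsLinear X.mod P.i := by
  change (_ ≫ _ ≫ _) ≫ _ = _
  rw [Category.assoc, Category.assoc, P.r_i, ← eps_act, ← whiskerLeft_comp_assoc, P.i_eps]

theorem r_lin : X.mod.IsLinear P.mod P.r := by
  change _ = _ ≫ _ ≫ _ ≫ _
  rw [← whiskerLeft_comp_assoc, P.r_i, reassoc_of% eps_act, P.eps_r]

theorem per_bij (j : ℤ) : Function.Bijective fun μ => (X.per j).hom ≫ X.l μ :=
  ⟨fun _ _ h => X.lam_bij.1 ((cancel_epi _).1 h), fun y =>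
    (X.lam_bij.2 ((X.per j).inv ≫ y)).imp fun _ e => (Iso.eq_inv_comp _).1 e⟩

theorem van (n : ℤ) (h : ¬ (2 * p - 2 : ℤ) ∣ n) (h' : ¬ (2 * p - 2 : ℤ) ∣ n + 1)
    (x : P.E⟦n⟧ ⟶ P.E) : x = 0 := by
  have e : ∀ j : ℤ, ¬ (2 * p - 2 : ℤ) ∣ 2 * j → ¬ (p : ℤ) - 1 ∣ j := fun j a ⟨c, b⟩ =>
    a ⟨c, by rw [b]; ring⟩
  obtain ⟨j, rfl | rfl⟩ := (n + 1).even_or_odd'.imp fun j a =>
    a.imp (fun a : n + 1 = 2 * j => eq_sub_of_add_eq a) (fun a => add_right_cancel a)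
  · obtain ⟨ζ, a⟩ := B.exists_unit (e j (by rwa [sub_add_cancel] at h'))
    have b := P.van_aux (tensorRight (Se T j) ⋙ tensorRight (Sph T (-1)))
      (w := (X.per j).hom ▷ _ ≫ X.β) (ζ := ζ) ⟨fun μ ν a => X.β_bij.1 (by
        change X.β ≫ X.l μ = X.β ≫ X.l ν
        simpa only [Category.assoc, cancel_epi] using a), fun y =>
          (X.β_bij.2 ((X.per j).inv ▷ _ ≫ y)).imp fun μ (a : X.β ≫ X.l μ = _) => by
            simp [a]⟩ a (by
      change (_ ▷ _) ▷ _ ≫ _ = _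
      rw [← comp_whiskerRight_assoc, X.g_per, comp_whiskerRight_assoc, X.β_l, Category.assoc])
    let ι : (P.E ⊗ Se T j) ⊗ Sph T (-1) ≅ P.E⟦2 * j - 1⟧ := tensorSph _ _ ≪≫
      (shiftFunctor T (-1 : ℤ)).mapIso ((shE T rfl).app P.E) ≪≫
        ((shiftFunctorAdd' T (2 * j) (-1) _ (by ring)).app _).symm
    exact (cancel_epi ι.hom).1 ((b _).trans comp_zero.symm)
  · obtain ⟨ζ, a⟩ := B.exists_unit (e j h)
    exact (cancel_epi ((shE T rfl).app P.E).hom).1 ((P.van_aux (tensorRight (Se T j))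
      (per_bij j) a (X.g_per j _) _).trans comp_zero.symm)

theorem eps_per : X.l B.eps ▷ _ ≫ (X.per (p - 1)).hom = (X.per (p - 1)).hom ≫ X.l B.eps :=
  X.eps_nat (tensorRight _) (X.c_per dvd_rfl)

/-- the periodicity -/
def per0 : P.E ⊗ Se T (p - 1) ≅ P.E where
  hom := P.i ▷ _ ≫ (X.per _).hom ≫ P.r
  inv := P.i ≫ (X.per _).inv ≫ P.r ▷ _
  hom_inv_id := by
    simp only [Category.assoc]
    rw [P.r_i_assoc, ← reassoc_of% eps_per, Iso.hom_inv_id_assoc, ← comp_whiskerRight,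
      ← comp_whiskerRight, P.eps_r, P.i_r, id_whiskerRight]
  inv_hom_id := by
    simp only [Category.assoc]
    rw [← comp_whiskerRight_assoc, P.r_i, reassoc_of% eps_per, Iso.inv_hom_id_assoc, P.eps_r,
      P.i_r]

theorem per0_k {μ : MG G F} (h : X.l μ ▷ _ ≫ (X.per (p - 1)).hom = (X.per (p - 1)).hom ≫ X.l μ) :
    P.per0.hom ≫ P.k μ = P.k μ ▷ _ ≫ P.per0.hom := by
  simp only [per0, Category.assoc]
  rw [r_k, ← comp_whiskerRight_assoc, k_i, comp_whiskerRight_assoc, reassoc_of% h]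

/-- the periodicity -/
def per : P.E⟦(2 * p - 2 : ℤ)⟧ ≅ P.E := ((shE T (by ring)).app P.E).symm ≪≫ P.per0

theorem per_tt : P.per.hom ≫ P.lam (Meas.ofG F⟦X⟧ (KO F) (B.π B.ψ) - 1) =
    (P.lam (Meas.ofG F⟦X⟧ (KO F) (B.π B.ψ) - 1))⟦(2 * p - 2 : ℤ)⟧' ≫ P.per.hom := by
  rw [← B.pf_g, ← map_one B.pf, ← map_sub, lam_pf, per, Iso.trans_hom, Category.assoc, per0_k,
    ← Category.assoc, ← Category.assoc]
  · exact congrArg (· ≫ _) ((shE T (by ring : 2 * ((p : ℤ) - 1) = 2 * p - 2)).inv.naturality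
      (P.k _)).symm
  · have h : ∀ f g : X.E ⟶ X.E, (f - g) ▷ Se T (p - 1) = f ▷ _ - g ▷ _ := fun f g =>
      (tensorRight _).map_sub
    rw [map_sub, h, Preadditive.sub_comp, Preadditive.comp_sub, X.g_per, B.a_ψ, one_zpow,
      Units.val_one, map_one, one_mul, X.l_one, id_whiskerRight, Category.id_comp, Category.comp_id]

/-- the Bockstein operation -/
def β0 : P.E ⊗ Sph T (-1) ⟶ P.E := P.i ▷ _ ≫ X.β ≫ P.r

theorem k_β0 (μ : MG G F) : P.k μ ▷ _ ≫ P.β0 = P.β0 ≫ P.k μ := by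
  simp only [β0, Category.assoc]
  rw [r_k, ← comp_whiskerRight_assoc, k_i, comp_whiskerRight_assoc, reassoc_of% X.β_l]

/-- the Bockstein operation -/
def β : P.E ⟶ P.E⟦(1 : ℤ)⟧ := (tauS P.E).hom ≫ P.β0⟦(1 : ℤ)⟧'

theorem lam_β (ν : MG G' F) :
    P.lam ν ≫ P.β = (tauS P.E).hom ≫ (P.β0 ≫ P.lam ν)⟦(1 : ℤ)⟧' := by
  obtain ⟨μ, rfl⟩ := B.pf_surj ν
  rw [lam_pf, β, tauS_nat_assoc, ← Functor.map_comp, k_β0]

theorem β_comm (ν : MG G' F) : P.lam ν ≫ P.β = P.β ≫ (P.lam ν)⟦(1 : ℤ)⟧' := by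
  rw [lam_β, β, Functor.map_comp, Category.assoc]

theorem β_bij : Function.Bijective fun ν => (P.lam ν ≫ P.β : P.E ⟶ P.E⟦(1 : ℤ)⟧) := by
  simp only [lam_β]
  exact (tau_bij _ _).comp (P.bij_aux (tensorRight _) X.β_bij (X.β_l _))

theorem i_inj {A : T} : Function.Injective fun x : A ⟶ P.E => x ≫ P.i := fun x y h => by
  simpa only [Category.assoc, P.i_r, Category.comp_id] using congrArg (· ≫ P.r) h

theorem pi_i {j : ℤ} (h : (p : ℤ) - 1 ∣ j) :
    Function.Bijective fun x : Se T j ⟶ P.E => x ≫ P.i :=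
  ⟨P.i_inj, fun y => ⟨y ≫ P.r, by
    change (_ ≫ _) ≫ _ = _
    rw [Category.assoc, P.r_i]
    refine X.comp_eps fun ζ => (X.pe j).injective ?_
    rw [X.pe_c, B.a_c_of_dvd ζ h.neg_right, Units.val_one, one_mul]⟩⟩

theorem pi_van {j : ℤ} (h : ¬ (p : ℤ) - 1 ∣ j) (x : Se T j ⟶ P.E) : x = 0 := by
  obtain ⟨ζ, a⟩ := B.exists_unit (mt dvd_neg.1 h)
  have b := X.pe_c j (x ≫ P.i) ζ
  rw [Category.assoc, P.i_dc] at b
  refine P.i_inj ((X.pe j).injective ?_)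
  change X.pe j (x ≫ P.i) = X.pe j (0 ≫ P.i)
  rw [zero_comp, map_zero]
  exact a.mul_right_eq_zero.1 (by rw [sub_mul, ← b, one_mul, sub_self])

theorem odd : OddZero P.E := X.odd.retract P.i P.r P.i_r

end Sp

/-- vanishing in all the degrees from the even degrees -/
theorem van_of {Y : T} (h : OddZero Y) (h' : ∀ j, ¬ (p : ℤ) - 1 ∣ j → ∀ x : Se T j ⟶ Y, x = 0)
    (n : ℤ) (hn : ¬ (2 * p - 2 : ℤ) ∣ n) (x : Sph T n ⟶ Y) : x = 0 := by
  obtain ⟨j, rfl | rfl⟩ := n.even_or_odd'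
  · exact (cancel_epi ((stdEven T).sphIso (Iso.refl _) j).hom).1
      ((h' j (fun ⟨c, b⟩ => hn ⟨c, by rw [b]; ring⟩) _).trans comp_zero.symm)
  · exact h _ ⟨j, rfl⟩ x

theorem exists_E0 (X : E2 S B) : Nonempty (E0 X) :=
  have ⟨P⟩ := exists_sp X
  ⟨{ P with
    r_i := by
      change _ = ∑ ζ, X.l (B.dc ζ)
      rw [P.r_i, sub_smul, one_smul, ← Category.comp_id (X.l B.eps), ← Preadditive.comp_zsmul,
        X.pE, comp_zero, zero_sub, Category.comp_id, BG.eps, map_neg, neg_neg, map_sum]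
    lam := P.lam
    lam_bij := P.lam_bij
    lam_g := fun g => by rw [← B.pf_g]; exact P.lam_pf _
    lam_o := fun f => by rw [← B.pf_o]; exact P.lam_pf _
    mod := P.mod
    i_lin := P.i_lin
    r_lin := P.r_lin
    van := P.van
    per := P.per
    per_tt := P.per_tt
    β := P.β
    β_comm := P.β_comm
    β_bij := P.β_bij
    pi_i := fun a => P.pi_i (dvd_mul_right _ a)
    πE_van := van_of P.odd fun _ => P.pi_van
    lam_i := fun ν => by
      obtain ⟨μ, rfl⟩ := B.pf_surj ν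
      exact ⟨μ, by rw [P.lam_pf]; exact P.k_i μ, B.actK_pf μ⟩
    β_i := ⟨tauS P.E, rfl⟩ }⟩

/-- Row QUO -/
theorem rowQUO (S : TS D p F) (B : BG p F G G') : RowQUO S B :=
  rowQUO_of fun _ => exists_E0

end Vale.Agent.P221X.TC
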