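import Vale.Agent.P221X.TC.Top
import Vale.Agent.P221X.TC.HN
import Vale.Agent.P221X.TC.Pi
import Vale.Agent.P221X.TC.Kap
import Vale.Agent.P221X.TC.Bock2
import Vale.Agent.P221X.TC.ELoc
import Vale.Agent.P221X.TC.QuoS
import Vale.Agent.P221X.TC.HTop
import Vale.Agent.P221X.TC.HT1K
import Vale.Agent.P221X.TB.Row
import Vale.Agent.P221X.Fin.Main

/-!
# P221X: the row TOP-C, and the final theorem from the row STD
-/

open CategoryTheory MonoidalCategory Limits Pretriangulated PowerSeries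

set_option linter.unusedSectionVars false

universe u

noncomputable section

namespace Vale.Agent.P221X.TC

open Vale.Agent.P251 Vale.Agent.P251.T Vale.Agent.P251.I ProG

section

variable {T : Type u} [Category.{0} T] [Preadditive T] [HasZeroObject T] [HasShift T ℤ]
  [∀ n : ℤ, (shiftFunctor T n).Additive] [Pretriangulated T] [IsTriangulated T]
  [MonoidalCategory T] [SymmetricCategory T] [TensorTriangulated T] [MonoidalClosed T]
  [HasCoproducts.{0} T] [HasProducts.{0} T] [StableCat T]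
  {D : MUData T} {p : ℕ} [Fact p.Prime] {F : Type} [Field F]
  [CharP F p] {G G' : Type} [Group G] [ProG G] [MulSemiringAction G F⟦X⟧]
  [MulSemiringAction G (KK F)] [ActK G F] [Group G'] [ProG G'] [MulSemiringAction G' F⟦X⟧]
  [MulSemiringAction G' (KK F)] [ActK G' F]

/-- **Row E2.** -/
theorem rowE2 (S : TS D p F) (B : BG p F G G') : RowE2 S B := by
  intro c hP
  obtain ⟨r⟩ := exists_rep c
  have P := piD r c B
  have h := r.lam_bij c B hP
  exact ⟨E2.ofRep P ⟨h, r.loc c, r.v2_iso c, P.β_bij h, r.β_M c.hL⟩, kap_ofRep P _⟩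

end

open Vale.Agent.P251.St Vale.Agent.P251.St.SHCat Vale.Agent.P221

variable {T : SHCat} {Su : Susp T} {p : ℕ} [hp : Fact p.Prime]

/-- **Row TOP-C.** -/
theorem rowTOPC (h5 : 5 ≤ p) : Fin.RowTOPC Su p :=
  rowTOPC_of h5 fun _ _ _ _ =>
    ⟨fun _ S => ⟨rowE2 S _, rowQUO S _, rowHTOP S _⟩, rowHT1 (by omega) _⟩

/-- **The final theorem**, from the existence of the quotient of `BP`. -/
theorem final_of_std (h5 : 5 ≤ p) (hS : Fin.RowSTD Su p) :
    (∃ B : T.C, StI.IsStandardForm Su p 2 B) ∧ ∃ X : T.C, StI.IsFpType Su p 2 X ∧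
      ∀ B : T.C, StI.IsStandardForm Su p 2 B → ¬ StI.ThickOf (fun Y => Y = B) X :=
  Fin.final_of h5 hS (Fin.rowTOPC'_of h5 (rowTOPC h5)) rowTOPB

end Vale.Agent.P221X.TC
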