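import Vale.Agent.P221.H924.Theta
import Vale.Agent.P221X.GD.LP

/-!
# P221X, row TC-BD: the map `𝔽_p[v₁, v₂] → F[[u]]`, `v₁ ↦ u`, `v₂ ↦ 1`
-/

open PowerSeries

noncomputable section

namespace Vale.Agent.P221X.TC.BDa

open Vale.Agent.P251.F Vale.Agent.P221 Vale.Agent.P221.H924 Vale.Agent.P257.H80

variable (p : ℕ) [hp : Fact p.Prime] (F : Type) [Field F] [CharP F p]

/-- the prime field -/
abbrev cst : ZMod p →+* F := ZMod.castHom (dvd_refl p) F

/-- `v₁ ↦ u`, `v₂ ↦ 1` -/
def ev2 : MvPolynomial (Fin 2) (ZMod p) →+* F⟦X⟧ :=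
  MvPolynomial.eval₂Hom ((C : F →+* F⟦X⟧).comp (cst p F)) ![X, 1]

theorem ev2_X0 : ev2 p F (MvPolynomial.X 0) = X := by simp [ev2]

theorem ev2_X1 : ev2 p F (MvPolynomial.X 1) = 1 := by simp [ev2]

theorem ev2_mon (d : Fin 2 →₀ ℕ) (c : ZMod p) :
    ev2 p F (MvPolynomial.monomial d c) = C (cst p F c) * X ^ d 0 := by
  rw [ev2, MvPolynomial.eval₂Hom_monomial, Finsupp.prod_fintype _ _ (by simp), Fin.prod_univ_two]
  simp

theorem coeff_ev2 (g : MvPolynomial (Fin 2) (ZMod p)) (i : ℕ) : coeff i (ev2 p F g) =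
    ∑ d ∈ g.support, if i = d 0 then cst p F (MvPolynomial.coeff d g) else 0 := by
  conv_lhs => rw [g.as_sum, map_sum, map_sum]
  refine Finset.sum_congr rfl fun d _ => ?_
  rw [ev2_mon, coeff_C_mul, coeff_X_pow]
  split_ifs <;> simp

omit hp in
theorem weight_two (d : Fin 2 →₀ ℕ) :
    Finsupp.weight (wV p 2) d = ((p : ℤ) - 1) * (d 0 + (p + 1) * d 1) := by
  rw [Finsupp.weight_apply, Finsupp.sum_fintype _ _ (by simp), Fin.sum_univ_two]
  simp only [wV, Fin.val_zero, Fin.val_one, nsmul_eq_mul]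
  ring

theorem eq_of_weight {d e : Fin 2 →₀ ℕ}
    (h : Finsupp.weight (wV p 2) d = Finsupp.weight (wV p 2) e) (h0 : d 0 = e 0) : d = e := by
  have h1 : (1 : ℤ) < p := by exact_mod_cast hp.out.one_lt
  rw [weight_two, weight_two, h0] at h
  have h2 := mul_left_cancel₀ (show (p : ℤ) - 1 ≠ 0 by omega) h
  have h3 := mul_left_cancel₀ (show (p : ℤ) + 1 ≠ 0 by omega) (add_left_cancel h2)
  ext a
  fin_cases a
  · exact h0
  · exact_mod_cast h3

variable {p F}

theorem ev2_inj {j : ℤ} {g : MvPolynomial (Fin 2) (ZMod p)}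
    (hg : g.IsWeightedHomogeneous (wV p 2) j) (h : ev2 p F g = 0) : g = 0 := by
  by_contra h0
  obtain ⟨d, hd⟩ := MvPolynomial.ne_zero_iff.1 h0
  have h1 := coeff_ev2 p F g (d 0)
  rw [h, map_zero, Finset.sum_eq_single d, if_pos rfl] at h1
  · exact hd ((cst p F).injective (h1.symm.trans (map_zero _).symm))
  · intro e he hne
    refine if_neg fun h2 => hne ?_
    exact (eq_of_weight p ((hg hd).trans (hg (MvPolynomial.mem_support_iff.1 he)).symm) h2).symm
  · intro h2
    exact absurd (MvPolynomial.mem_support_iff.2 hd) h2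

theorem ev2_range (j : ℤ) (f : F⟦X⟧) :
    (∃ g : MvPolynomial (Fin 2) (ZMod p), g.IsWeightedHomogeneous (wV p 2) j ∧ ev2 p F g = f) ↔
      ∀ i : ℕ, coeff i f ∈ (cst p F).range ∧
        (coeff i f ≠ 0 → ∃ k : ℕ, j = ((p : ℤ) - 1) * (i + (p + 1) * k)) := by
  classical
  constructor
  · rintro ⟨g, hg, rfl⟩ i
    rw [coeff_ev2]
    refine ⟨Subring.sum_mem _ fun d _ => ?_, fun h => ?_⟩
    · split_ifs
      · exact ⟨_, rfl⟩
      · exact Subring.zero_mem _
    · obtain ⟨d, hd, h1⟩ := Finset.exists_ne_zero_of_sum_ne_zero h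
      have h2 : i = d 0 := by
        by_contra h3
        exact h1 (if_neg h3)
      exact ⟨d 1, by rw [← hg (MvPolynomial.mem_support_iff.1 hd), weight_two, h2]⟩
  · intro h
    have h1 : ∀ i : ℕ, ∃ (c : ZMod p) (k : ℕ), cst p F c = coeff i f ∧
        (c ≠ 0 → j = ((p : ℤ) - 1) * (i + (p + 1) * k)) := by
      intro i
      obtain ⟨⟨c, hc⟩, h2⟩ := h i
      by_cases h3 : coeff i f = 0
      · exact ⟨0, 0, by rw [h3, map_zero], fun h4 => absurd rfl h4⟩
      · obtain ⟨k, hk⟩ := h2 h3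
        exact ⟨c, k, hc, fun _ => hk⟩
    choose c k hc hk using h1
    refine ⟨∑ i ∈ Finset.range (j.toNat + 1),
      MvPolynomial.monomial (Finsupp.single 0 i + Finsupp.single 1 (k i)) (c i), ?_, ?_⟩
    · refine MvPolynomial.IsWeightedHomogeneous.sum _ _ _ fun i _ => ?_
      by_cases h2 : c i = 0
      · rw [h2, MvPolynomial.monomial_zero]
        exact MvPolynomial.isWeightedHomogeneous_zero _ _ _
      · refine MvPolynomial.isWeightedHomogeneous_monomial _ _ _ ?_
        rw [weight_two, hk i h2]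
        simp
    · ext i
      rw [map_sum, map_sum, Finset.sum_eq_single i]
      · rw [ev2_mon, coeff_C_mul, coeff_X_pow, if_pos (by simp), mul_one, hc]
      · intro l _ hl
        rw [ev2_mon, coeff_C_mul, coeff_X_pow, if_neg (by simpa using hl.symm), mul_zero]
      · intro hi
        have h2 : c i = 0 := by
          by_contra h3
          have h4 := hk i h3
          have h5 : (1 : ℤ) < p := by exact_mod_cast hp.out.one_lt
          have h6 : (0 : ℤ) ≤ (p + 1) * k i := by positivity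
          have h7 : (i : ℤ) ≤ j := by nlinarith [Int.natCast_nonneg i]
          exact hi (Finset.mem_range.2 (by omega))
        rw [h2, MvPolynomial.monomial_zero, map_zero, map_zero]

variable (p F)

/-- `v₁ ↦ u`, `v₂ ↦ 1`, `v_i ↦ 0` for `i ≥ 3` -/
def ev : MvPolynomial ℕ (ZMod p) →+* F⟦X⟧ :=
  (ev2 p F).comp (trunc (ZMod p) 2 : MvPolynomial ℕ (ZMod p) →+* MvPolynomial (Fin 2) (ZMod p))

theorem hazk_ev : (hazk p).map (ev p F) = Qt.FO p F := by
  rw [hazk, Law.map_map, Qt.FO, P261Z.N.hzn, P261Z.N.hz]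
  congr 1
  refine MvPolynomial.ringHom_ext (fun r => ?_) fun i => ?_
  · simp
  · rw [RingHom.comp_apply, redP_X, MvPolynomial.eval₂Hom_X', P261Z.N.par]
    change ev2 p F (trunc (ZMod p) 2 (MvPolynomial.X i)) = _
    rcases i with _ | _ | i
    · rw [trunc_X_lt _ (by norm_num), if_pos (by norm_num)]
      exact ev2_X0 p F
    · rw [trunc_X_lt _ (by norm_num), if_neg (by norm_num), if_pos (by norm_num)]
      exact ev2_X1 p F
    · rw [trunc_X_ge _ (by omega), map_zero, if_neg (by omega), if_neg (by omega)]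

end Vale.Agent.P221X.TC.BDa
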