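import Vale.Agent.P221X.TC.Defs
import Vale.Agent.P221X.TC.BDAlg
import Vale.Agent.P221X.Fin.Std

/-!
# P221X, row TC-BD: the homotopy of `C ⊗ M`, `C = BP / (v₃, v₄, …)`

`rowBD` : `BD St (C ⊗ St.W.M)` is inhabited.
-/

open CategoryTheory MonoidalCategory Limits Pretriangulated MonObj PowerSeries

set_option linter.unusedSectionVars false

universe u

noncomputable section

namespace Vale.Agent.P221X.TC

open Vale.Agent.P251 Vale.Agent.P251.T Vale.Agent.P251.M Vale.Agent.P251.S Vale.Agent.P251.F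
  Vale.Agent.P251.I Vale.Agent.P251.Z Vale.Agent.P221 Vale.Agent.P221.H924
open Vale.Agent.P251.M.EvenSpheres

namespace BDa

section gen

variable {T : Type u} [Category.{0} T] [Preadditive T] [HasZeroObject T] [HasShift T ℤ]
  [∀ n : ℤ, (shiftFunctor T n).Additive] [Pretriangulated T] [IsTriangulated T]
  [MonoidalCategory T] [SymmetricCategory T] [TensorTriangulated T] [MonoidalClosed T]
  [HasCoproducts.{0} T] [HasProducts.{0} T] [StableCat T]
  {D : MUData T} {p : ℕ} [Fact p.Prime] {F : Type} [Field F]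

/-- in characteristic `p` a point of `π_* MU` is determined by its law -/
theorem chi_ext (hp : p ≠ 2) {M : T} {i : 𝟙_ T ⟶ M} {δ : M ⟶ (𝟙_ T)⟦(1 : ℤ)⟧}
    (hM : Triangle.mk ((p : ℤ) • 𝟙 (𝟙_ T)) i δ ∈ distTriang T) {B : Type} [CommRing B]
    (hB : (p : B) = 0) {χ χ' : HRing (stdEven T) D.R →+* B} (h : D.law.map χ = D.law.map χ') :
    χ = χ' := by
  refine RingHom.ext fun x => ?_
  obtain ⟨z, y, rfl⟩ := exists_L0_add D hp hM x
  rw [map_add, map_add, map_mul, map_mul, map_natCast, map_natCast, hB, zero_mul, zero_mul, L0,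
    Laz.map_lift, Laz.map_lift, h]

theorem zsmul_tensor (W : TD.Twr D p) (Y : T) : (p : ℤ) • 𝟙 (Y ⊗ W.M) = 0 := by
  have h1 : (p : ℤ) • W.iM = 0 := by
    have : ((p : ℤ) • 𝟙 (𝟙_ T)) ≫ W.iM = 0 := comp_distTriang_mor_zero₁₂ _ W.distM
    simpa using this
  have h0 : (tensorLeft W.M).map ((p : ℤ) • W.iM) = (p : ℤ) • (W.M ◁ W.iM) := Functor.map_zsmul _
  have h3 : (p : ℤ) • 𝟙 W.M = 0 := by
    rw [← (ρ_ W.M).inv_hom_id, ← W.m1.right_unit, ← Preadditive.comp_zsmul,
      ← Preadditive.zsmul_comp, ← h0, h1, Functor.map_zero, zero_comp, comp_zero]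
  have h2 : (tensorLeft Y).map ((p : ℤ) • 𝟙 W.M) = (p : ℤ) • (tensorLeft Y).map (𝟙 W.M) :=
    Functor.map_zsmul _
  rw [h3, Functor.map_zero, CategoryTheory.Functor.map_id] at h2
  exact h2.symm

theorem sm_add_left {Y : T} (a : ModStr D.R Y) (z z' : HRing (stdEven T) D.R) (y : He Y) :
    sm a (z + z') y = sm a z y + sm a z' y :=
  letI := hModule (E := stdEven T) a
  add_smul z z' y

theorem sm_add_right {Y : T} (a : ModStr D.R Y) (z : HRing (stdEven T) D.R) (y y' : He Y) :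
    sm a z (y + y') = sm a z y + sm a z y' :=
  letI := hModule (E := stdEven T) a
  smul_add z y y'

theorem sm_zero_left {Y : T} (a : ModStr D.R Y) (y : He Y) : sm a 0 y = 0 :=
  letI := hModule (E := stdEven T) a
  zero_smul _ y

theorem sm_zero_right {Y : T} (a : ModStr D.R Y) (z : HRing (stdEven T) D.R) : sm a z 0 = 0 :=
  letI := hModule (E := stdEven T) a
  smul_zero z

/-- `BD` from an identification of the homotopy with the polynomial ring -/
theorem bd_of [CharP F p] (S : TS D p F) {N : T} (L : ModStr D.R N) (pb : (p : ℤ) • 𝟙 N = 0)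
    (odd : ∀ (k : ℤ) (f : (𝟙_ T)⟦2 * k + 1⟧ ⟶ N), f = 0)
    (χ : HRing (stdEven T) D.R →+* MvPolynomial (Fin 2) (ZMod p))
    (hχ : D.law.map ((ev2 p F).comp χ) = Qt.FO p F)
    (Θ : ∀ i : ℤ, (Se T i ⟶ N) ≃+ PH p 2 i)
    (hΘ : ∀ {w i j : ℤ} (h : w + i = j) (a : Se T w ⟶ D.R) (f : Se T i ⟶ N),
      (Θ j (gsmul L h a f) : MvPolynomial (Fin 2) (ZMod p)) =
        χ (HRing.of (stdEven T) D.R w a) * (Θ i f : MvPolynomial (Fin 2) (ZMod p))) :
    Nonempty (BD S N) := by
  have h5 := S.h5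
  have hF : ((p : ℕ) : F⟦X⟧) = 0 := by
    rw [← map_natCast (C : F →+* F⟦X⟧), CharP.cast_eq_zero, map_zero]
  have h1 : S.χ = (ev2 p F).comp χ := chi_ext (by omega) S.W.distM hF (S.law.trans hχ.symm)
  let lam : He N →+ F⟦X⟧ := DirectSum.toAddMonoid fun j => AddMonoidHom.mk'
    (fun y : Se T j ⟶ N => ev2 p F (Θ j y : MvPolynomial (Fin 2) (ZMod p)))
    fun y y' => by rw [map_add, Submodule.coe_add, map_add]
  have h2 : ∀ (j : ℤ) (y : Se T j ⟶ N),
      lam (He.of N j y) = ev2 p F (Θ j y : MvPolynomial (Fin 2) (ZMod p)) := fun j y =>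
    DirectSum.toAddMonoid_of _ _ _
  refine ⟨⟨L, pb, ?_, lam, ?_, ?_, ?_⟩⟩
  · rintro n ⟨k, rfl⟩ f
    exact odd k f
  · intro z y
    induction z using DirectSum.induction_on with
    | zero => rw [sm_zero_left, map_zero, map_zero, zero_mul]
    | add z z' hz hz' => rw [sm_add_left, map_add, map_add, hz, hz', add_mul]
    | of w a =>
      induction y using DirectSum.induction_on with
      | zero => rw [sm_zero_right, map_zero, mul_zero]
      | add y y' hy hy' => rw [sm_add_right, map_add, map_add, hy, hy', mul_add]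
      | of i f =>
        have h3 : sm L (HRing.of (stdEven T) D.R w a) (He.of N i f) =
            He.of N (w + i) (gsmul L rfl a f) := of_smul_of L rfl a f
        change lam (sm L (HRing.of (stdEven T) D.R w a) (He.of N i f)) =
          S.χ (HRing.of (stdEven T) D.R w a) * lam (He.of N i f)
        rw [h3, h2, h2, hΘ, map_mul, h1, RingHom.comp_apply]
  · intro j y h
    rw [h2] at h
    exact (Θ j).map_eq_zero_iff.1 (Subtype.ext (ev2_inj (Θ j y).2 h))
  · intro j f
    refine Iff.trans ?_ (ev2_range j f)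
    constructor
    · rintro ⟨y, rfl⟩
      exact ⟨_, (Θ j y).2, (h2 j y).symm⟩
    · rintro ⟨g, hg, rfl⟩
      exact ⟨(Θ j).symm ⟨g, hg⟩, by rw [h2, AddEquiv.apply_symm_apply]⟩

end gen

end BDa

open Vale.Agent.P251.St Vale.Agent.P251.St.SHCat Vale.Agent.P257.St Vale.Agent.P257.H702
  Vale.Agent.P257.H80 BDa

/-- **Row BD.** -/
theorem rowBD {T : SHCat} {S : Susp T} {p : ℕ} [hp : Fact p.Prime] {F : Type} [Field F]
    [CharP F p] {D : MUData T.C} (hD : MUUniv (M.lineIso S.toSpaceFunctor) D)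
    (hA : P093.N0.MUAll D) (U : MUFam (M.lineIso S.toSpaceFunctor) D) (St : TS D p F)
    {P : RingSp T} {o : Oriented S P} {φ : GHom S p P} {C : T.C} {a : Hom (ten P.obj C) C}
    {q : Hom P.obj C} (hP : IsBrownPeterson p o φ) (hq : StI.IsQuotient 2 (hazV φ) a q) :
    Nonempty (BD St (C ⊗ St.W.M)) := by
  obtain ⟨b, _, κ, Φ, hκ, hφ, hcomp⟩ := H174.exists_bpOut_poly hD hA U hP
  have hq' : P221.St.IsQuotient 2 (hazV φ) a q :=
    ⟨hq.act, hq.map, hq.surj, fun k u => (hq.ker k u).trans (H658.inGen_iff (hazV φ) u).symm⟩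
  obtain ⟨h1, h2⟩ := mod_of_isQuotient hκ
    (fun j hj => Fin.isPolyGen_hazV hp.out φ (by omega)) hq' St.W.distM
  have hQ : QOut 2 (hazV φ) κ ((modOf hq'.act).tensorRight St.W.M) (q ≫ rdM St.W.iM C) :=
    qOut_of_mod hκ.good hκ.surj hκ.ker St.W.distM (modOf hq'.act) hq'.map h1 h2
  have hX : (fun j => κ (xc (xE (hazV φ)) j)) = MvPolynomial.X := by
    funext j
    have h3 : Φ (MvPolynomial.X j) = xc (xE (hazV φ)) j :=
      hφ _ ⟨vEl p (j + 1), vEl_mem p (j + 1)⟩
    rw [← h3, ← RingHom.comp_apply, hcomp, redP_X]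
  let χ : HRing (stdEven T.C) P.obj →+* MvPolynomial (Fin 2) (ZMod p) :=
    (trunc (ZMod p) 2 : MvPolynomial ℕ (ZMod p) →+* MvPolynomial (Fin 2) (ZMod p)).comp κ
  have hs : Function.Surjective χ := (trunc_surjective _).comp hκ.surj
  have hd : ∀ (w : ℤ) (u : (stdEven T.C).S w ⟶ P.obj),
      (χ (HRing.of (stdEven T.C) P.obj w u)).IsWeightedHomogeneous (wV p 2) w := by
    intro w u
    change (trunc (ZMod p) 2 (κ _)).IsWeightedHomogeneous _ _
    rcases lt_or_ge w 0 with hw | hw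
    · rw [kappa_neg hD hA hκ.mon hκ.law hw, map_zero]
      exact MvPolynomial.isWeightedHomogeneous_zero _ _ _
    · obtain ⟨w, rfl⟩ := Int.eq_ofNat_of_zero_le hw
      exact (isWH_int p).1 (trunc_isWH p (kappa_isWH hD hA hκ.mon hκ.law u))
  have hk : ∀ (w : ℤ) (u : (stdEven T.C).S w ⟶ P.obj),
      u ≫ q ≫ rdM St.W.iM C = 0 ↔ χ (HRing.of (stdEven T.C) P.obj w u) = 0 := by
    intro w u
    refine (hQ.ker w u).trans ?_
    rw [hX]
    exact (trunc_eq_zero_iff _ _).symm
  obtain ⟨Θ, -, h4⟩ := exists_theta hQ.lin hQ.surj hs hd hk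
  refine bd_of St (((modOf hq'.act).tensorRight St.W.M).restr b) (zsmul_tensor St.W C) hQ.odd
    (χ.comp (HRing.map b)) ?_ Θ ?_
  · rw [← hazk_ev, ← hκ.law, lawOf, Law.map_map, Law.map_map]
    rfl
  · intro w i j hw z f
    have h3 : gsmul (((modOf hq'.act).tensorRight St.W.M).restr b) hw z f =
        gsmul ((modOf hq'.act).tensorRight St.W.M) hw (z ≫ b) f := by
      unfold gsmul
      rw [EvenSpheres.ext_comp_left, Category.assoc]
      rfl
    rw [h3, h4]
    change _ = χ (HRing.map b (HRing.of (stdEven T.C) D.R w z)) * _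
    rw [HRing.map_of]

end Vale.Agent.P221X.TC
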