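import Vale.Agent.P221X.TC.Defs
import Vale.Agent.P221X.GD.Cont
import Vale.Agent.P221X.GD.KeatM
import Vale.Agent.P221X.FIX.Main

/-!
# P221X, row TC-BG: the group of all pairs and its quotient
-/

noncomputable section

namespace Vale.Agent.P221X.Qt

open Vale.Agent.P217 Vale.Agent.P251.F Vale.Agent.P261Z Vale.Agent.P261Z.N PowerSeries

variable {p : ℕ} [hp : Fact p.Prime] {F : Type} [Field F]

/-- the group of all pairs -/
def Lq (_hF : Nat.card F = p ^ 2) : Type := LP p F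

variable (hF : Nat.card F = p ^ 2)

namespace Lq

instance : Group (Lq hF) := inferInstanceAs (Group (LP p F))

/-- the identification -/
def emb : Lq hF ≃* LP p F := MulEquiv.refl _

instance : MulSemiringAction (Lq hF) (PowerSeries F) :=
  MulSemiringAction.compHom _ ((LPair.act _).comp (emb hF).toMonoidHom)

instance : MulSemiringAction (Lq hF) (KK F) := MulSemiringAction.compHom _
  ((IsFractionRing.ringEquivOfRingEquivHom (PowerSeries F) (KK F)).comp
    ((LPair.act _).comp (emb hF).toMonoidHom))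

theorem smul_O (g : Lq hF) (f : PowerSeries F) : g • f = (emb hF g).φ f := rfl

variable [CharP F p]

/-- the projection -/
def pr : Lq hF →* Big hF := (Big.mk hF).comp (emb hF).toMonoidHom

theorem pr_O (g : Lq hF) (f : PowerSeries F) : pr hF g • f = g • f := rfl

theorem pr_K (g : Lq hF) (z : KK F) : pr hF g • z = g • z := rfl

/-- the inclusion of the principal units -/
def inc : (Q0 hF).G1 →* Lq hF := (emb hF).symm.toMonoidHom.comp (lf hF)

theorem emb_inc (a : (Q0 hF).G1) : emb hF (inc hF a) = lf hF a := rfl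

theorem pr_inc (a : (Q0 hF).G1) : pr hF (inc hF a) = Big.inc hF a := rfl

theorem exists_dec (x : LP p F) : ∃ a c σ, x = lf hF a * (tei hF c * gal p σ) := by
  obtain ⟨b, hb⟩ := eq_lfu_mul hF x
  let c : Fˣ := Units.map ((Q0 hF).r : OO p F →* F) b
  refine ⟨⟨b * ((Q0 hF).tu c)⁻¹, ?_⟩, c, resAut hF x.φ, ?_⟩
  · change (Q0 hF).r (b * (Q0 hF).t ((c⁻¹ : Fˣ) : F)) = 1
    rw [map_mul, QD.r_t]
    exact c.mul_inv
  · change _ = lfu hF (b * ((Q0 hF).tu c)⁻¹) * _
    rw [← lfu_tu, ← mul_assoc, ← map_mul, inv_mul_cancel_right, ← hb]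

theorem conj_lf (x : LP p F) {n : ℕ} {a : (Q0 hF).G1} (ha : a ∈ (Q0 hF).Gf n) :
    ∃ b ∈ (Q0 hF).Gf n, lf hF b = x * lf hF a * x⁻¹ := by
  obtain ⟨b, hb⟩ := eq_lfu_mul hF x
  refine ⟨_, conj_mem_Gf _ b (galG_mem hF (resAut hF x.φ : F →+* F) ha), ?_⟩
  rw [lf_conj]
  conv_rhs => rw [hb, mul_assoc (lfu hF b), gal_lf]
  group

theorem finite_quot : Finite (LP p F ⧸ (lf hF).range) := by
  have : Finite F := Nat.finite_of_card_ne_zero (hF ▸ pow_ne_zero 2 hp.out.ne_zero)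
  have : Finite (F ≃+* F) := DFunLike.finite _
  refine Finite.of_surjective
    (fun d : Fˣ × (F ≃+* F) => ((tei hF d.1 * gal p d.2)⁻¹ : LP p F)) fun y => ?_
  obtain ⟨g, rfl⟩ := QuotientGroup.mk_surjective y
  obtain ⟨a, c, σ, h⟩ := exists_dec hF g⁻¹
  refine ⟨(c, σ), QuotientGroup.eq.2 ⟨a⁻¹, ?_⟩⟩
  rw [inv_eq_iff_eq_inv.1 h, map_inv]
  group

instance : ProG (Lq hF) where
  N i := ((Q0 hF).Gf i).map (inc hF)
  normal i := ⟨by
    rintro _ ⟨a, ha, rfl⟩ g
    exact conj_lf hF g ha⟩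
  anti _ _ h := Subgroup.map_mono fun _ ha => (Q0 hF).I_anti h ha
  fin i := by
    have : Finite F := Nat.finite_of_card_ne_zero (hF ▸ pow_ne_zero 2 hp.out.ne_zero)
    have h1 : Finite (Lq hF ⧸ (inc hF).range) := finite_quot hF
    refine ⟨?_⟩
    rw [Subgroup.index_map_of_injective _ (show Function.Injective (inc hF) from lf_injective hF)]
    exact mul_ne_zero (fin_Gf _ i).1 (Subgroup.finiteIndex_of_finite_quotient).1

theorem mem_N {i : ℕ} {g : Lq hF} :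
    g ∈ ProG.N (G := Lq hF) i ↔ ∃ a ∈ (Q0 hF).Gf i, inc hF a = g := Iff.rfl

instance : ActK (Lq hF) F where
  alg g := Big.smul_alg hF (pr hF g)
  cont z k := (ActK.cont (G := Big hF) z k).imp fun _ h => by
    rintro _ ⟨a, ha, rfl⟩
    rw [← pr_K, pr_inc]
    exact h _ ((Big.mem_N hF).2 ⟨a, ha, rfl⟩)

theorem cof2 (i : ℕ) (g : Lq hF) (h : TC.Small0 p F (p ^ i) (emb hF g)) :
    g ∈ ProG.N (G := Lq hF) i := by
  obtain ⟨b, hb⟩ := eq_lfu_mul hF (emb hF g)
  rw [resAut_eq hF (σ := 1) h.1, map_one, mul_one] at hb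
  have h1 : ∀ k ≤ p ^ i, coeff (k + 1) (b : OO p F).val = coeff (k + 1) X := fun k hk => by
    have h2 := X_dvd_iff.1 (h.2 k hk)
    rw [map_sub, sub_eq_zero, ← InvSeries.c_map (constantCoeff (R := F)) 1, map_one] at h2
    rw [← lfu_γ hF b, ← hb]
    exact h2
  refine ⟨⟨b, (h1 0 (Nat.zero_le _)).trans coeff_one_X⟩, (mem_Gf_iff hF).2 fun k hk => ?_, hb.symm⟩
  rcases k with _ | k
  · rw [coeff_zero_eq_constantCoeff_apply, EndF.constantCoeff_val, coeff_zero_X]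
  · exact h1 k (by omega)

theorem ψ_eq : (lf hF (Q0 hF).ψ).φ = 1 ∧
    (lf hF (Q0 hF).ψ).γ.val = multSeries (FO p F).toFG (1 + p) := by
  have hu : IsUnit (coeff 1 (multSeries (FO p F).toFG (1 + p))) := by
    rw [coeff_one_multSeries, ← map_natCast (C (R := F)), Nat.cast_add, Nat.cast_one,
      CharP.cast_eq_zero, add_zero, map_one]
    exact isUnit_one
  let a : LP p F := ⟨1, ⟨multSeries (FO p F).toFG (1 + p), constantCoeff_multSeries _ _, hu⟩, by
    rw [LPair.coe_one, Law.map_id, InvSeries.smul_eq_iff_isHom]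
    exact isHom_multSeries _ _⟩
  have h : a = lf hF (Q0 hF).ψ := eq_lift hF (fun _ => rfl) (by
    have h1 : ((1 + p : ℕ) : OO p F) = 1 + p := by rw [Nat.cast_add, Nat.cast_one]
    change _ = (1 + p : OO p F).val
    rw [← h1, EndF.val_natCast, ← FO_red]
    exact map_multSeries _ _ _)
  rw [← h]
  exact ⟨rfl, rfl⟩

/-- the roots of unity of the prime field -/
def cc : (ZMod p)ˣ →* Lq hF := (emb hF).symm.toMonoidHom.comp
  ((teiH hF).comp (Units.map (ZMod.castHom (dvd_refl p) F : ZMod p →* F)))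

theorem emb_cc (ζ : (ZMod p)ˣ) :
    emb hF (cc hF ζ) = tei hF (Units.map (ZMod.castHom (dvd_refl p) F : ZMod p →* F) ζ) :=
  teiH_apply hF _

theorem mem_mu_iff {g : Lq hF} : emb hF g ∈ mu hF ↔ ∃ ζ, cc hF ζ = g := by
  rw [mem_mu]
  constructor
  · rintro ⟨c, hc, h⟩
    obtain ⟨n, hn⟩ := (mem_bot_iff_intCast p F).1
      ((Subfield.mem_bot_iff_pow_eq_self F p).2 (pow_p_of hc))
    have h1 : ZMod.castHom (dvd_refl p) F (n : ZMod p) = c := by rw [map_intCast, hn]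
    refine ⟨Units.mk0 (n : ZMod p) fun h0 => c.ne_zero (by rw [← h1, h0, map_zero]),
      (emb hF).injective ?_⟩
    rw [emb_cc, ← h]
    exact congrArg _ (Units.ext h1)
  · rintro ⟨ζ, rfl⟩
    exact ⟨_, by rw [← map_pow, ZMod.units_pow_card_sub_one_eq_one, map_one], (emb_cc hF ζ).symm⟩

end Lq

variable [CharP F p]

open Lq in
/-- the group data of the topological block -/
def bg0 : TC.BG p F (Lq hF) (Big hF) where
  card := hF
  emb := emb hF
  emb_O _ _ := rfl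
  cof1 n := (lf_cont hF (n + 1)).imp fun _ h => by
    rintro _ ⟨a, ha, rfl⟩
    exact ⟨fun f => (pow_dvd_pow _ n.le_succ).trans ((h a ha).1 f),
      fun k hk => (pow_dvd_pow _ n.le_succ).trans ((h a ha).2 k (Nat.lt_succ_of_le hk))⟩
  cof2 i := ⟨p ^ i, cof2 hF i⟩
  π := pr hF
  π_surj := Big.mk_surjective hF
  π_cont i := ⟨i, by
    rintro _ ⟨a, ha, rfl⟩
    exact ⟨a, ha, rfl⟩⟩
  π_open i := ⟨i, by
    rintro _ ⟨a, ha, rfl⟩
    exact ⟨inc hF a, ⟨a, ha, rfl⟩, rfl⟩⟩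
  π_K := pr_K hF
  c := cc hF
  ker _ := (Big.mk_eq_one hF).trans (mem_mu_iff hF)
  c_comm ζ g := mu_comm hF ((mem_mu_iff hF).2 ⟨ζ, rfl⟩) g
  c_φ ζ := mu_φ hF ((mem_mu_iff hF).2 ⟨ζ, rfl⟩)
  c_γ ζ := by
    rw [emb_cc, tei_γ]
    rfl
  ψ := inc hF (Q0 hF).ψ
  ψ_comm g := comm_of hF (b := (Q0 hF).ψ) (fun f => by
    change (1 + (p : OO p F)) * f = f * (1 + (p : OO p F))
    rw [add_mul, mul_add, (Nat.cast_commute p f).eq, one_mul, mul_one]) (fun σ => by
    change galE p σ (1 + (p : OO p F)) = 1 + (p : OO p F)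
    rw [map_add, map_one, map_natCast]) g
  ψ_φ := (ψ_eq hF).1
  ψ_γ := (ψ_eq hF).2

theorem bg0_ψ {hF : Nat.card F = p ^ 2} (K : Keat hF) (h5 : 5 ≤ p) :
    (bg0 hF).π (bg0 hF).ψ = (gx0 K h5).inc (D0 K h5).ψ := rfl

theorem schur0 (h5 : 5 ≤ p) : TC.Schur (Big hF) F := fun φ h => by
  obtain ⟨k, hk⟩ := FIX.fix (D := D0 (keat hF) h5) (c := φ 1) fun a => by
    rw [(gx0 (keat hF) h5).inc_K, ← Meas.actK_ofG, ← h, Meas.actK_ofG, smul_one]
  refine ⟨k, fun z => ?_⟩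
  rw [FIX.eq_mul φ (fun f z => by
    rw [← Meas.actK_ofO (G := Big hF), h, Meas.actK_ofO]) z, hk, Algebra.smul_def, mul_comm]

end Vale.Agent.P221X.Qt
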