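import Vale.Agent.P221X.TC.Bock0
import Vale.Agent.P221X.TC.Rep
import Vale.Agent.P221X.TC.LocL

/-!
# P221X, block TOP-C: the Bockstein operation of the representing object
-/

open CategoryTheory MonoidalCategory Limits Pretriangulated PowerSeries

set_option linter.unusedSectionVars false

universe u

noncomputable section

namespace Vale.Agent.P221X.TC

open Vale.Agent.P251 Vale.Agent.P251.T Vale.Agent.P251.M Vale.Agent.P251.S Vale.Agent.P251.F
  Vale.Agent.P251.I Vale.Agent.P251.X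
open Vale.Agent.P251.M.EvenSpheres VT

variable {T : Type u} [Category.{0} T] [Preadditive T] [HasZeroObject T] [HasShift T ℤ]
  [∀ n : ℤ, (shiftFunctor T n).Additive] [Pretriangulated T] [IsTriangulated T]
  [MonoidalCategory T] [SymmetricCategory T] [TensorTriangulated T] [MonoidalClosed T]
  [HasCoproducts.{0} T] [HasProducts.{0} T] [StableCat T]
  {D : MUData T} {p : ℕ} [Fact p.Prime] {F : Type} [Field F]

namespace Bk

theorem inj_even {X Y Z : T} {f : X ⟶ Y} {g : Y ⟶ Z} {h : Z ⟶ X⟦(1 : ℤ)⟧}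
    (hT : Triangle.mk f g h ∈ distTriang T) (hZ : OddZero Z) (j : ℤ) (x : Se T j ⟶ X)
    (hx : x ≫ f = 0) : x = 0 := by
  obtain ⟨y, hy⟩ := Triangle.coyoneda_exact₂ _ (inv_rot_of_distTriang _ hT) x hx
  rw [hz_of_odd hZ (odd_neg.2 odd_one) (Iso.refl _) j y] at hy
  exact hy.trans zero_comp

/-- `v₁` is injective on the homotopy of `Y ⊗ M` if `Y ⊗ V(1)` is even -/
theorem inj_v1 {Y : T} (a : ModStr D.R Y) (W : TD.Twr D p) (h : OddZero (Y ⊗ W.V1)) :
    Function.Injective (sm (a.tensorRight W.M) (vA D p 1)) := by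
  intro x y hxy
  rw [← sub_eq_zero] at hxy ⊢
  rw [← sm_sub] at hxy
  refine He.ext_cp fun j => ?_
  have h1 := cp_sm (a.tensorRight W.M) (rfl : _ + j = _) (D.vel p 1) (x - y)
  rw [show sm (a.tensorRight W.M) (HRing.of (stdEven T) D.R _ (D.vel p 1)) (x - y) = 0 from hxy,
    map_zero] at h1
  have h2 : D.vel p 1 ▷ (Y ⊗ W.M) ≫ (a.tensorRight W.M).act =
      ((α_ _ Y W.M).inv ≫ (β_ _ Y).hom ▷ W.M ≫ (α_ Y _ W.M).hom) ≫ Y ◁ W.f1 := by
    rw [TD.whiskerLeft_eq a W.hur1', TD.mulR]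
    simp only [Category.assoc, Iso.hom_inv_id_assoc, ModStr.tensorRight]
    rw [← comp_whiskerRight, SymmetricCategory.symmetry_assoc, comp_whiskerRight,
      associator_inv_naturality_left_assoc]
  rw [gsmul, EvenSpheres.ext, tensorHom_def', Category.assoc, Category.assoc, h2,
    ← Category.assoc, ← Category.assoc] at h1
  have h3 := inj_even (distL Y W.dist1).choose_spec h _ _ h1.symm
  rw [Preadditive.IsIso.comp_right_eq_zero, Preadditive.IsIso.comp_left_eq_zero] at h3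
  rw [map_zero]
  exact (tensorLeft _).map_eq_zero_iff.1 h3

theorem odd_of_cyc {h : ℕ} {V : T} {i : 𝟙_ T ⟶ V} (H : P257.H314.Cyc D p h i) :
    OddZero (D.R ⊗ V) := by
  refine OddZero.of_iso (whiskerRightIso (λ_ D.R) V) ?_
  rintro _ ⟨k, rfl⟩ f
  exact H.odd 0 k f

theorem odd_M (W : TD.Twr D p) : OddZero (D.R ⊗ W.M) := odd_of_cyc W.st1.cyc

theorem odd_V1 (W : TD.Twr D p) : OddZero (D.R ⊗ W.V1) := odd_of_cyc W.st2.cyc

theorem p_RM (W : TD.Twr D p) (Y : T) : (p : ℤ) • 𝟙 (Y ⊗ W.M) = 0 := by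
  have h1 := zsmul_whiskerRight (zsmul_of_uProd W.distM W.m1) Y
  rw [← cancel_epi (β_ W.M Y).hom, Preadditive.comp_zsmul, Category.comp_id, comp_zero,
    ← Category.id_comp (β_ W.M Y).hom, ← Preadditive.zsmul_comp, h1, zero_comp]

end Bk

open Bk

variable {S : TS D p F}

/-- the homology of `M ⊗ N'` is even -/
theorem LocF.odd_MN' (hL : LocF S) : OddZero ((D.R ⊗ S.W.M) ⊗ S.N') :=
  hL.oddN' ((ModStr.self D.R).tensorRight S.W.M) (p_RM S.W _) (odd_M S.W)
    (inj_v1 _ S.W (odd_V1 S.W))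

/-- the homology of `N` is even -/
theorem LocF.odd_N (hL : LocF S) : OddZero (D.R ⊗ S.N) :=
  OddZero.of_iso (α_ _ _ _ ≪≫ whiskerLeftIso D.R (β_ _ _)) hL.odd_MN'

theorem opN_b0_bij {W : T} (hW : (p : ℤ) • 𝟙 W = 0) (ho : OddZero (D.R ⊗ (W ⊗ S.N'))) :
    Function.Bijective (V.map S.χ (opN S (b0 S) W)) := by
  have h := V_bock_bij S.χ S.W.distM hW ho (sphNeg T)
    ((α_ _ _ _).symm ≪≫ whiskerRightIso (β_ _ _) _ ≪≫ α_ _ _ _)
  simp only [Iso.trans_hom, Category.assoc] at h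
  exact h

namespace Rep

variable (r : Rep S)

/-- The Bockstein operation is bijective on the cohomology of `W`. -/
theorem β_bij_of {W : T} (hW : (p : ℤ) • 𝟙 W = 0) (ho : OddZero (D.R ⊗ (W ⊗ S.N'))) :
    Function.Bijective fun f : W ⟶ r.E => f ▷ Sph T (-1) ≫ r.β := by
  let e := LinearEquiv.ofBijective _ (opN_b0_bij hW ho)
  have h : (r.cl _) ∘ (fun f : W ⟶ r.E => f ▷ Sph T (-1) ≫ r.β) =
      e.symm.congrLeft (KO F) F⟦X⟧ ∘ r.cl W :=
    funext fun f => LinearMap.ext fun x => r.cl_op _ f x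
  rw [← (r.cl _).bijective.of_comp_iff', h]
  exact (LinearEquiv.bijective _).comp (r.cl W).bijective

/-- the field `β_bij` -/
theorem β_bij [CharP F p] {Λ : Type} (lam : Λ → End r.E) (hb : Function.Bijective lam)
    (hc : ∀ μ, (lam μ : r.E ⟶ r.E) ▷ _ ≫ r.β = r.β ≫ lam μ)
    (ho : OddZero (D.R ⊗ (r.E ⊗ S.N'))) :
    Function.Bijective fun μ => (r.β ≫ lam μ : r.E ⊗ Sph T (-1) ⟶ r.E) := by
  simp only [← hc]
  exact (r.β_bij_of r.pE ho).comp hb

theorem β_M_bij (hL : LocF S) (j : ℤ) :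
    Function.Bijective fun x : S.W.M ⊗ Se T j ⟶ r.E => x ▷ Sph T (-1) ≫ r.β := by
  refine r.β_bij_of (zsmul_whiskerRight (zsmul_of_uProd S.W.distM S.W.m1) _) ?_
  refine OddZero.of_iso ?_ (hL.odd_MN'.tensS j)
  exact α_ _ _ _ ≪≫ α_ _ _ _ ≪≫ whiskerLeftIso D.R
    (whiskerLeftIso S.W.M (β_ _ _) ≪≫ (α_ _ _ _).symm)

/-- the field `β_M` -/
theorem β_M (hL : LocF S) (j : ℤ) :
    Function.Surjective fun x : S.W.M ⊗ Se T j ⟶ r.E => x ▷ Sph T (-1) ≫ r.β :=
  (r.β_M_bij hL j).2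

end Rep

end Vale.Agent.P221X.TC
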