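import Vale.Agent.P221X.TC.Defs
import Vale.Agent.P221X.NM.TopA
import Vale.Agent.P221X.VT.Sum
import Vale.Agent.P251.S.RegF

/-!
# P221X, block TOP-C: the Bockstein map on `V χ (W ⊗ N' ⊗ M)`
-/

open CategoryTheory MonoidalCategory Limits Pretriangulated

set_option linter.unusedSectionVars false

universe u

noncomputable section

namespace Vale.Agent.P221X.TC

open Vale.Agent.P251 Vale.Agent.P251.T Vale.Agent.P251.M Vale.Agent.P251.S Vale.Agent.P251.X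
open Vale.Agent.P251.M.EvenSpheres VT

variable {T : Type u} [Category.{0} T] [Preadditive T] [HasZeroObject T] [HasShift T ℤ]
  [∀ n : ℤ, (shiftFunctor T n).Additive] [Pretriangulated T] [IsTriangulated T]
  [MonoidalCategory T] [SymmetricCategory T] [TensorTriangulated T] [MonoidalClosed T]
  [HasCoproducts.{0} T] [HasProducts.{0} T] [StableCat T]

/-- a triangle whose first map is killed by an exact functor splits -/
theorem split_of_map_zero (G : T ⥤ T) [G.CommShift ℤ] [G.IsTriangulated] {X Y Z : T} {f : X ⟶ Y}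
    {g : Y ⟶ Z} {h : Z ⟶ X⟦(1 : ℤ)⟧} (hT : Triangle.mk f g h ∈ distTriang T) (h0 : G.map f = 0) :
    ∃ (r : G.obj Z ⟶ G.obj Y) (s : G.obj (X⟦(1 : ℤ)⟧) ⟶ G.obj Z), G.map g ≫ r = 𝟙 _ ∧
      s ≫ G.map h = 𝟙 _ ∧ r ≫ G.map g + G.map h ≫ s = 𝟙 _ := by
  have hG := NM.Ex.of_isTriangulated G
  obtain ⟨r, hr⟩ : ∃ r : G.obj Z ⟶ G.obj Y, 𝟙 _ = G.map g ≫ r :=
    hG.contra _ hT _ (𝟙 (G.obj Y)) (by change G.map f ≫ _ = 0; rw [h0, zero_comp])
  obtain ⟨s, hs⟩ : ∃ s : G.obj (X⟦(1 : ℤ)⟧) ⟶ G.obj Z, 𝟙 _ - r ≫ G.map g = G.map h ≫ s :=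
    hG.contra _ (rot_of_distTriang _ hT) _ (𝟙 (G.obj Z) - r ≫ G.map g) (by
      change G.map g ≫ _ = 0
      rw [Preadditive.comp_sub, ← Category.assoc, ← hr, Category.comp_id, Category.id_comp,
        sub_self])
  have hz : G.map g ≫ G.map h = 0 := hG.zero _ (rot_of_distTriang _ hT)
  have h2 : G.map h ≫ (s ≫ G.map h - 𝟙 (G.obj (X⟦(1 : ℤ)⟧))) = 0 := by
    rw [Preadditive.comp_sub, ← Category.assoc, ← hs, Preadditive.sub_comp, Category.assoc, hz,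
      comp_zero, sub_zero, Category.id_comp, Category.comp_id, sub_self]
  obtain ⟨t, ht⟩ : ∃ t : G.obj (Y⟦(1 : ℤ)⟧) ⟶ G.obj (X⟦(1 : ℤ)⟧),
      s ≫ G.map h - 𝟙 (G.obj (X⟦(1 : ℤ)⟧)) = G.map (-f⟦(1 : ℤ)⟧') ≫ t :=
    hG.contra _ (rot_of_distTriang _ (rot_of_distTriang _ hT)) _ _ h2
  have h1 : G.map (f⟦(1 : ℤ)⟧') = 0 := by
    rw [← cancel_mono ((G.commShiftIso (1 : ℤ)).hom.app Y), zero_comp,
      Functor.commShiftIso_hom_naturality, h0, Functor.map_zero, comp_zero]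
  rw [G.map_neg, h1, neg_zero, zero_comp, sub_eq_zero] at ht
  exact ⟨r, s, hr.symm, ht, by rw [← hs, add_sub_cancel]⟩

theorem zsmul_whiskerRight {n : ℤ} {W : T} (h : n • 𝟙 W = 0) (X : T) : n • 𝟙 (W ⊗ X) = 0 := by
  have h1 : (tensorRight X).map (n • 𝟙 W) = n • (tensorRight X).map (𝟙 W) := Functor.map_zsmul _
  rw [h, Functor.map_zero, CategoryTheory.Functor.map_id] at h1
  exact h1.symm

theorem zsmul_of_uProd {n : ℤ} {M : T} {i : 𝟙_ T ⟶ M} {δ : M ⟶ (𝟙_ T)⟦(1 : ℤ)⟧}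
    (hT : Triangle.mk (n • 𝟙 (𝟙_ T)) i δ ∈ distTriang T) (m : P257.H314.UProd M i) :
    n • 𝟙 M = 0 := by
  have h1 : n • i = 0 := by
    have : (n • 𝟙 (𝟙_ T)) ≫ i = 0 := comp_distTriang_mor_zero₁₂ _ hT
    simpa using this
  have h2 : (tensorRight M).map (n • i) = n • (tensorRight M).map i := Functor.map_zsmul _
  rw [h1, Functor.map_zero] at h2
  rw [← cancel_epi (λ_ M).hom, Preadditive.comp_zsmul, Category.comp_id, ← m.left_unit,
    ← Preadditive.zsmul_comp, show n • i ▷ M = 0 from h2.symm, zero_comp, comp_zero]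

variable {P : T} [MonObj P] [IsCommMonObj P] {B : Type*} [CommRing B]
  (χ : HRing (stdEven T) P →+* B)

theorem hz_of_odd {Y Y' : T} (h : OddZero Y) {k : ℤ} (hk : Odd k) (a : Y' ≅ Y⟦k⟧) (j : ℤ) :
    NM.HZ (Se T j) Y' :=
  (NM.HZ.shift (h (2 * j - k) (Even.sub_odd (even_two_mul j) hk)) k).iso
    (NM.shAdd _ _ _ _ (sub_add_cancel _ _) ≪≫ ((stdEven T).sphIso (Iso.refl _) j).symm) a.symm

/-- the theory vanishes on an odd suspension of an even object -/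
theorem V_eq_zero {Y Y' : T} (h : OddZero (P ⊗ Y)) {k : ℤ} (hk : Odd k) (a : Y' ≅ Y⟦k⟧)
    (x : V χ Y') : x = 0 := by
  induction x using V.ind with
  | zero => rfl
  | smul b j x =>
    rw [hz_of_odd h hk (whiskerLeftIso P a ≪≫ ((tensorLeft P).commShiftIso k).app Y) j x, V.of,
      map_zero, map_zero, smul_zero]
  | add x y hx hy => rw [hx, hy, add_zero]

theorem V_map_ret {X Y : T} {f : X ⟶ Y} {g : Y ⟶ X} (h : f ≫ g = 𝟙 X) (x : V χ X) :
    V.map χ g (V.map χ f x) = x := by rw [V.map_map, h, V.map_id, LinearMap.id_apply]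

theorem V_map_sum {X Y Z : T} {r : Z ⟶ Y} {g : Y ⟶ Z} {h : Z ⟶ X} {s : X ⟶ Z}
    (e : r ≫ g + h ≫ s = 𝟙 Z) (x : V χ Z) :
    x = V.map χ g (V.map χ r x) + V.map χ s (V.map χ h x) := by
  rw [V.map_map, V.map_map, ← LinearMap.add_apply, ← V.map_add', e, V.map_id, LinearMap.id_apply]

variable {n : ℤ} {M : T} {i : 𝟙_ T ⟶ M} {δ : M ⟶ (𝟙_ T)⟦(1 : ℤ)⟧}
  (hT : Triangle.mk (n • 𝟙 (𝟙_ T)) i δ ∈ distTriang T) {W N' : T} (hW : n • 𝟙 W = 0)
  (ho : OddZero (P ⊗ (W ⊗ N')))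

include hT hW ho

/-- the bottom cell of `M` induces a bijection -/
theorem V_bot_bij : Function.Bijective (V.map χ (W ◁ N' ◁ i)) := by
  obtain ⟨r, s, h₁, -, h₃⟩ := split_of_map_zero (tensorLeft N' ⋙ tensorLeft W) hT (by
    rw [Functor.map_zsmul, CategoryTheory.Functor.map_id]; exact zsmul_whiskerRight hW _)
  refine ⟨Function.LeftInverse.injective (V_map_ret χ h₁), fun y => ⟨V.map χ r y, ?_⟩⟩
  have := V_map_sum χ h₃ y
  rw [V_eq_zero χ ho odd_one ((α_ W N' _).symm ≪≫ tensorSph 1 (W ⊗ N')) (V.map χ _ y), map_zero,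
    add_zero] at this
  exact this.symm

/-- the top cell of `M` induces a bijection -/
theorem V_top_bij : Function.Bijective (V.map χ (W ◁ N' ◁ Sph T (-1) ◁ δ)) := by
  obtain ⟨r, s, -, h₂, h₃⟩ := split_of_map_zero
    (tensorLeft (Sph T (-1)) ⋙ tensorLeft N' ⋙ tensorLeft W) hT (by
      rw [Functor.map_zsmul, CategoryTheory.Functor.map_id]; exact zsmul_whiskerRight hW _)
  refine ⟨(injective_iff_map_eq_zero _).2 fun x hx => ?_,
    Function.RightInverse.surjective (V_map_ret χ h₂)⟩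
  have := V_map_sum χ h₃ x
  rw [V_eq_zero χ ho (odd_neg.2 odd_one) (whiskerLeftIso W (whiskerLeftIso N' (ρ_ _)) ≪≫
    (α_ W N' _).symm ≪≫ tensorSph (-1) (W ⊗ N')) (V.map χ r x), map_zero, zero_add] at this
  exact this.trans ((congrArg (V.map χ s) hx).trans (map_zero _))

/-- the Bockstein map induces a bijection -/
theorem V_bock_bij (c : Sph T (-1) ⊗ (𝟙_ T)⟦(1 : ℤ)⟧ ≅ 𝟙_ T)
    (c₀ : Sph T (-1) ⊗ (N' ⊗ M) ≅ N' ⊗ (Sph T (-1) ⊗ M)) :
    Function.Bijective (V.map χ ((α_ W (Sph T (-1)) (N' ⊗ M)).hom ≫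
      W ◁ (c₀.hom ≫ N' ◁ (Sph T (-1) ◁ δ ≫ c.hom ≫ i)))) := by
  simp only [MonoidalCategory.whiskerLeft_comp, V.map_comp, LinearMap.coe_comp]
  exact ((((V_bot_bij χ hT hW ho).comp (V.map_bijective χ _)).comp (V_top_bij χ hT hW ho)).comp
    (V.map_bijective χ _)).comp (V.map_bijective χ _)

end Vale.Agent.P221X.TC
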