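import Vale.Agent.P221X.TD.Twr
import Vale.Agent.P221X.VT.Act
import Vale.Agent.P221X.GD.LP
import Vale.Agent.P221X.Meas.KO
import Vale.Agent.P251.F.RJ

/-!
# P221X, block TOP-C: the interfaces

* `TS D p F` : the topological setting (tower, telescopes, localisations, `N'`, the point `χ`);
* `BG p F G G'` : the groups `G = G''` of all pairs and `G' = G / μ_{p-1}`;
* `LocF S` : the localisation `Le` on modules (row LOC);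
* `BD S b` : the homotopy of `b = C ⊗ M` (row BD);
* `E2 S B` : the two-periodic object; `Kap X` : its `MU`-homology after inverting `v₁`;
* `E1 S B` : the object `E`; `EtaD`, `JD` : the remaining fields of `ED`;
* `RowHT1`, `RowPTS` : the algebraic rows.
-/

open CategoryTheory MonoidalCategory Limits Pretriangulated PowerSeries TensorProduct

set_option linter.unusedSectionVars false

universe u

noncomputable section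

namespace Vale.Agent.P221X.TC

open Vale.Agent.P251 Vale.Agent.P251.T Vale.Agent.P251.M Vale.Agent.P251.S Vale.Agent.P251.F
  Vale.Agent.P251.I Vale.Agent.P251.X Vale.Agent.P251.Z Vale.Agent.P217
open Vale.Agent.P251.M.EvenSpheres ProG

/-! ### Groups -/

section groups

variable (p : ℕ) [Fact p.Prime] (F : Type) [Field F]

/-- `a` is the identity modulo `u ^ n` and `x ^ (n + 2)` -/
def Small (n : ℕ) (a : Qt.LP p F) : Prop :=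
  (∀ f, (X : F⟦X⟧) ^ n ∣ a.φ f - f) ∧
    ∀ k ≤ n, (X : F⟦X⟧) ^ n ∣ a.γ.c k - (1 : InvSeries F⟦X⟧).c k

/-- `a` fixes the constants and is the identity modulo `u` and `x ^ (n + 2)` -/
def Small0 (n : ℕ) (a : Qt.LP p F) : Prop :=
  (∀ c : F, a.φ (C c) = C c) ∧ ∀ k ≤ n, (X : F⟦X⟧) ∣ a.γ.c k - (1 : InvSeries F⟦X⟧).c k

/-- the measures -/
abbrev MG (G F : Type) [Group G] [ProG G] [Field F] : Type := Meas G F⟦X⟧ (KO F)

/-- The group `G` of all pairs and its quotient `G'` by `μ_{p-1}`. -/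
structure BG [CharP F p] (G G' : Type) [Group G] [ProG G] [MulSemiringAction G F⟦X⟧]
    [MulSemiringAction G (KK F)] [Group G'] [ProG G'] [MulSemiringAction G' (KK F)] where
  card : Nat.card F = p ^ 2
  emb : G ≃* Qt.LP p F
  emb_O : ∀ (g : G) (f : F⟦X⟧), g • f = (emb g).φ f
  cof1 : ∀ n, ∃ i, ∀ g ∈ N (G := G) i, Small p F n (emb g)
  cof2 : ∀ i, ∃ n, ∀ g, Small0 p F n (emb g) → g ∈ N (G := G) i
  π : G →* G'
  π_surj : Function.Surjective π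
  π_cont : IsCont π
  π_open : ∀ i, ∃ j, ∀ g' ∈ N (G := G') j, ∃ g ∈ N (G := G) i, π g = g'
  π_K : ∀ (g : G) (z : KK F), π g • z = g • z
  c : (ZMod p)ˣ →* G
  ker : ∀ g, π g = 1 ↔ ∃ ζ, c ζ = g
  c_comm : ∀ ζ g, c ζ * g = g * c ζ
  c_φ : ∀ ζ, (emb (c ζ)).φ = 1
  c_γ : ∀ ζ, (emb (c ζ)).γ = InvSeries.lin
    (Units.map ((C : F →+* F⟦X⟧).comp (ZMod.castHom (dvd_refl p) F) : ZMod p →* F⟦X⟧) ζ)
  ψ : G
  ψ_comm : ∀ g, ψ * g = g * ψ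
  ψ_φ : (emb ψ).φ = 1
  ψ_γ : (emb ψ).γ.val = multSeries (Qt.FO p F).toFG (1 + p)

/-- Schur's lemma for the action of the measures on `K` -/
def Schur (G F : Type) [Group G] [ProG G] [Field F] [MulSemiringAction G F⟦X⟧]
    [MulSemiringAction G (KK F)] [ActK G F] : Prop :=
  ∀ φ : KK F →+ KK F, (∀ (μ : MG G F) z, φ (Meas.actK μ z) = Meas.actK μ (φ z)) →
    ∃ c : F, ∀ z, φ z = c • z

/-- the law over `K` -/
def FK : Law (KK F) := (Qt.FO p F).map (algebraMap F⟦X⟧ (KK F))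

/-- the generic law isomorphic to `Φ` -/
def genLaw {B : Type} [CommRing B] (Φ : Law B) : Law (OInv B) := OInv.f B • Φ.map (OInv.inc B)

/-- right translation by the series `γ` over `O` -/
def rhoK {F : Type} [Field F] (γ : InvSeries F⟦X⟧) : OInv (KK F) →+* OInv (KK F) :=
  OInv.lift (OInv.inc _) (OInv.f _ *
    InvSeries.map ((OInv.inc (KK F)).comp (algebraMap F⟦X⟧ (KK F))) γ)

variable {p F} [CharP F p] {G G' : Type} [Group G] [ProG G] [MulSemiringAction G F⟦X⟧]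
  [MulSemiringAction G (KK F)] [Group G'] [ProG G'] [MulSemiringAction G' (KK F)]
  (B : BG p F G G')

/-- the linear coefficient of the series of `g` -/
def BG.a (g : G) : F⟦X⟧ˣ := (B.emb g).γ.lead

/-- the point of `OInv O` which is defined by `g` -/
def BG.pt (g : G) : OInv F⟦X⟧ →+* F⟦X⟧ := OInv.lift (B.emb g).φ (B.emb g).γ

/-- Row HT1 (algebra): the functions on the isomorphisms out of the law of height one `FK`. -/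
def RowHT1 : Prop :=
  ∃ hF : IsTy p 1 1 (FK p F), Function.Injective (RJ.toO (k := KK F) hF) ∧
    (∀ t, t ∈ (RJ.toO (k := KK F) hF).range ↔
      rhoK (B.emb B.ψ).γ t = t ∧ ∀ ζ, rhoK (B.emb (B.c ζ)).γ t = t) ∧
    ∀ t, ∃ s, rhoK (B.emb B.ψ).γ s - s = t

/-- `OInv O ⊗_O K / O` as a module over `A` through `χT` -/
def TK {A : Type} [CommRing A] (_χT : A →+* OInv F⟦X⟧) : Type := OInv F⟦X⟧ ⊗[F⟦X⟧] KO F

instance {A : Type} [CommRing A] (χT : A →+* OInv F⟦X⟧) : AddCommGroup (TK χT) :=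
  inferInstanceAs (AddCommGroup (OInv F⟦X⟧ ⊗[F⟦X⟧] KO F))

instance {A : Type} [CommRing A] (χT : A →+* OInv F⟦X⟧) : Module (OInv F⟦X⟧) (TK χT) :=
  inferInstanceAs (Module (OInv F⟦X⟧) (OInv F⟦X⟧ ⊗[F⟦X⟧] KO F))

instance {A : Type} [CommRing A] (χT : A →+* OInv F⟦X⟧) : Module A (TK χT) :=
  Module.compHom (TK χT) χT

/-- the pure tensors -/
def TK.tm {A : Type} [CommRing A] (χT : A →+* OInv F⟦X⟧) (t : OInv F⟦X⟧) (y : KO F) : TK χT :=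
  (t ⊗ₜ[F⟦X⟧] y : OInv F⟦X⟧ ⊗[F⟦X⟧] KO F)

/-- Row PTS (algebra): `O ⊗_A (OInv O ⊗_O K / O)` is the module of locally constant functions. -/
def RowPTS [ActK G F] : Prop :=
  ∀ (A : Type) [CommRing A] (L : Laz →+* A) (χ : A →+* F⟦X⟧) (χT : A →+* OInv F⟦X⟧),
    χ.comp L = Laz.lift (Qt.FO p F) → χT.comp L = Laz.lift (genLaw (Qt.FO p F)) →
    (∀ g, (B.pt g).comp χT = χ) →
    ∃ Ev : VT.BC χ (TK χT) →ₗ[F⟦X⟧] LC G (KO F), Function.Bijective Ev ∧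
      ∀ t y g, Ev (VT.BC.mk χ (TK.tm χT t y)) g = B.pt g t • g • y

end groups

/-! ### The topological setting -/

variable {T : Type u} [Category.{0} T] [Preadditive T] [HasZeroObject T] [HasShift T ℤ]
  [∀ n : ℤ, (shiftFunctor T n).Additive] [Pretriangulated T] [IsTriangulated T]
  [MonoidalCategory T] [SymmetricCategory T] [TensorTriangulated T] [MonoidalClosed T]
  [HasCoproducts.{0} T] [HasProducts.{0} T] [StableCat T]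

/-- the even spheres `S^{2j}` -/
abbrev Se (T : Type u) [Category.{0} T] [Preadditive T] [HasZeroObject T] [HasShift T ℤ]
    [∀ n : ℤ, (shiftFunctor T n).Additive] [Pretriangulated T] [MonoidalCategory T]
    [SymmetricCategory T] [TensorTriangulated T] (j : ℤ) : T := (stdEven T).S j

/-- the even homotopy -/
abbrev He (Y : T) : Type := HMod (stdEven T) Y

/-- a homogeneous element of the even homotopy -/
abbrev He.of (Y : T) (j : ℤ) : (Se T j ⟶ Y) →+ He Y := DirectSum.of ((stdEven T).Gr Y) j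

/-- the endomorphism of the even homotopy of `Z ⊗ V` induced by `f : S^{2d} ⊗ V ⟶ V` -/
def fw {V : T} {d : ℤ} (f : Se T d ⊗ V ⟶ V) (Z : T) : He (Z ⊗ V) →+ He (Z ⊗ V) :=
  DirectSum.toAddMonoid fun j => AddMonoidHom.mk'
    (fun x : Se T j ⟶ Z ⊗ V => He.of (Z ⊗ V) (d + j) ((stdEven T).ext rfl (𝟙 (Se T d)) x ≫
      (α_ _ _ _).inv ≫ (β_ (Se T d) Z).hom ▷ V ≫ (α_ _ _ _).hom ≫ Z ◁ f))
    fun x y => by rw [ext_add_right, Preadditive.add_comp, map_add]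

/-- the homotopy of `Z ⊗ V` is `f`-power torsion -/
def Tors {V : T} {d : ℤ} (f : Se T d ⊗ V ⟶ V) (Z : T) : Prop :=
  ∀ (k : ℤ) (x : He (Z⟦k⟧ ⊗ V)), ∃ n : ℕ, (fw f (Z⟦k⟧))^[n] x = 0

/-- The topological setting. -/
structure TS (D : MUData T) (p : ℕ) [Fact p.Prime] (F : Type) [Field F] where
  h5 : 5 ≤ p
  W : TD.Twr D p
  T1 : T
  T2 : T
  tel1 : ∀ Z, IsZero (Z ⊗ T1) ↔ Tors W.f1 Z
  tel2 : ∀ Z, IsZero (Z ⊗ T2) ↔ Tors W.f2 Z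
  Le : LocFunctor (D.R ⊗ T1)
  Lh : LocFunctor (D.R ⊗ T2)
  N' : T
  iN : Le.L.obj (𝟙_ T) ⟶ N'
  δN : N' ⟶ (𝟙_ T)⟦(1 : ℤ)⟧
  distN : Triangle.mk (Le.u (𝟙_ T)) iN δN ∈ distTriang T
  χ : HRing (stdEven T) D.R →+* F⟦X⟧
  law : D.law.map χ = Qt.FO p F

variable {D : MUData T} {p : ℕ} [Fact p.Prime] {F : Type} [Field F]

/-- Row TS: the setting exists on every tower. -/
def RowTS (D : MUData T) (p : ℕ) [Fact p.Prime] (F : Type) [Field F] : Prop :=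
  5 ≤ p → CharP F p → ∀ W : TD.Twr D p, ∃ S : TS D p F, S.W = W

/-- the class `v_i` in the homotopy ring -/
def vA (D : MUData T) (p i : ℕ) : HRing (stdEven T) D.R := HRing.of (stdEven T) D.R _ (D.vel p i)

/-- the action of the homotopy ring on the even homotopy of a module -/
def sm {Y : T} (a : ModStr D.R Y) (z : HRing (stdEven T) D.R) (y : He Y) : He Y :=
  letI := hModule (E := stdEven T) a
  z • y

/-- the map on the even homotopy -/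
def He.map {Y Y' : T} (f : Y ⟶ Y') : He Y →+ He Y' :=
  DirectSum.toAddMonoid fun j => AddMonoidHom.mk' (fun x : Se T j ⟶ Y => He.of Y' j (x ≫ f))
    fun x y => by rw [Preadditive.add_comp, map_add]

namespace TS

variable (S : TS D p F)

/-- the class of height one -/
abbrev Ke : T := D.R ⊗ S.T1

/-- the class of height two -/
abbrev Kh : T := D.R ⊗ S.T2

/-- the local sphere -/
abbrev LS : T := S.Le.L.obj (𝟙_ T)

/-- `N = N' ⊗ M` -/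
abbrev N : T := S.N' ⊗ S.W.M

/-- `Y ⟶ Y ⊗ LS` -/
def toL (Y : T) : Y ⟶ Y ⊗ S.LS := (ρ_ Y).inv ≫ Y ◁ S.Le.u (𝟙_ T)

end TS

/-- Row LOC: the localisations. -/
structure LocF (S : TS D p F) : Prop where
  bdd : ∀ (W : T) (n₀ : ℤ), (∀ n ≥ n₀, ∀ x : Sph T n ⟶ W, x = 0) →
    Acyclic S.Kh W ∧ Acyclic S.Ke W
  bdd1 : ∀ (W : T) (n₀ : ℤ), (∀ n ≥ n₀, ∀ x : Sph T n ⟶ W ⊗ S.W.V1, x = 0) → Acyclic S.Kh W
  acV1 : Acyclic S.Ke S.W.V1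
  acN : Acyclic S.Ke S.N'
  zero1 : ∀ Y, IsZero (S.Le.L.obj Y ⊗ S.W.V1)
  acyc1 : ∀ Y, IsZero (Y ⊗ S.W.V1) → Acyclic S.Kh Y
  keq : ∀ Y, KEq S.Ke (S.toL Y)
  loc : ∀ (Y : T) (_ : ModStr D.R Y), (p : ℤ) • 𝟙 Y = 0 → IsZero (Y ⊗ S.W.V1) → IsLocal S.Ke Y
  /-- the class of height one is detected by `R ⊗ LS ⊗ M` -/
  keq_of : ∀ {Y Y' : T} (f : Y ⟶ Y'), IsIso (D.R ◁ (f ▷ S.LS)) → KEq S.Ke f
  /-- for a module killed by `p` the localisation inverts `v₁` -/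
  inv : ∀ (Y : T) (a : ModStr D.R Y), (p : ℤ) • 𝟙 Y = 0 →
    IsIso (TD.mulR (S.Le.mod a) (D.vel p 1)) ∧
      Function.Bijective (sm (S.Le.mod a) (vA D p 1))
  surj : ∀ (Y : T) (a : ModStr D.R Y), (p : ℤ) • 𝟙 Y = 0 → ∀ y : He (S.Le.L.obj Y),
    ∃ (n : ℕ) (x : He Y), sm (S.Le.mod a) (vA D p 1 ^ n) y = He.map (S.Le.u Y) x
  ker : ∀ (Y : T) (a : ModStr D.R Y), (p : ℤ) • 𝟙 Y = 0 → ∀ x : He Y,
    He.map (S.Le.u Y) x = 0 → ∃ n : ℕ, sm a (vA D p 1 ^ n) x = 0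
  odd : ∀ (Y : T) (_ : ModStr D.R Y), (p : ℤ) • 𝟙 Y = 0 → OddZero Y → OddZero (S.Le.L.obj Y)
  /-- the homotopy of `Y ⊗ N` is `v₁`-power torsion -/
  tors : ∀ (Y : T) (a : ModStr D.R Y) (x : He (Y ⊗ S.N)),
    ∃ n : ℕ, sm (a.tensorRight S.N) (vA D p 1 ^ n) x = 0

/-- The homotopy of `b`: `𝔽_p[v₁, v₂]`, `v₁ ↦ u`, `v₂ ↦ 1`. -/
structure BD [CharP F p] (S : TS D p F) (b : T) where
  mod : ModStr D.R b
  pb : (p : ℤ) • 𝟙 b = 0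
  odd : OddZero b
  lam : He b →+ F⟦X⟧
  lam_sm : ∀ z y, lam (sm mod z y) = S.χ z * lam y
  inj : ∀ (j : ℤ) (y : Se T j ⟶ b), lam (He.of b j y) = 0 → y = 0
  range : ∀ (j : ℤ) (f : F⟦X⟧), (∃ y : Se T j ⟶ b, lam (He.of b j y) = f) ↔
    ∀ i : ℕ, coeff i f ∈ (ZMod.castHom (dvd_refl p) F).range ∧
      (coeff i f ≠ 0 → ∃ k : ℕ, j = ((p : ℤ) - 1) * (i + (p + 1) * k))

variable [CharP F p] {G G' : Type} [Group G] [ProG G] [MulSemiringAction G F⟦X⟧]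
  [MulSemiringAction G (KK F)] [ActK G F] [Group G'] [ProG G'] [MulSemiringAction G' F⟦X⟧]
  [MulSemiringAction G' (KK F)] [ActK G' F]

/-- The two-periodic object. -/
structure E2 (S : TS D p F) (B : BG p F G G') where
  E : T
  lam : MG G F →+* End E
  lam_bij : Function.Bijective lam
  mod : ModStr D.R E
  pE : (p : ℤ) • 𝟙 E = 0
  loc : IsLocal S.Kh E
  o_lin : ∀ f, mod.IsLinear mod (lam (Meas.ofO G (KO F) f))
  c_lin : ∀ ζ, mod.IsLinear mod (lam (Meas.ofG F⟦X⟧ (KO F) (B.c ζ)))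
  v_lam : ∀ μ, TD.mulR mod (D.vel p 1) ≫ lam μ = (lam μ : E ⟶ E) ▷ _ ≫ TD.mulR mod (D.vel p 1)
  v2_iso : IsZero (E ⊗ S.W.V2)
  per : ∀ j : ℤ, E ⊗ Se T j ≅ E
  per_g : ∀ (j : ℤ) (g : G), (per j).hom ≫ lam (Meas.ofG F⟦X⟧ (KO F) g) =
    (lam (Meas.ofO G (KO F) ((B.a g ^ (-j) : F⟦X⟧ˣ) : F⟦X⟧) * Meas.ofG F⟦X⟧ (KO F) g) : E ⟶ E) ▷ _ ≫
      (per j).hom
  per_o : ∀ (j : ℤ) (f : F⟦X⟧), (per j).hom ≫ lam (Meas.ofO G (KO F) f) =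
    (lam (Meas.ofO G (KO F) f) : E ⟶ E) ▷ _ ≫ (per j).hom
  per_lin : ∀ j, (mod.tensorRight (Se T j)).IsLinear mod (per j).hom
  β : E ⊗ Sph T (-1) ⟶ E
  β_comm : ∀ μ, (lam μ : E ⟶ E) ▷ _ ≫ β = β ≫ lam μ
  β_bij : Function.Bijective fun μ => (β ≫ lam μ : E ⊗ Sph T (-1) ⟶ E)
  β_lin : (mod.tensorRight (Sph T (-1))).IsLinear mod β
  β_M : ∀ j : ℤ, Function.Surjective fun x : S.W.M ⊗ Se T j ⟶ E => x ▷ Sph T (-1) ≫ β
  odd : OddZero E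
  pe : ∀ j : ℤ, (Se T j ⟶ E) ≃+ F⟦X⟧
  pe_g : ∀ (j : ℤ) (x : Se T j ⟶ E) (g : G), pe j (x ≫ lam (Meas.ofG F⟦X⟧ (KO F) g)) =
    ((B.a g ^ (-j) : F⟦X⟧ˣ) : F⟦X⟧) * g • pe j x
  pe_lam : ∀ (a : ℤ) (x : Se T (((p : ℤ) - 1) * a) ⟶ E) (μ : MG G F),
    KK.uz (-a) * algebraMap F⟦X⟧ (KK F) (pe _ (x ≫ lam μ)) =
      Meas.actK μ (KK.uz (-a) * algebraMap F⟦X⟧ (KK F) (pe _ x))
  pe_mod : ∀ {i j k : ℤ} (h : i + j = k) (z : Se T i ⟶ D.R) (x : Se T j ⟶ E),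
    pe k (gsmul mod h z x) = S.χ (HRing.of (stdEven T) D.R i z) * pe j x
  pe_per : ∀ {i j k : ℤ} (h : i + j = k) (x : Se T i ⟶ E),
    pe k ((stdEven T).ext h x (𝟙 (Se T j)) ≫ (per j).hom) = pe i x
  real : ∀ (Y : T) (a : ModStr D.R Y), (p : ℤ) • 𝟙 Y = 0 → OddZero Y →
    Function.Injective (sm a (vA D p 1)) → ∀ l : He Y →+ F⟦X⟧,
      (∀ z y, l (sm a z y) = S.χ z * l y) →
        ∃ f : Y ⟶ E, a.IsLinear mod f ∧
          ∀ (j : ℤ) (y : Se T j ⟶ Y), pe j (y ≫ f) = l (He.of Y j y)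

variable {S : TS D p F} {B : BG p F G G'}

/-- The `MU`-homology of the two-periodic object and of the Moore spectrum, `v₁` inverted. -/
structure Kap (X : E2 S B) where
  χK : HRing (stdEven T) D.R →+* OInv (KK F)
  lawK : D.law.map χK = genLaw (FK p F)
  κ : MP (stdEven T) D.R (X.E ⊗ S.LS) ≃+ OInv (KK F)
  κ_smul : ∀ z x, κ (z • x) = χK z * κ x
  κ_g : ∀ g : G, (B.emb g).φ = 1 → ∀ x,
    κ (MP.map _ D.R ((X.lam (Meas.ofG F⟦X⟧ (KO F) g) : X.E ⟶ X.E) ▷ S.LS) x) =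
      rhoK (B.emb g).γ (κ x)
  κ_pi : ∀ (j : ℤ) (x : Se T j ⟶ X.E),
    κ (MP.map _ D.R (x ≫ S.toL X.E) (MP.gen _ D.R j)) =
      (((OInv.f (KK F)).lead ^ (-j) : (OInv (KK F))ˣ) : OInv (KK F)) *
        OInv.inc _ (algebraMap F⟦X⟧ (KK F) (X.pe j x))
  odd : OddZero (D.R ⊗ (X.E ⊗ S.LS))
  nn : MP (stdEven T) D.R (S.W.M ⊗ S.LS) ≃+ NN p 1 1
  nn_smul : ∀ (z : Laz) x, nn (L0 D z • x) = algebraMap (QN p 1 1) (NN p 1 1)
    (Ideal.Quotient.mk _ z) * nn x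
  nn_one : nn (MP.map _ D.R (S.W.iM ≫ S.toL S.W.M) (MP.one _ D.R)) = 1
  oddM : OddZero (D.R ⊗ (S.W.M ⊗ S.LS))

/-- The object `E`, a retract of the two-periodic object. -/
structure E1 (X : E2 S B) where
  E : T
  i : E ⟶ X.E
  r : X.E ⟶ E
  i_r : i ≫ r = 𝟙 E
  r_i : ((p : ℤ) - 1) • (r ≫ i) = ∑ ζ, (X.lam (Meas.ofG F⟦X⟧ (KO F) (B.c ζ)) : X.E ⟶ X.E)
  lam : MG G' F →+* End E
  lam_bij : Function.Bijective lam
  lam_g : ∀ g : G, (lam (Meas.ofG F⟦X⟧ (KO F) (B.π g)) : E ⟶ E) =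
    i ≫ X.lam (Meas.ofG F⟦X⟧ (KO F) g) ≫ r
  lam_o : ∀ f, (lam (Meas.ofO G' (KO F) f) : E ⟶ E) = i ≫ X.lam (Meas.ofO G (KO F) f) ≫ r
  mod : ModStr D.R E
  i_lin : mod.IsLinear X.mod i
  r_lin : X.mod.IsLinear mod r
  van : ∀ n : ℤ, ¬ (2 * p - 2 : ℤ) ∣ n → ¬ (2 * p - 2 : ℤ) ∣ n + 1 → ∀ x : E⟦n⟧ ⟶ E, x = 0
  per : E⟦(2 * p - 2 : ℤ)⟧ ≅ E
  per_tt : per.hom ≫ lam (Meas.ofG F⟦X⟧ (KO F) (B.π B.ψ) - 1) =
    (lam (Meas.ofG F⟦X⟧ (KO F) (B.π B.ψ) - 1))⟦(2 * p - 2 : ℤ)⟧' ≫ per.hom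
  β : E ⟶ E⟦(1 : ℤ)⟧
  β_comm : ∀ x, lam x ≫ β = β ≫ (lam x)⟦(1 : ℤ)⟧'
  β_bij : Function.Bijective fun x => (lam x ≫ β : E ⟶ E⟦(1 : ℤ)⟧)
  /-- the homotopy of `E` is the homotopy of the two-periodic object in the degrees `q a` -/
  pi_i : ∀ a : ℤ, Function.Bijective fun x : Se T (((p : ℤ) - 1) * a) ⟶ E => x ≫ i
  πE_van : ∀ n : ℤ, ¬ (2 * p - 2 : ℤ) ∣ n → ∀ x : Sph T n ⟶ E, x = 0
  /-- the homotopy of `Le E`, with the even spheres -/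
  ke : ∀ a : ℤ, (Se T (((p : ℤ) - 1) * a) ⟶ S.Le.L.obj E) ≃+ KK F
  ke_lam : ∀ a x μ, ke a (x ≫ S.Le.L.map (lam μ)) = Meas.actK μ (ke a x)
  ke_u : ∀ (a : ℤ) (x : Se T (((p : ℤ) - 1) * a) ⟶ E),
    ke a (x ≫ S.Le.u E) = KK.uz (-a) * algebraMap F⟦X⟧ (KK F) (X.pe _ (x ≫ i))
  ke_v : ∀ (a : ℤ) (h : ((p : ℤ) ^ 1 - 1) + ((p : ℤ) - 1) * a = ((p : ℤ) - 1) * (a + 1))
    (x : Se T (((p : ℤ) - 1) * a) ⟶ S.Le.L.obj E),
    ke (a + 1) (gsmul (S.Le.mod mod) h (D.vel p 1) x) = ke a x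
  πV_van : ∀ n : ℤ, ¬ (2 * p - 2 : ℤ) ∣ n → ∀ x : Sph T n ⟶ S.Le.L.obj E, x = 0
  β_M : ∀ a : ℤ, Function.Surjective
    fun x : S.W.M⟦(2 * p - 2 : ℤ) * a⟧ ⟶ S.Le.L.obj E => x ≫ S.Le.L.map β

variable {X : E2 S B}

/-- The fields of `ED` about `b`. -/
structure EtaD (Y : E1 X) (b : T) where
  iE : S.Lh.L.obj b ⟶ Y.E
  rE : Y.E ⟶ S.Lh.L.obj b
  iE_rE : iE ≫ rE = 𝟙 _
  lat : ∀ n k : ℤ, NM.FinKer (NM.frac S.Lh.unit S.Le.unit (S.W.M⟦n⟧) (b⟦k⟧)) ∧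
    NM.FinCoker (NM.frac S.Lh.unit S.Le.unit (S.W.M⟦n⟧) (b⟦k⟧))

/-- The fields of `ED` about `A` and `J = Le (M⟦1⟧)`. -/
structure JD (Y : E1 X) where
  A : T
  iA : Y.E ⟶ A
  dA : A ⟶ Y.E⟦(1 : ℤ)⟧
  distA : Triangle.mk (Y.lam (Meas.ofG F⟦X⟧ (KO F) (B.π B.ψ) - 1)) iA dA ∈ distTriang T
  J_loc : ∀ I : Type, IsLocal S.Ke (∐ fun _ : I => S.Le.L.obj (S.W.M⟦(1 : ℤ)⟧))
  πJ_van : ∀ n : ℤ, ¬ (2 * p - 2 : ℤ) ∣ n → ¬ (2 * p - 2 : ℤ) ∣ n - 1 →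
    ∀ x : Sph T n ⟶ S.Le.L.obj (S.W.M⟦(1 : ℤ)⟧), x = 0
  πJ_gen : ∀ n : ℤ, (2 * p - 2 : ℤ) ∣ n ∨ (2 * p - 2 : ℤ) ∣ n - 1 →
    ∃ z : Sph T n ⟶ S.Le.L.obj (S.W.M⟦(1 : ℤ)⟧),
      (∀ x : Sph T n ⟶ S.Le.L.obj (S.W.M⟦(1 : ℤ)⟧), ∃ k : ℤ, x = k • z) ∧
        Function.Bijective fun g : S.Le.L.obj (S.W.M⟦(1 : ℤ)⟧) ⟶ S.Le.L.obj A => z ≫ g

/-- The `Ke`-equivalence from a sum of Moore spectra to `Le A`: on the bottom cells it is a basis of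
`K` over the prime field. -/
def HTop (Y : E1 X) : Prop :=
  ∀ (A : T) (iA : Y.E ⟶ A) (dA : A ⟶ Y.E⟦(1 : ℤ)⟧),
    Triangle.mk (Y.lam (Meas.ofG F⟦X⟧ (KO F) (B.π B.ψ) - 1)) iA dA ∈ distTriang T →
    ∃ (I : Type) (_ : Nonempty I) (g : I → (S.W.M⟦(1 : ℤ)⟧ ⟶ S.Le.L.obj A)),
      KEq S.Ke (Sigma.desc g) ∧ Function.Bijective fun n : I →₀ ZMod p =>
        n.sum fun i c => (c.val : ℤ) • g i

/-! ### The rows -/

/-- Row QUO -/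
def RowQUO (S : TS D p F) (B : BG p F G G') : Prop := LocF S → ∀ X : E2 S B, Nonempty (E1 X)

/-- Row ETA -/
def RowETA (S : TS D p F) (B : BG p F G G') : Prop :=
  LocF S → ∀ (X : E2 S B) (Y : E1 X) (b : T), BD S b → Nonempty (EtaD Y b)

/-- Row HTOP -/
def RowHTOP (S : TS D p F) (B : BG p F G G') : Prop :=
  LocF S → RowHT1 B → ∀ (X : E2 S B) (Y : E1 X), Kap X → HTop Y

/-- Row JD -/
def RowJD (S : TS D p F) (B : BG p F G G') : Prop :=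
  LocF S → Schur G' F → ∀ (X : E2 S B) (Y : E1 X), HTop Y → Nonempty (JD Y)

end Vale.Agent.P221X.TC
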