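import Vale.Agent.P221X.TC.Defs

/-!
# P221X, block TOP-C, row QUO: the interface between the two halves (helper24)
-/

open CategoryTheory MonoidalCategory Limits Pretriangulated PowerSeries

set_option linter.all false

universe u

noncomputable section

namespace Vale.Agent.P221X.TC

open Vale.Agent.P251 Vale.Agent.P251.T Vale.Agent.P251.M Vale.Agent.P251.S Vale.Agent.P251.F
  Vale.Agent.P251.I Vale.Agent.P251.X Vale.Agent.P251.Z Vale.Agent.P217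
open Vale.Agent.P251.M.EvenSpheres ProG

variable {T : Type u} [Category.{0} T] [Preadditive T] [HasZeroObject T] [HasShift T ℤ]
  [∀ n : ℤ, (shiftFunctor T n).Additive] [Pretriangulated T] [IsTriangulated T]
  [MonoidalCategory T] [SymmetricCategory T] [TensorTriangulated T] [MonoidalClosed T]
  [HasCoproducts.{0} T] [HasProducts.{0} T] [StableCat T]
  {D : MUData T} {p : ℕ} [Fact p.Prime] {F : Type} [Field F]
  [CharP F p] {G G' : Type} [Group G] [ProG G] [MulSemiringAction G F⟦X⟧]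
  [MulSemiringAction G (KK F)] [ActK G F] [Group G'] [ProG G'] [MulSemiringAction G' F⟦X⟧]
  [MulSemiringAction G' (KK F)] [ActK G' F] {S : TS D p F} {B : BG p F G G'}

/-- The object `E` without the fields about `Le E`. -/
structure E0 (X : E2 S B) where
  E : T
  i : E ⟶ X.E
  r : X.E ⟶ E
  i_r : i ≫ r = 𝟙 E
  r_i : ((p : ℤ) - 1) • (r ≫ i) = ∑ ζ, (X.lam (Meas.ofG F⟦X⟧ (KO F) (B.c ζ)) : X.E ⟶ X.E)
  lam : MG G' F →+* End E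
  lam_bij : Function.Bijective lam
  lam_g : ∀ g : G, (lam (Meas.ofG F⟦X⟧ (KO F) (B.π g)) : E ⟶ E) =
    i ≫ X.lam (Meas.ofG F⟦X⟧ (KO F) g) ≫ r
  lam_o : ∀ f, (lam (Meas.ofO G' (KO F) f) : E ⟶ E) = i ≫ X.lam (Meas.ofO G (KO F) f) ≫ r
  mod : ModStr D.R E
  i_lin : mod.IsLinear X.mod i
  r_lin : X.mod.IsLinear mod r
  van : ∀ n : ℤ, ¬ (2 * p - 2 : ℤ) ∣ n → ¬ (2 * p - 2 : ℤ) ∣ n + 1 → ∀ x : E⟦n⟧ ⟶ E, x = 0
  per : E⟦(2 * p - 2 : ℤ)⟧ ≅ E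
  per_tt : per.hom ≫ lam (Meas.ofG F⟦X⟧ (KO F) (B.π B.ψ) - 1) =
    (lam (Meas.ofG F⟦X⟧ (KO F) (B.π B.ψ) - 1))⟦(2 * p - 2 : ℤ)⟧' ≫ per.hom
  β : E ⟶ E⟦(1 : ℤ)⟧
  β_comm : ∀ x, lam x ≫ β = β ≫ (lam x)⟦(1 : ℤ)⟧'
  β_bij : Function.Bijective fun x => (lam x ≫ β : E ⟶ E⟦(1 : ℤ)⟧)
  /-- the homotopy of `E` is the homotopy of the two-periodic object in the degrees `q a` -/
  pi_i : ∀ a : ℤ, Function.Bijective fun x : Se T (((p : ℤ) - 1) * a) ⟶ E => x ≫ i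
  πE_van : ∀ n : ℤ, ¬ (2 * p - 2 : ℤ) ∣ n → ∀ x : Sph T n ⟶ E, x = 0
  lam_i : ∀ μ : MG G' F, ∃ μ' : MG G F,
    (lam μ : E ⟶ E) ≫ i = i ≫ X.lam μ' ∧ ∀ z, Meas.actK μ z = Meas.actK μ' z
  β_i : ∃ e : E ≅ (E ⊗ Sph T (-1))⟦(1 : ℤ)⟧,
    β = e.hom ≫ (i ▷ Sph T (-1) ≫ X.β ≫ r)⟦(1 : ℤ)⟧'

end Vale.Agent.P221X.TC

end
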