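import Vale.Agent.P221X.TC.Loc
import Vale.Agent.P221X.TA.Ret
import Vale.Agent.P221X.DEP.Main
import Vale.Agent.P251.M.EvenPer
import Vale.Agent.P251.S.RegF

/-!
# P221X, block TOP-C: the row ETA
-/

open CategoryTheory MonoidalCategory Limits Pretriangulated PowerSeries

set_option linter.unusedSectionVars false

universe u

noncomputable section

namespace Vale.Agent.P221X.TC

open Vale.Agent.P251 Vale.Agent.P251.T Vale.Agent.P251.M Vale.Agent.P251.S Vale.Agent.P251.I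
open Vale.Agent.P251.M.EvenSpheres ProG NM TA

namespace Eta

/-- a series over the prime field with support in `s` is a finite sum of monomials -/
theorem mem_span {p : ℕ} {F : Type} [Field F] [CharP F p] {s : ℕ → ℤ} (hs : Function.Injective s)
    (hs' : ∀ k, s k ≤ -k) {z : KK F} (h : ∀ m, KK.cf m z ∈ (ZMod.castHom (dvd_refl p) F).range ∧
      (KK.cf m z ≠ 0 → ∃ k, m = s k)) :
    ∃ (N : ℕ) (n : ℕ → ℤ), z = ∑ k ∈ Finset.range N, n k • KK.uz (s k) := by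
  obtain ⟨N, hN⟩ := KK.exists_ge z
  have h1 : ∀ k, ∃ n : ℤ, (n : F) = KK.cf (s k) z := fun k => by
    obtain ⟨c, hc⟩ := (h (s k)).1
    obtain ⟨n, rfl⟩ := ZMod.intCast_surjective c
    exact ⟨n, by rw [← hc, map_intCast]⟩
  choose n hn using h1
  refine ⟨(1 - N).toNat, n, KK.ext fun m => ?_⟩
  simp only [map_sum, map_zsmul, KK.cf_uz]
  by_cases hm : ∃ k, m = s k
  · obtain ⟨k, rfl⟩ := hm
    rw [Finset.sum_eq_single k (fun j _ hj => by rw [if_neg fun e => hj (hs e).symm, smul_zero])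
      fun hk => by
        rw [if_pos rfl, zsmul_one, hn]
        exact hN _ (by have := hs' k; rw [Finset.mem_range] at hk; omega),
      if_pos rfl, zsmul_one, hn]
  · rw [Finset.sum_eq_zero fun k _ => by rw [if_neg fun e => hm ⟨k, e⟩, smul_zero]]
    exact by_contra fun e => hm ((h m).2 e)

variable {T : Type u} [Category.{0} T] [Preadditive T] [HasZeroObject T] [HasShift T ℤ]
  [∀ n : ℤ, (shiftFunctor T n).Additive] [Pretriangulated T] [IsTriangulated T]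
  [MonoidalCategory T] [SymmetricCategory T] [TensorTriangulated T] [MonoidalClosed T]
  [HasCoproducts.{0} T] [HasProducts.{0} T] [StableCat T]
  {D : MUData T} {p : ℕ} [Fact p.Prime] {F : Type} [Field F]

theorem cp_sm {Y : T} (a : ModStr D.R Y) {i j k : ℤ} (h : i + j = k) (z : Se T i ⟶ D.R)
    (x : He Y) : He.cp Y k (sm a (HRing.of _ D.R i z) x) = gsmul a h z (He.cp Y j x) := by
  subst h
  exact He.cp_hom (φ := smH a (HRing.of _ D.R i z))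
    (ψ := fun j => AddMonoidHom.mk' (gsmul a rfl z) fun x y => by
      rw [gsmul, ext_add_right, Preadditive.add_comp]; rfl) (fun j x => sm_of a rfl z x) j x

theorem exists_vn (D : MUData T) (p n : ℕ) :
    ∃ z : Se T (((p : ℤ) - 1) * n) ⟶ D.R, vA D p 1 ^ n = HRing.of _ D.R _ z := by
  induction n with
  | zero =>
    exact ⟨_, by rw [pow_zero, ← of_one]; exact (of_cast (by simp) _).symm⟩
  | succ n ih =>
    obtain ⟨z, hz⟩ := ih
    exact ⟨_, by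
      rw [pow_succ', hz, vA, of_mul_of (p := ((p : ℤ) - 1) * (n + 1 : ℕ)) (by push_cast; ring)]⟩

/-- the powers of `v₁` -/
def vn (D : MUData T) (p n : ℕ) : Se T (((p : ℤ) - 1) * n) ⟶ D.R := (exists_vn D p n).choose

theorem vn_spec (n : ℕ) : vA D p 1 ^ n = HRing.of _ D.R _ (vn D p n) :=
  (exists_vn D p n).choose_spec

section loc

variable {S : TS D p F} (hL : LocF S) {Y : T} (a : ModStr D.R Y) (hp : (p : ℤ) • 𝟙 Y = 0)
include hL hp

theorem v_bij (n : ℕ) {j k : ℤ} (hk : ((p : ℤ) - 1) * n + j = k) :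
    Function.Bijective (gsmul (S.Le.mod a) hk (vn D p n)) := by
  have h1 : ∀ n : ℕ, Function.Bijective (sm (S.Le.mod a) (vA D p 1 ^ n)) := fun n => by
    rw [← funext (iter_smH _ _ n)]
    exact (hL.inv Y a hp).2.iterate n
  have h2 := h1 n
  rw [vn_spec] at h2
  refine ⟨fun x y hxy => He.of_injective j (h2.1 ?_), fun y => ?_⟩
  · rw [sm_of _ hk, sm_of _ hk, hxy]
  · obtain ⟨x, hx⟩ := h2.2 (He.of _ k y)
    exact ⟨He.cp _ j x, by rw [← cp_sm _ hk, hx, He.cp_of_same]⟩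

theorem v_surj {j : ℤ} (x : Se T j ⟶ S.Le.L.obj Y) :
    ∃ n : ℕ, ∀ (k : ℤ) (hk : ((p : ℤ) - 1) * n + j = k),
      ∃ y : Se T k ⟶ Y, gsmul (S.Le.mod a) hk (vn D p n) x = y ≫ S.Le.u Y := by
  obtain ⟨n, y, hy⟩ := hL.surj Y a hp (He.of _ j x)
  refine ⟨n, fun k hk => ⟨He.cp _ k y, ?_⟩⟩
  rw [← He.cp_map, ← hy, vn_spec, sm_of _ hk, He.cp_of_same]

theorem v_ker {j : ℤ} (y : Se T j ⟶ Y) (hy : y ≫ S.Le.u Y = 0) :
    ∃ n : ℕ, gsmul a rfl (vn D p n) y = 0 := by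
  obtain ⟨n, hn⟩ := hL.ker Y a hp (He.of _ j y) (by rw [He.map_of, hy, map_zero])
  rw [vn_spec, sm_of _ rfl] at hn
  exact ⟨n, He.of_eq_zero.1 hn⟩

end loc

variable [CharP F p] {G G' : Type} [Group G] [ProG G] [MulSemiringAction G F⟦X⟧]
  [MulSemiringAction G (KK F)] [ActK G F] [Group G'] [ProG G'] [MulSemiringAction G' F⟦X⟧]
  [MulSemiringAction G' (KK F)] [ActK G' F] {S : TS D p F} {B : BG p F G G'} {𝓧 : E2 S B}
  (𝓨 : E1 𝓧)

theorem ke_pow (n : ℕ) (a : ℤ) : ∀ (a' : ℤ) (_ : a' = a + n)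
    (h : ((p : ℤ) - 1) * n + ((p : ℤ) - 1) * a = ((p : ℤ) - 1) * a') (x),
    𝓨.ke a' (gsmul (S.Le.mod 𝓨.mod) h (vn D p n) x) = 𝓨.ke a x := by
  induction n with
  | zero =>
    intro a' h' h x
    obtain rfl : a' = a := by simpa using h'
    exact congrArg _ (He.of_injective _ (by rw [← sm_of, ← vn_spec, pow_zero, one_sm]))
  | succ n ih =>
    intro a' h' h x
    obtain rfl : a' = a + n + 1 := by push_cast at h'; omega
    rw [← ih (a + n) rfl (by ring) x, ← 𝓨.ke_v (a + n) (by ring)]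
    exact congrArg _ (He.of_injective _ (by
      rw [← sm_of, ← sm_of, ← sm_of, ← vn_spec, ← vn_spec, pow_succ', mul_sm]; rfl))

include 𝓨 in
theorem chi_ne : S.χ (vA D p 1) ≠ 0 := fun h => by
  obtain ⟨x, hx⟩ := (𝓨.pi_i 0).2 ((𝓧.pe _).symm 1)
  have h1 := 𝓨.ke_v 0 (by ring) (x ≫ S.Le.u _)
  rw [gsmul_comp _ _ (S.Le.isLinear_u 𝓨.mod), 𝓨.ke_u, 𝓨.ke_u, ← gsmul_comp _ _ 𝓨.i_lin,
    𝓧.pe_mod, show S.χ (HRing.of _ _ _ (D.vel p 1)) = 0 from h, show x ≫ 𝓨.i = _ from hx] at h1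
  simp at h1

/-- A module whose homotopy is `v₁ ^ (-l) 𝔽_p[v₁, v₂]`, shifted by `l`. -/
structure BL (𝓧 : E2 S B) (Y : T) (l : ℕ) where
  mod : ModStr D.R Y
  pY : (p : ℤ) • 𝟙 Y = 0
  odd : OddZero Y
  g : Y ⟶ 𝓧.E
  lin : mod.IsLinear 𝓧.mod g
  inj : ∀ (j : ℤ) (y : Se T j ⟶ Y), 𝓧.pe j (y ≫ g) = 0 → y = 0
  range : ∀ (j : ℤ) (f : F⟦X⟧), (∃ y : Se T j ⟶ Y, 𝓧.pe j (y ≫ g) = f) ↔
    ∀ i : ℕ, coeff i f ∈ (ZMod.castHom (dvd_refl p) F).range ∧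
      (coeff i f ≠ 0 → ∃ k : ℕ, j = ((p : ℤ) - 1) * (l + i + (p + 1) * k))

include 𝓨 in
theorem exists_BL {b : T} (β : BD S b) (l : ℕ) :
    Nonempty (BL 𝓧 (b ⊗ Se T (((p : ℤ) - 1) * l)) l) := by
  obtain ⟨f, hf, hf'⟩ := 𝓧.real b β.mod β.pb β.odd
    ((injective_iff_map_eq_zero (smH β.mod (vA D p 1))).2 fun x hx => He.ext_cp fun j => by
      refine (β.inj j _ ?_).trans (map_zero _).symm
      have h1 := β.lam_sm (vA D p 1) (He.of _ j (He.cp _ j x))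
      rw [vA, sm_of _ rfl, ← cp_sm, show sm _ (HRing.of _ _ _ (D.vel p 1)) x = 0 from hx,
        map_zero, map_zero, map_zero] at h1
      exact (mul_eq_zero.1 h1.symm).resolve_left (chi_ne 𝓨)) β.lam β.lam_sm
  set d := ((p : ℤ) - 1) * l with hd
  have e1 : ∀ (j : ℤ) (y : Se T j ⟶ b ⊗ Se T d), ∃ y' : Se T (j - d) ⟶ b,
      y = (stdEven T).ext (sub_add_cancel j d) y' (𝟙 _) := fun j y => by
    obtain ⟨y', hy⟩ := whiskerRight_surj (Se T d)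
      (((stdEven T).mu _ _ _ (sub_add_cancel j d)).hom ≫ y)
    exact ⟨y', by rw [EvenSpheres.ext, tensorHom_id, hy, Iso.inv_hom_id_assoc]⟩
  have e2 : ∀ (j : ℤ) (y' : Se T (j - d) ⟶ b), 𝓧.pe j
      ((stdEven T).ext (sub_add_cancel j d) y' (𝟙 _) ≫ f ▷ _ ≫ (𝓧.per d).hom) =
        β.lam (He.of b _ y') := fun j y' => by
    rw [← Category.assoc, ← ext_comp_left, 𝓧.pe_per, hf']
  refine ⟨⟨β.mod.tensorRight _, kl_tensor β.pb _, β.odd.tensS _, f ▷ _ ≫ (𝓧.per d).hom,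
    (hf.whiskerRight _).comp (𝓧.per_lin d), fun j y hy => ?_, fun j φ => ?_⟩⟩
  · obtain ⟨y, rfl⟩ := e1 j y
    rw [β.inj _ y ((e2 j y).symm.trans hy), ext_zero_left]
  · refine Iff.trans ⟨fun ⟨y, hy⟩ => (e1 j y).elim fun y' h => ⟨y', (e2 j y').symm.trans (h ▸ hy)⟩,
      fun ⟨y, hy⟩ => ⟨_, (e2 j y).trans hy⟩⟩
      ((β.range (j - d) φ).trans (forall_congr' fun i => and_congr_right' (imp_congr_right
        fun _ => exists_congr fun k => ⟨fun h => ?_, fun h => ?_⟩)))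
    · linear_combination h + hd
    · linear_combination h - hd

variable (T p) in
/-- the two models of the spheres -/
def eps (a : ℤ) : Se T (((p : ℤ) - 1) * a) ≅ Sph T ((2 * p - 2 : ℤ) * a) :=
  (stdEven T).sphIso (Iso.refl _) _ ≪≫ eqToIso (congrArg (Sph T) (by ring))

theorem ke_range (a : ℤ) (z : KK F) : z ∈ KK.ge (-a) ↔
    ∃ x : Se T (((p : ℤ) - 1) * a) ⟶ 𝓨.E, 𝓨.ke a (x ≫ S.Le.u _) = z := by
  refine ⟨fun hz => ?_, fun ⟨x, hx⟩ => ?_⟩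
  · obtain ⟨f, rfl⟩ := DEP.exists_ps hz
    obtain ⟨x, hx⟩ := (𝓨.pi_i a).2 ((𝓧.pe _).symm f)
    exact ⟨x, by rw [𝓨.ke_u, show x ≫ 𝓨.i = _ from hx, AddEquiv.apply_symm_apply]⟩
  · rw [← hx, 𝓨.ke_u]
    simpa using KK.mul_mem_ge (KK.uz_mem_ge (-a)) (KK.algebraMap_mem_ge _)

theorem uz_inj {m : ℤ} {f : F⟦X⟧} (h : KK.uz m * algebraMap F⟦X⟧ (KK F) f = 0) : f = 0 :=
  IsFractionRing.injective F⟦X⟧ (KK F)
    (((mul_eq_zero.1 h).resolve_left (DEP.uz_ne m)).trans (map_zero _).symm)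

/-- the coordinates on the homotopy groups of `E` -/
def ec : EC F S.Le (2 * p - 2) 𝓨.E where
  kV a := (precIso (eps T p a) _).trans (𝓨.ke a)
  πE_van := 𝓨.πE_van
  πV_van := 𝓨.πV_van
  πE_inj a x hx := by
    have h1 := 𝓨.ke_u a ((eps T p a).hom ≫ x)
    rw [Category.assoc, show x ≫ S.Le.u _ = 0 from hx, comp_zero, map_zero] at h1
    have h2 := (𝓨.pi_i a).1 (((𝓧.pe _).map_eq_zero_iff.1 (uz_inj h1.symm)).trans zero_comp.symm)
    rwa [← cancel_epi (eps T p a).hom, comp_zero]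
  πE_range a z := (ke_range 𝓨 a z).trans
    ⟨fun ⟨x, hx⟩ => ⟨(eps T p a).inv ≫ x, by
      rw [← hx]
      exact congrArg (𝓨.ke a) (((Category.assoc _ _ _).symm.trans
        (congrArg (· ≫ _) ((eps T p a).hom_inv_id_assoc x))))⟩,
    fun ⟨x, hx⟩ => ⟨(eps T p a).hom ≫ x, by rw [← hx, Category.assoc]; rfl⟩⟩
  sc c := 𝓨.lam (Meas.ofO G' (KO F) (C c))
  kV_sc a c x := by
    change 𝓨.ke a (_ ≫ x ≫ _) = c • 𝓨.ke a (_ ≫ x)
    rw [← Category.assoc, 𝓨.ke_lam, Meas.actK_ofO, Algebra.smul_def,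
      IsScalarTower.algebraMap_apply F F⟦X⟧ (KK F)]
    rfl

namespace BL

variable {Y : T} {l : ℕ} (L : BL 𝓧 Y l)

/-- the coordinate on the homotopy of `Le Y` -/
def co (a : ℤ) : (Se T (((p : ℤ) - 1) * a) ⟶ S.Le.L.obj Y) →+ KK F :=
  (𝓨.ke a).toAddMonoidHom.comp (post _ (S.Le.L.map (L.g ≫ 𝓨.r)))

theorem co_u (a : ℤ) (y : Se T (((p : ℤ) - 1) * a) ⟶ Y) : L.co 𝓨 a (y ≫ S.Le.u Y) =
    KK.uz (-a) * algebraMap F⟦X⟧ (KK F) (𝓧.pe _ (y ≫ L.g)) := by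
  obtain ⟨x, hx⟩ := (𝓨.pi_i a).2 (y ≫ L.g)
  change 𝓨.ke a ((y ≫ _) ≫ _) = _
  rw [Category.assoc, S.Le.u_naturality, Category.assoc, ← Category.assoc y,
    ← show x ≫ 𝓨.i = _ from hx, Category.assoc, reassoc_of% 𝓨.i_r, 𝓨.ke_u]

theorem co_v (n : ℕ) (a : ℤ)
    (h : ((p : ℤ) - 1) * n + ((p : ℤ) - 1) * a = ((p : ℤ) - 1) * (a + n)) (x) :
    L.co 𝓨 (a + n) (gsmul (S.Le.mod L.mod) h (vn D p n) x) = L.co 𝓨 a x := by
  change 𝓨.ke _ (_ ≫ _) = 𝓨.ke a (x ≫ _)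
  rw [← gsmul_comp _ _ (S.Le.isLinear_map _ (L.lin.comp 𝓨.r_lin)), ke_pow 𝓨 n a _ rfl]

variable (hL : LocF S)
include hL

theorem zero_of {j k : ℤ} {n : ℕ} {h : ((p : ℤ) - 1) * n + j = k} {x : Se T j ⟶ S.Le.L.obj Y}
    {y : Se T k ⟶ Y} (hy : gsmul (S.Le.mod L.mod) h (vn D p n) x = y ≫ S.Le.u Y)
    (h0 : 𝓧.pe k (y ≫ L.g) = 0) : x = 0 :=
  (v_bij hL L.mod L.pY n h).1 (by
    rw [hy, L.inj k y h0, zero_comp, gsmul, ext_zero_right, zero_comp])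

theorem co_inj (a : ℤ) : Function.Injective (L.co 𝓨 a) :=
  (injective_iff_map_eq_zero _).2 fun x hx => by
    obtain ⟨n, hn⟩ := v_surj hL L.mod L.pY x
    obtain ⟨y, hy⟩ := hn (((p : ℤ) - 1) * (a + n)) (by ring)
    rw [← L.co_v 𝓨 n a (by ring), hy, co_u] at hx
    exact L.zero_of hL hy (uz_inj hx)

omit hL in
theorem ex_u {a : ℤ} {j : ℕ} (h : ((l + (p + 1) * j : ℕ) : ℤ) ≤ a) :
    ∃ y, L.co 𝓨 a (y ≫ S.Le.u Y) = KK.uz (-(l + (p + 1) * j : ℕ) : ℤ) := by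
  obtain ⟨n, hn⟩ := Int.le.dest h
  obtain ⟨y, hy⟩ := (L.range (((p : ℤ) - 1) * a) (X ^ n)).2 fun i => by
    rw [coeff_X_pow]
    split_ifs with hi
    · exact ⟨one_mem _, fun _ => ⟨j, by rw [← hn, hi]; push_cast; ring⟩⟩
    · exact ⟨zero_mem _, fun h => (h rfl).elim⟩
  refine ⟨y, ?_⟩
  rw [co_u, hy, map_pow, KK.algebraMap_X, ← zpow_natCast, ← DEP.uz_zpow, ← KK.uz_add]
  congr 1
  omega

theorem ex_gen (a : ℤ) (j : ℕ) : ∃ x, L.co 𝓨 a x = KK.uz (-(l + (p + 1) * j : ℕ) : ℤ) := by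
  obtain ⟨n, hn⟩ : ∃ n : ℕ, ((l + (p + 1) * j : ℕ) : ℤ) ≤ a + n :=
    ⟨(((l + (p + 1) * j : ℕ) : ℤ) - a).toNat, by omega⟩
  obtain ⟨y, hy⟩ := L.ex_u 𝓨 hn
  obtain ⟨x, hx⟩ := (v_bij hL L.mod L.pY n (j := ((p : ℤ) - 1) * a) (by ring)).2 (y ≫ S.Le.u Y)
  exact ⟨x, by rw [← L.co_v 𝓨 n a (by ring), hx, hy]⟩

theorem co_cf (a : ℤ) (x) (m : ℤ) :
    KK.cf m (L.co 𝓨 a x) ∈ (ZMod.castHom (dvd_refl p) F).range ∧
      (KK.cf m (L.co 𝓨 a x) ≠ 0 → ∃ k : ℕ, m = -(l + (p + 1) * k : ℕ)) := by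
  obtain ⟨n, hn⟩ := v_surj hL L.mod L.pY x
  obtain ⟨y, hy⟩ := hn (((p : ℤ) - 1) * (a + n)) (by ring)
  obtain ⟨m, rfl⟩ : ∃ m', m = m' + -(a + n) := ⟨m + (a + n), by ring⟩
  rw [← L.co_v 𝓨 n a (by ring), hy, co_u, KK.cf_uz_mul]
  rcases lt_or_ge m 0 with h | h
  · rw [KK.cf_algebraMap_neg _ h]
    exact ⟨zero_mem _, fun h => (h rfl).elim⟩
  · obtain ⟨i, rfl⟩ := Int.eq_ofNat_of_zero_le h
    rw [KK.cf_algebraMap]
    obtain ⟨h1, h2⟩ := (L.range _ _).1 ⟨y, rfl⟩ i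
    refine ⟨h1, fun h3 => (h2 h3).imp fun k hk => ?_⟩
    have h4 : (p : ℤ) - 1 ≠ 0 := by have := S.h5; omega
    have := mul_left_cancel₀ h4 hk
    push_cast
    linear_combination -this

theorem blk : Blk p S.Kh (ec 𝓨) (L.g ≫ 𝓨.r) l where
  van n hn x := by
    rcases Int.even_or_odd' n with ⟨j, rfl | rfl⟩
    · let e := (stdEven T).sphIso (Iso.refl _) j
      obtain ⟨n, h⟩ := v_surj hL L.mod L.pY (e.hom ≫ x)
      obtain ⟨y, hy⟩ := h _ rfl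
      rw [← cancel_epi e.hom, comp_zero]
      refine L.zero_of hL hy (PowerSeries.ext fun i => by_contra fun h => hn ?_)
      obtain ⟨k, hk⟩ := ((L.range _ _).1 ⟨y, rfl⟩ i).2 h
      exact ⟨l + i + (p + 1) * k - n, by linear_combination 2 * hk⟩
    · exact hL.odd Y L.mod L.pY L.odd _ ⟨j, rfl⟩ x
  inj n y hy := by
    rcases Int.even_or_odd' n with ⟨j, rfl | rfl⟩
    · let e := (stdEven T).sphIso (Iso.refl _) j
      obtain ⟨n, h⟩ := v_ker hL L.mod L.pY (e.hom ≫ y) (by rw [Category.assoc, hy, comp_zero])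
      have h1 := 𝓧.pe_mod rfl (vn D p n) ((e.hom ≫ y) ≫ L.g)
      rw [gsmul_comp _ _ L.lin, h, zero_comp, map_zero, ← vn_spec, map_pow] at h1
      rw [← cancel_epi e.hom, comp_zero]
      exact L.inj _ _ ((mul_eq_zero.1 h1.symm).resolve_left (pow_ne_zero _ (chi_ne 𝓨)))
    · exact L.odd _ ⟨j, rfl⟩ y
  acyc := hL.acyc1 _ (hL.zero1 _)
  pz n x := by
    rw [← Category.comp_id x, ← Preadditive.comp_zsmul, ← CategoryTheory.Functor.map_id,
      ← Functor.map_zsmul, L.pY, Functor.map_zero, comp_zero]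
  gen a := by
    choose m hm using L.ex_gen 𝓨 hL a
    have hk : ∀ x, (ec 𝓨).kV a (((eps T p a).inv ≫ x) ≫ S.Le.L.map (L.g ≫ 𝓨.r)) = L.co 𝓨 a x :=
      fun x => congrArg (𝓨.ke a) (((Category.assoc _ _ _).symm.trans
        (congrArg (· ≫ _) ((eps T p a).hom_inv_id_assoc x))))
    refine ⟨fun j => (eps T p a).inv ≫ m j, fun x => ?_, fun j => ?_⟩
    · obtain ⟨N, n, h⟩ := mem_span (s := fun k : ℕ => (-(l + (p + 1) * k : ℕ) : ℤ))
        (fun i j h => by simpa [Nat.cast_add_one_ne_zero] using h) (fun k => by push_cast; nlinarith)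
        (L.co_cf 𝓨 hL a ((eps T p a).hom ≫ x))
      have h1 : (eps T p a).hom ≫ x = ∑ k ∈ Finset.range N, n k • m k :=
        L.co_inj 𝓨 hL a (by simp only [h, map_sum, map_zsmul, hm])
      rw [← (eps T p a).inv_hom_id_assoc x, h1, Preadditive.comp_sum]
      exact Submodule.sum_mem _ fun k _ => by
        rw [Preadditive.comp_zsmul]
        exact Submodule.smul_mem _ _ (Submodule.subset_span ⟨k, rfl⟩)
    · rw [hk, hm]
      refine ⟨KK.uz_mem_ge _, fun h => ?_, fun h => ?_⟩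
      · simpa [KK.cf_uz] using h _ (lt_add_one _)
      · obtain ⟨y, hy⟩ := L.ex_u 𝓨 h
        exact ⟨(eps T p a).inv ≫ y, by
          rw [Category.assoc, ← L.co_inj 𝓨 hL a ((hm j).trans hy.symm)]⟩

end BL

end Eta

variable {T : Type u} [Category.{0} T] [Preadditive T] [HasZeroObject T] [HasShift T ℤ]
  [∀ n : ℤ, (shiftFunctor T n).Additive] [Pretriangulated T] [IsTriangulated T]
  [MonoidalCategory T] [SymmetricCategory T] [TensorTriangulated T] [MonoidalClosed T]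
  [HasCoproducts.{0} T] [HasProducts.{0} T] [StableCat T]
  {D : MUData T} {p : ℕ} [Fact p.Prime] {F : Type} [Field F]
  [CharP F p] {G G' : Type} [Group G] [ProG G] [MulSemiringAction G F⟦X⟧]
  [MulSemiringAction G (KK F)] [ActK G F] [Group G'] [ProG G'] [MulSemiringAction G' F⟦X⟧]
  [MulSemiringAction G' (KK F)] [ActK G' F]

/-- **Row ETA.** -/
theorem rowETA (S : TS D p F) (B : BG p F G G') : RowETA S B := fun hL 𝓧 𝓨 b β => by
  have : Finite F := Nat.finite_of_card_ne_zero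
    (B.card ▸ pow_ne_zero _ (Fact.out : p.Prime).ne_zero)
  let L := fun l => (Eta.exists_BL 𝓨 β l).some
  obtain ⟨iE, rE, h1, h2⟩ := exists_retract S.Lh (Eta.ec 𝓨) (by have := S.h5; omega)
    (fun W N h => (hL.bdd W N h).1) (𝓧.loc.retract 𝓨.i 𝓨.r 𝓨.i_r) (hL.acyc1 _ (hL.zero1 _))
    (fun l => (L l).blk 𝓨 hL) ((ρ_ b).symm ≪≫ whiskerLeftIso b
      ((stdEven T).zero ≪≫ (stdEven T).castIso _ _ (by simp))) S.W.distM
  exact ⟨⟨iE, rE, h1, h2⟩⟩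

end Vale.Agent.P221X.TC
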