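import Vale.Agent.P251.F.RJ
import Vale.Agent.P251.S.KeyLemma
import Vale.Agent.P251.M.TelPi

/-!
# P221X, row TC-HTOP: algebra and a criterion for isomorphisms

* `ZB p b` : the family `b` is a basis over the prime field; `exists_zb`;
* `Psi` : the map `(n_i) ↦ ∑ k_i ⊗ n_i` to `OInv K`; it is injective with the range of `RJ.toO`;
* `isIso_of_ses` : a map to the cofibre of an epimorphism on homotopy is an isomorphism if it
  identifies the kernel.
-/

open CategoryTheory MonoidalCategory Limits Pretriangulated TensorProduct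

set_option linter.unusedSectionVars false

universe v u

noncomputable section

namespace Vale.Agent.P221X.TC.HT

open Vale.Agent.P251 Vale.Agent.P251.T Vale.Agent.P251.M Vale.Agent.P251.S Vale.Agent.P251.F

section alg

/-- the family `b` is a basis over the prime field -/
def ZB (p : ℕ) {I U : Type} [AddCommGroup U] (b : I → U) : Prop :=
  Function.Bijective fun n : I →₀ ZMod p => n.sum fun i c => (c.val : ℤ) • b i

variable {p : ℕ} [Fact p.Prime] {I U U' : Type} [AddCommGroup U] [AddCommGroup U']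

theorem exists_zb' (k : Type) [Field k] (val : k → ℤ) (hk : ∀ a : k, (val a : k) = a)
    (U : Type) [AddCommGroup U] [Module k U] : ∃ (I : Type) (b : I → U),
      (Function.Bijective fun n : I →₀ k => n.sum fun i c => val c • b i) ∧
      ∀ i, ∃ l : U →+ k, l (b i) = 1 ∧ ∀ j, j ≠ i → l (b j) = 0 := by
  classical
  let b := Module.Basis.ofVectorSpace k U
  refine ⟨_, b, ?_, fun i => ⟨(b.coord i).toAddMonoidHom, by simp, fun j hj => ?_⟩⟩
  · have h : (fun n : Module.Basis.ofVectorSpaceIndex k U →₀ k =>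
        n.sum fun i c => val c • b i) = b.repr.symm := by
      funext n
      rw [Module.Basis.repr_symm_apply, Finsupp.linearCombination_apply]
      refine Finsupp.sum_congr fun i _ => ?_
      rw [← Int.cast_smul_eq_zsmul k, hk]
    rw [h]
    exact b.repr.symm.bijective
  · change b.coord i (b j) = 0
    rw [Module.Basis.coord_apply, Module.Basis.repr_self, Finsupp.single_eq_of_ne' hj]

theorem exists_zb (U : Type) [AddCommGroup U] (hp : ∀ u : U, p • u = 0) :
    ∃ (I : Type) (b : I → U), ZB p b ∧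
      ∀ i, ∃ l : U →+ ZMod p, l (b i) = 1 ∧ ∀ j, j ≠ i → l (b j) = 0 :=
  @exists_zb' (ZMod p) _ (fun c => (c.val : ℤ))
    (fun a => by rw [Int.cast_natCast, ZMod.natCast_zmod_val]) U _ (AddCommGroup.zmodModule hp)

theorem ZB.map {b : I → U} (h : ZB p b) (e : U ≃+ U') : ZB p fun i => e (b i) := by
  have h1 : (fun n : I →₀ ZMod p => n.sum fun i c => (c.val : ℤ) • e (b i)) =
      e ∘ fun n : I →₀ ZMod p => n.sum fun i c => (c.val : ℤ) • b i := by
    funext n
    rw [Function.comp_apply, map_finsuppSum]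
    exact Finsupp.sum_congr fun i _ => (map_zsmul e _ _).symm
  unfold ZB
  rw [h1]
  exact e.bijective.comp h

theorem ZB.nonempty [Nontrivial U] {b : I → U} (h : ZB p b) : Nonempty I := by
  by_contra hI
  rw [not_nonempty_iff] at hI
  obtain ⟨u, hu⟩ := exists_ne (0 : U)
  obtain ⟨n, rfl⟩ := h.2 u
  exact hu (by rw [Subsingleton.elim n 0]; exact Finsupp.sum_zero_index)

variable {K : Type} [Field K] {Φ : Law K} (hF : IsTy p 1 1 Φ)

/-- the point of `NN` which classifies the generic law -/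
def pt : NN p 1 1 →+* OInv K := (RJ.toO (k := K) hF).comp (RJ.incR K p 1 1)

theorem law_pt : (NN.law p 1 1).map (pt hF) = OInv.f K • Φ.map (OInv.inc K) := by
  rw [pt, ← Law.map_map]
  exact RJ.law_map_toO hF

theorem toO_mul (c : K) (n : NN p 1 1) :
    RJ.toO (k := K) hF (algebraMap K (RJ K p 1 1) c * RJ.incR K p 1 1 n) =
      pt hF n * OInv.inc K c := by
  rw [map_mul, mul_comm]
  exact congrArg (pt hF n * ·) (RingHom.congr_fun (RJ.toO_comp_algebraMap (k := K) hF) c)

/-- `(n_i) ↦ ∑ k_i ⊗ n_i` -/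
def Ps0 (p : ℕ) (k : I → K) : (I →₀ NN p 1 1) →+ RJ K p 1 1 :=
  Finsupp.liftAddHom fun i => (AddMonoidHom.mulLeft (algebraMap K (RJ K p 1 1) (k i))).comp
    (RJ.incR K p 1 1).toAddMonoidHom

theorem Ps0_single (k : I → K) (i : I) (n : NN p 1 1) :
    Ps0 p k (Finsupp.single i n) = algebraMap K (RJ K p 1 1) (k i) * RJ.incR K p 1 1 n :=
  Finsupp.liftAddHom_apply_single _ i n

theorem Ps0_surj {k : I → K} (hk : ZB p k) : Function.Surjective (Ps0 p k) := by
  intro t
  refine RJ.ind (P := fun t => t ∈ (Ps0 p k).range) (zero_mem _) (fun a b ha hb => add_mem ha hb)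
    (fun c n => ?_) t
  obtain ⟨m, rfl⟩ := hk.2 c
  dsimp only
  rw [map_finsuppSum, Finsupp.sum_mul]
  refine sum_mem fun i _ => ?_
  dsimp only
  rw [map_zsmul, smul_mul_assoc]
  exact zsmul_mem (AddMonoidHom.mem_range.2 ⟨_, Ps0_single k i n⟩) _

/-- the coordinate map -/
def crd0 {N : Type} [CommRing N] (hN : (p : N) = 0) (l : K →+ ZMod p) : K ⊗[ℤ] N →+ N :=
  TensorProduct.liftAddHom (R := ℤ) ((AddMonoidHom.mul (R := N)).comp
      ((ZMod.lift p ⟨Int.castAddHom N, (Int.cast_natCast p).trans hN⟩ : ZMod p →+ N).comp l))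
    (fun c m n => by
      rw [map_zsmul, AddMonoidHom.smul_apply]
      exact (map_zsmul _ c n).symm)

theorem crd0_tmul {N : Type} [CommRing N] (hN : (p : N) = 0) (l : K →+ ZMod p) (c : K) (n : N)
    (a : ℤ) (h : l c = a) : crd0 hN l (c ⊗ₜ[ℤ] n) = a * n := by
  refine (TensorProduct.liftAddHom_tmul _ _ c n).trans ?_
  rw [AddMonoidHom.comp_apply, AddMonoidHom.comp_apply, h, ZMod.lift_coe]
  rfl

/-- the coordinate map -/
def crd (l : K →+ ZMod p) : RJ K p 1 1 →+ NN p 1 1 :=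
  crd0 (N := NC p 1 1) (NN.isTy (p := p) (h := 1) (j := 1)).p0 l

theorem crd_mul (l : K →+ ZMod p) (c : K) (n : NN p 1 1) (a : ℤ) (h : l c = a) :
    crd l (algebraMap K (RJ K p 1 1) c * RJ.incR K p 1 1 n) = a * n := by
  rw [← RJ.tmul_eq]
  exact crd0_tmul (N := NC p 1 1) _ l c (NC.of p 1 1 n) a h

theorem Ps0_inj {k : I → K}
    (hl : ∀ i, ∃ l : K →+ ZMod p, l (k i) = 1 ∧ ∀ j, j ≠ i → l (k j) = 0) :
    Function.Injective (Ps0 p k) := by
  classical
  rw [injective_iff_map_eq_zero]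
  intro n hn
  ext i
  obtain ⟨l, h1, h2⟩ := hl i
  have h3 : (crd l).comp (Ps0 p k) = Finsupp.applyAddHom i := by
    refine Finsupp.addHom_ext fun j m => ?_
    rw [AddMonoidHom.comp_apply, Ps0_single, Finsupp.applyAddHom_apply]
    by_cases hj : j = i
    · subst hj
      rw [crd_mul l _ m 1 (by rw [h1, Int.cast_one]), Finsupp.single_eq_same, Int.cast_one, one_mul]
    · rw [crd_mul l _ m 0 (by rw [h2 j hj, Int.cast_zero]), Finsupp.single_eq_of_ne' hj,
        Int.cast_zero, zero_mul]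
  have h4 := DFunLike.congr_fun h3 n
  rw [AddMonoidHom.comp_apply, hn, map_zero] at h4
  exact h4.symm

/-- `(n_i) ↦ ∑ n_i k_i` -/
def Psi (k : I → K) : (I →₀ NN p 1 1) →+ OInv K :=
  (RJ.toO (k := K) hF).toAddMonoidHom.comp (Ps0 p k)

theorem Psi_single (k : I → K) (i : I) (n : NN p 1 1) :
    Psi hF k (Finsupp.single i n) = pt hF n * OInv.inc K (k i) := by
  rw [← toO_mul, ← Ps0_single]
  rfl

/-- a semilinear map out of `NN` is determined by its value at `1` -/
theorem eq_pt_mul (φ : NN p 1 1 →+ OInv K)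
    (h : ∀ (z : Laz) n, φ (algebraMap (QN p 1 1) (NN p 1 1) (Ideal.Quotient.mk _ z) * n) =
      Laz.lift (OInv.f K • Φ.map (OInv.inc K)) z * φ n) (n : NN p 1 1) :
    φ n = pt hF n * φ 1 := by
  have h1 : ∀ z : Laz, pt hF (algebraMap (QN p 1 1) (NN p 1 1) (Ideal.Quotient.mk _ z)) =
      Laz.lift (OInv.f K • Φ.map (OInv.inc K)) z := by
    intro z
    rw [← law_pt hF, NN.law, Law.map_map, Law.map_map, Laz.lift_map_univ]
    rfl
  have h2 : ∀ (q : QN p 1 1) n, φ (algebraMap (QN p 1 1) (NN p 1 1) q * n) =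
      pt hF (algebraMap (QN p 1 1) (NN p 1 1) q) * φ n := by
    intro q n
    obtain ⟨z, rfl⟩ := Ideal.Quotient.mk_surjective q
    rw [h, h1]
  obtain ⟨⟨q, s⟩, hs⟩ := IsLocalization.surj
    (Submonoid.powers (Ideal.Quotient.mk (Laz.IJ p 1 1) (Laz.v p 1))) n
  have hu : IsUnit (pt hF (algebraMap (QN p 1 1) (NN p 1 1) s)) :=
    (IsLocalization.map_units (NN p 1 1) s).map (pt hF)
  refine hu.mul_left_cancel ?_
  dsimp only at hs
  rw [← h2, ← mul_assoc, ← map_mul, mul_comm _ n, hs, ← h2, mul_one]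

end alg

section ses

variable {T : Type u} [Category.{v} T] [Preadditive T] [HasZeroObject T]
    [HasShift T ℤ] [∀ n : ℤ, (shiftFunctor T n).Additive] [Pretriangulated T] [IsTriangulated T]
    [MonoidalCategory T] [SymmetricCategory T] [TensorTriangulated T] [MonoidalClosed T]
    [HasCoproducts.{0} T] [HasProducts.{0} T] [StableCat T]

theorem isIso_of_ses {U V W Z Z' : T} {t : U ⟶ V} {i : V ⟶ W} {d : W ⟶ U⟦(1 : ℤ)⟧}
    (H : Triangle.mk t i d ∈ distTriang T) (f : Z' ⟶ W) (e : Z' ≅ Z⟦(1 : ℤ)⟧) (h : Z ⟶ U)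
    (hf : f ≫ d = e.hom ≫ h⟦(1 : ℤ)⟧')
    (h1 : ∀ (k : ℤ) (x : Sph T k ⟶ Z), x ≫ h = 0 → x = 0)
    (h2 : ∀ (k : ℤ) (y : Sph T k ⟶ U), y ≫ t = 0 → ∃ x : Sph T k ⟶ Z, x ≫ h = y)
    (h3 : ∀ (k : ℤ) (y : Sph T k ⟶ V), ∃ x : Sph T k ⟶ U, x ≫ t = y) : IsIso f := by
  have hd : ∀ (k : ℤ) (w : Sph T k ⟶ W), w ≫ d = 0 → w = 0 := by
    intro k w hw
    obtain ⟨y, rfl⟩ := exact₃ H w hw
    obtain ⟨x, rfl⟩ := h3 k y
    rw [Category.assoc, zero₁₂ H, comp_zero]
  refine isIso_of_pi f (fun k w hw => ?_) (fun k w => ?_)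
  · obtain ⟨x, hx⟩ := exists_desuspend k (w ≫ e.hom)
    have h4 : x ≫ h = 0 := by
      apply (shiftFunctor T (1 : ℤ)).map_injective
      rw [Functor.map_comp, Functor.map_zero,
        ← cancel_epi ((shiftFunctorAdd' T (k - 1) 1 k (by omega)).app (𝟙_ T)).hom,
        ← Category.assoc, ← hx, Category.assoc, ← hf, ← Category.assoc, hw, zero_comp, comp_zero]
    rw [h1 _ x h4, Functor.map_zero, comp_zero] at hx
    rw [← cancel_mono e.hom, hx, zero_comp]
  · obtain ⟨y, hy⟩ := exists_desuspend k (w ≫ d)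
    have h4 : y ≫ t = 0 := by
      apply (shiftFunctor T (1 : ℤ)).map_injective
      rw [Functor.map_comp, Functor.map_zero,
        ← cancel_epi ((shiftFunctorAdd' T (k - 1) 1 k (by omega)).app (𝟙_ T)).hom,
        ← Category.assoc, ← hy, Category.assoc, zero₃₁ H, comp_zero, comp_zero]
    obtain ⟨x, rfl⟩ := h2 _ y h4
    refine ⟨((shiftFunctorAdd' T (k - 1) 1 k (by omega)).app (𝟙_ T)).hom ≫ x⟦(1 : ℤ)⟧' ≫ e.inv,
      sub_eq_zero.1 (hd k _ ?_)⟩
    rw [Preadditive.sub_comp, hy, Functor.map_comp, Category.assoc, Category.assoc,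
      Category.assoc, hf, Iso.inv_hom_id_assoc, sub_self]

end ses

end Vale.Agent.P221X.TC.HT
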