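import Vale.Agent.P221X.TC.Tel
import Vale.Agent.P221X.TC.HTopA

/-!
# P221X, row TC-HTOP: general lemmas

* `mulR_comm`, `gsmul_comm` : every map between modules killed by `p` commutes with `v₁`;
* `sph_inj`, `sph_exact` : from the homology `MP` to the homotopy groups;
* `mp_coprod` : the homology of a sum;
* `ext_M`, `exists_M`, `zero_M` : maps out of the Moore spectrum.
-/

open CategoryTheory MonoidalCategory Limits Pretriangulated

set_option linter.unusedSectionVars false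

universe u

noncomputable section

namespace Vale.Agent.P221X.TC.HT

open Vale.Agent.P251 Vale.Agent.P251.T Vale.Agent.P251.M Vale.Agent.P251.S Vale.Agent.P251.F
  Vale.Agent.P251.I Vale.Agent.P251.X
open Vale.Agent.P251.M.EvenSpheres

variable {T : Type u} [Category.{0} T] [Preadditive T] [HasZeroObject T] [HasShift T ℤ]
  [∀ n : ℤ, (shiftFunctor T n).Additive] [Pretriangulated T] [IsTriangulated T]
  [MonoidalCategory T] [SymmetricCategory T] [TensorTriangulated T] [MonoidalClosed T]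
  [HasCoproducts.{0} T] [HasProducts.{0} T] [StableCat T]
  {D : MUData T} {p : ℕ}

theorem kl_map {m : ℤ} {Z : T} (h : m • 𝟙 Z = 0) (L : T ⥤ T) [L.Additive] :
    m • 𝟙 (L.obj Z) = 0 := TA.Ou.Kl.map h L

theorem kl_left {m : ℤ} {Z : T} (h : m • 𝟙 Z = 0) (W : T) : m • 𝟙 (W ⊗ Z) = 0 :=
  kl_map h (tensorLeft W)

theorem kl_right {m : ℤ} {Z : T} (h : m • 𝟙 Z = 0) (W : T) : m • 𝟙 (Z ⊗ W) = 0 :=
  kl_map h (tensorRight W)

theorem kl_tgt {m : ℤ} {Z Z' : T} (h : m • 𝟙 Z = 0) (f : Z' ⟶ Z) : m • f = 0 := TA.Ou.Kl.tgt h f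

section moore

variable (W : TD.Twr D p)

theorem cancel_M {N Z : T} (hN : (p : ℤ) • 𝟙 N = 0) (g : Z ⟶ N) (h : g ▷ W.M = 0) : g = 0 := by
  have H := (tensorLeft N).map_distinguished _ W.distM
  have h1 : (g ≫ (ρ_ N).inv) ≫ N ◁ W.iM = 0 := by
    rw [rightUnitor_inv_naturality, Category.assoc, ← whisker_exchange, h, comp_zero, comp_zero]
  obtain ⟨y, hy⟩ := Triangle.coyoneda_exact₂ _ H (g ≫ (ρ_ N).inv) h1
  have h2 : (tensorLeft N).map ((p : ℤ) • 𝟙 (𝟙_ T)) = 0 := by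
    rw [Functor.map_zsmul, CategoryTheory.Functor.map_id]
    exact kl_right hN _
  have h3 : g ≫ (ρ_ N).inv = 0 := hy.trans ((congrArg (y ≫ ·) h2).trans comp_zero)
  rw [← cancel_mono (ρ_ N).inv, h3, zero_comp]

include W in
/-- every map between modules killed by `p` commutes with `v₁` -/
theorem mulR_comm {N N' : T} (a : ModStr D.R N) (a' : ModStr D.R N') (hN : (p : ℤ) • 𝟙 N' = 0)
    (f : N ⟶ N') : TD.mulR a (D.vel p 1) ≫ f = f ▷ _ ≫ TD.mulR a' (D.vel p 1) := by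
  rw [← sub_eq_zero]
  refine cancel_M W hN _ ?_
  have h1 := TD.whiskerLeft_eq a W.hur1'
  have h2 := TD.whiskerLeft_eq a' W.hur1'
  rw [Iso.eq_inv_comp] at h1 h2
  have h3 : ∀ x y : N ⊗ P257.H702.Sv T p 1 ⟶ N', (x - y) ▷ W.M = x ▷ W.M - y ▷ W.M :=
    fun x y => (tensorRight W.M).map_sub
  rw [h3, comp_whiskerRight, comp_whiskerRight, ← h1, ← h2, Category.assoc, whisker_exchange,
    associator_naturality_left_assoc, sub_self]

theorem gsmul_eq {K N : T} [MonObj K] (a : ModStr K N) {m n k : ℤ} (h : m + n = k)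
    (v : Se T m ⟶ K) (x : Se T n ⟶ N) : gsmul a h v x =
      ((stdEven T).mu m n k h).inv ≫ Se T m ◁ x ≫ (β_ N (Se T m)).inv ≫ TD.mulR a v := by
  rw [gsmul, EvenSpheres.ext, TD.mulR, Iso.inv_hom_id_assoc, tensorHom_def', Category.assoc,
    Category.assoc]

include W in
theorem gsmul_comm {N N' : T} (a : ModStr D.R N) (a' : ModStr D.R N') (hN : (p : ℤ) • 𝟙 N' = 0)
    (f : N ⟶ N') {n k : ℤ} (h : ((p : ℤ) ^ 1 - 1) + n = k) (x : Se T n ⟶ N) :
    gsmul a h (D.vel p 1) x ≫ f = gsmul a' h (D.vel p 1) (x ≫ f) := by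
  rw [gsmul_eq, gsmul_eq, Category.assoc, Category.assoc, Category.assoc, mulR_comm W a a' hN f,
    MonoidalCategory.whiskerLeft_comp, Category.assoc,
    BraidedCategory.braiding_inv_naturality_right_assoc _ f]

theorem ext_M {Z : T} (hZ : ∀ x : Sph T 1 ⟶ Z, x = 0) (h : W.M ⟶ Z) (h0 : W.iM ≫ h = 0) :
    h = 0 := by
  obtain ⟨g, hg⟩ : ∃ g : Sph T 1 ⟶ Z, h = W.δM ≫ g := Triangle.yoneda_exact₃ _ W.distM h h0
  rw [hg, hZ g, comp_zero]

theorem exists_M {Z : T} (hZ : (p : ℤ) • 𝟙 Z = 0) (y : 𝟙_ T ⟶ Z) :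
    ∃ h : W.M ⟶ Z, W.iM ≫ h = y := by
  obtain ⟨g, hg⟩ := Triangle.yoneda_exact₂ _ W.distM y (by
    change ((p : ℤ) • 𝟙 (𝟙_ T)) ≫ y = 0
    rw [Preadditive.zsmul_comp, Category.id_comp, kl_tgt hZ])
  exact ⟨g, hg.symm⟩

theorem zero_M {Z : T} (h1 : ∀ x : Sph T 1 ⟶ Z, x = 0) (h2 : ∀ x : Sph T 2 ⟶ Z, x = 0)
    (h : W.M⟦(1 : ℤ)⟧ ⟶ Z) : h = 0 := by
  obtain ⟨w, hw⟩ := exists_dist_shift W.distM 1
  obtain ⟨g, hg⟩ : ∃ g : ((𝟙_ T)⟦(1 : ℤ)⟧)⟦(1 : ℤ)⟧ ⟶ Z, h = w ≫ g :=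
    Triangle.yoneda_exact₃ _ hw h (h1 _)
  let e : Sph T 2 ≅ ((𝟙_ T)⟦(1 : ℤ)⟧)⟦(1 : ℤ)⟧ :=
    (shiftFunctorAdd' T (1 : ℤ) 1 2 (by norm_num)).app (𝟙_ T)
  have h3 : g = 0 := by rw [← cancel_epi e.hom, comp_zero, h2 (e.hom ≫ g)]
  rw [hg, h3, comp_zero]

end moore

section mp

variable {P : T} [MonObj P] {Z Z' Z'' : T}

theorem mp_map (f : Z ⟶ Z') (g : Z' ⟶ Z'') (x : MP (stdEven T) P Z) :
    MP.map _ P g (MP.map _ P f x) = MP.map _ P (f ≫ g) x := by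
  rw [MP.map_comp]
  rfl

theorem mp_id (x : MP (stdEven T) P Z) : MP.map _ P (𝟙 Z) x = x := by
  rw [MP.map_id]
  rfl

theorem mp_sub (f g : Z ⟶ Z') (x : MP (stdEven T) P Z) :
    MP.map _ P (f - g) x = MP.map _ P f x - MP.map _ P g x := by
  rw [eq_sub_iff_add_eq, ← LinearMap.add_apply, ← MP.map_add', sub_add_cancel]

theorem mp_comp (f : Z ⟶ Z') (j : ℤ) (x : MP (stdEven T) P Z) :
    MP.comp _ P Z' j (MP.map _ P f x) = MP.comp _ P Z j x ≫ P ◁ f := by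
  induction x using MP.ind with
  | zero => simp only [map_zero, zero_comp]
  | of i x =>
    rw [MP.map_of]
    by_cases hi : i = j
    · subst hi
      rw [MP.comp_of_same, MP.comp_of_same]
    · rw [MP.comp_of_ne hi, MP.comp_of_ne hi, zero_comp]
  | add x y hx hy => simp only [map_add, hx, hy, Preadditive.add_comp]

theorem mp_gen (j : ℤ) (y : Se T j ⟶ Z) :
    MP.map _ P y (MP.gen _ P j) = MP.of _ P Z j (y ≫ FM.unit P Z) := by
  rw [MP.gen, MP.map_of, FM.unit_naturality]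

theorem mp_cast {m : ℤ} (h : m = 0) :
    MP.map _ P (((stdEven T).castIso m 0 h).hom ≫ (stdEven T).zero.inv) (MP.gen _ P m) =
      MP.one _ P := by
  subst h
  rw [castIso_refl, Iso.refl_hom, Category.id_comp, MP.map_zero_inv_gen]

theorem sph_inj (f : Z ⟶ Z') (ho : OddZero (P ⊗ Z))
    (h : ∀ x, MP.map (stdEven T) P f x = 0 → x = 0) (k : ℤ) (x : Sph T k ⟶ P ⊗ Z)
    (hx : x ≫ P ◁ f = 0) : x = 0 := by
  rcases Int.even_or_odd' k with ⟨j, rfl | rfl⟩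
  · have h1 := h (MP.of _ P Z j ((P257.H314.sI T j).hom ≫ x))
      (by rw [MP.map_of, Category.assoc, hx, comp_zero, map_zero])
    have h2 := MP.of_injective j (h1.trans (map_zero _).symm)
    rw [← cancel_epi (P257.H314.sI T j).hom, h2, comp_zero]
  · exact ho _ ⟨j, rfl⟩ x

theorem sph_exact (f : Z ⟶ Z') (g : Z' ⟶ Z'') (ho : OddZero (P ⊗ Z'))
    (h : ∀ y, MP.map (stdEven T) P g y = 0 → ∃ x, MP.map (stdEven T) P f x = y) (k : ℤ)
    (y : Sph T k ⟶ P ⊗ Z') (hy : y ≫ P ◁ g = 0) : ∃ x : Sph T k ⟶ P ⊗ Z, x ≫ P ◁ f = y := by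
  rcases Int.even_or_odd' k with ⟨j, rfl | rfl⟩
  · obtain ⟨x, hx⟩ := h (MP.of _ P Z' j ((P257.H314.sI T j).hom ≫ y))
      (by rw [MP.map_of, Category.assoc, hy, comp_zero, map_zero])
    have h1 := congrArg (MP.comp _ P Z' j) hx
    rw [mp_comp, MP.comp_of_same] at h1
    exact ⟨(P257.H314.sI T j).inv ≫ MP.comp _ P Z j x, by
      rw [Category.assoc, h1, Iso.inv_hom_id_assoc]⟩
  · exact ⟨0, by rw [zero_comp, ho _ ⟨j, rfl⟩ y]⟩

theorem cpt_sum {I : Type} (M N : T) {A : T} (hA : IsSphere A)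
    (f : A ⟶ P ⊗ ((∐ fun _ : I => M) ⊗ N)) : ∃ (s : Finset I) (g : I → (A ⟶ P ⊗ (M ⊗ N))),
      f = ∑ i ∈ s, g i ≫ P ◁ (Sigma.ι (fun _ : I => M) i ▷ N) := by
  obtain ⟨s, g, hg⟩ := compact_sumL (P ⊗ N) (fun _ : I => M) hA
    (f ≫ P ◁ (β_ _ N).hom ≫ (α_ _ _ _).inv)
  refine ⟨s, fun i => g i ≫ (α_ _ _ _).hom ≫ P ◁ (β_ M N).inv, ?_⟩
  rw [← cancel_mono (P ◁ (β_ _ N).hom ≫ (α_ _ _ _).inv), hg, Preadditive.sum_comp]
  refine Finset.sum_congr rfl fun i _ => ?_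
  rw [Category.assoc, Category.assoc, Category.assoc, ← MonoidalCategory.whiskerLeft_comp_assoc,
    ← MonoidalCategory.whiskerLeft_comp_assoc, Category.assoc,
    BraidedCategory.braiding_naturality_left, Iso.inv_hom_id_assoc,
    associator_inv_naturality_right, Iso.hom_inv_id_assoc]

theorem odd_coprod {I : Type} {M N : T} (h : OddZero (P ⊗ (M ⊗ N))) :
    OddZero (P ⊗ ((∐ fun _ : I => M) ⊗ N)) := by
  intro n hn f
  obtain ⟨s, g, rfl⟩ := cpt_sum M N (isSphere_one_shift n) f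
  exact Finset.sum_eq_zero fun i _ => by rw [h n hn (g i), zero_comp]

/-- the homology of a sum -/
def Lam (P : T) [MonObj P] (I : Type) (M N : T) :
    (I →₀ MP (stdEven T) P (M ⊗ N)) →+ MP (stdEven T) P ((∐ fun _ : I => M) ⊗ N) :=
  Finsupp.liftAddHom fun i => (MP.map _ P (Sigma.ι (fun _ : I => M) i ▷ N)).toAddMonoidHom

theorem Lam_single {I : Type} {M N : T} (i : I) (x : MP (stdEven T) P (M ⊗ N)) :
    Lam P I M N (Finsupp.single i x) = MP.map _ P (Sigma.ι (fun _ : I => M) i ▷ N) x :=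
  Finsupp.liftAddHom_apply_single _ i x

theorem mp_coprod (I : Type) (M N : T) : Function.Surjective (Lam P I M N) := by
  intro x
  change x ∈ (Lam P I M N).range
  induction x using MP.ind with
  | zero => exact zero_mem _
  | add x y hx hy => exact add_mem hx hy
  | of j f =>
    obtain ⟨s, g, rfl⟩ := cpt_sum M N (isSphere_std j) f
    rw [map_sum]
    refine sum_mem fun i _ => AddMonoidHom.mem_range.2 ⟨Finsupp.single i (MP.of _ P _ j (g i)), ?_⟩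
    rw [Lam_single, MP.map_of]

end mp

end Vale.Agent.P221X.TC.HT
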