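import Vale.Agent.P221X.TC.HTopB

/-!
# P221X, row TC-HTOP: the homology of `Le E ⊗ LS`

* `th`, `rh` : `Le E ⊗ LS` is a retract of `X.E ⊗ LS`;
* `kp` : the injection of its homology in `OInv K`; `kp_t`, `kp_c`, `t_surj`;
* `kp_hur` : the Hurewicz classes.
-/

open CategoryTheory MonoidalCategory Limits Pretriangulated PowerSeries

set_option linter.unusedSectionVars false

universe u

noncomputable section

namespace Vale.Agent.P221X.TC.HT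

open Vale.Agent.P251 Vale.Agent.P251.T Vale.Agent.P251.M Vale.Agent.P251.S Vale.Agent.P251.F
  Vale.Agent.P251.I Vale.Agent.P251.X Vale.Agent.P251.Z Vale.Agent.P217
open Vale.Agent.P251.M.EvenSpheres ProG

variable {T : Type u} [Category.{0} T] [Preadditive T] [HasZeroObject T] [HasShift T ℤ]
  [∀ n : ℤ, (shiftFunctor T n).Additive] [Pretriangulated T] [IsTriangulated T]
  [MonoidalCategory T] [SymmetricCategory T] [TensorTriangulated T] [MonoidalClosed T]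
  [HasCoproducts.{0} T] [HasProducts.{0} T] [StableCat T]
  {D : MUData T} {p : ℕ} [Fact p.Prime] {F : Type} [Field F]
  [CharP F p] {G G' : Type} [Group G] [ProG G] [MulSemiringAction G F⟦X⟧]
  [MulSemiringAction G (KK F)] [ActK G F] [Group G'] [ProG G'] [MulSemiringAction G' F⟦X⟧]
  [MulSemiringAction G' (KK F)] [ActK G' F]
  {S : TS D p F} {B : BG p F G G'} {X : E2 S B}

/-- the self map of the two-periodic object defined by `g` -/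
def lg (X : E2 S B) (g : G) : X.E ⟶ X.E := X.lam (Meas.ofG F⟦X⟧ (KO F) g)

theorem lg_mul (a b : G) : lg X a ≫ lg X b = lg X (b * a) := by
  rw [lg, lg, lg, map_mul, map_mul]
  rfl

variable (Y : E1 X)

/-- the self map `ψ - 1` -/
def tE : Y.E ⟶ Y.E := Y.lam (Meas.ofG F⟦X⟧ (KO F) (B.π B.ψ) - 1)

theorem pE : (p : ℤ) • 𝟙 Y.E = 0 := by
  rw [← Y.i_r, ← Preadditive.zsmul_comp, kl_tgt X.pE, zero_comp]

theorem pLE : (p : ℤ) • 𝟙 (S.Le.L.obj Y.E) = 0 := kl_map (pE Y) S.Le.L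

theorem ri_eq : Y.r ≫ Y.i = -∑ ζ, lg X (B.c ζ) := by
  have h := Y.r_i
  rw [sub_smul, kl_tgt X.pE, one_smul, zero_sub] at h
  exact neg_eq_iff_eq_neg.1 h

theorem ri_comm (g : G) : lg X g ≫ Y.r ≫ Y.i = (Y.r ≫ Y.i) ≫ lg X g := by
  rw [ri_eq, Preadditive.comp_neg, Preadditive.neg_comp, Preadditive.comp_sum,
    Preadditive.sum_comp]
  exact congrArg _ (Finset.sum_congr rfl fun ζ _ => by rw [lg_mul, lg_mul, B.c_comm])

theorem i_c (ζ : (ZMod p)ˣ) : Y.i ≫ lg X (B.c ζ) = Y.i := by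
  have h1 : (Y.r ≫ Y.i) ≫ lg X (B.c ζ) = Y.r ≫ Y.i := by
    rw [ri_eq, Preadditive.neg_comp, Preadditive.sum_comp]
    refine congrArg _ (Fintype.sum_equiv (Equiv.mulLeft ζ) _ _ fun ζ' => ?_)
    rw [lg_mul, ← map_mul]
    rfl
  have h2 := congrArg (Y.i ≫ ·) h1
  simpa only [Category.assoc, reassoc_of% Y.i_r] using h2

theorem tE_eq : tE Y = Y.i ≫ lg X B.ψ ≫ Y.r - 𝟙 _ := by
  rw [tE, map_sub, map_one]
  exact congrArg (· - 𝟙 Y.E) (Y.lam_g B.ψ)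

theorem t_i : tE Y ≫ Y.i = Y.i ≫ (lg X B.ψ - 𝟙 _) := by
  rw [tE_eq, Preadditive.sub_comp, Preadditive.comp_sub, Category.assoc, Category.assoc, ri_comm,
    Category.assoc, reassoc_of% Y.i_r, Category.id_comp, Category.comp_id]

theorem r_t : Y.r ≫ tE Y = (lg X B.ψ - 𝟙 _) ≫ Y.r := by
  have h := ri_comm Y B.ψ
  rw [Category.assoc] at h
  rw [tE_eq, Preadditive.sub_comp, Preadditive.comp_sub, ← reassoc_of% h, Y.i_r, Category.comp_id,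
    Category.id_comp]

theorem loc_LS (hL : LocF S) {Z : T} (a : ModStr D.R Z) (hZ : (p : ℤ) • 𝟙 Z = 0) :
    IsLocal S.Ke (Z ⊗ S.LS) :=
  hL.loc _ (a.tensorRight _) (kl_right hZ _)
    (((tensorLeft Z).map_isZero (hL.zero1 (𝟙_ T))).of_iso (α_ _ _ _))

/-- `E ⊗ LS ≅ Le E ⊗ LS` -/
def jj (hL : LocF S) : Y.E ⊗ S.LS ≅ S.Le.L.obj Y.E ⊗ S.LS :=
  have := isIso_of_isLocal (loc_LS hL Y.mod (pE Y)) (loc_LS hL (S.Le.mod Y.mod) (pLE Y))
    (S.Le.u Y.E ▷ S.LS) ((S.Le.keq Y.E).whiskerRight S.LS)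
  asIso (S.Le.u Y.E ▷ S.LS)

variable (hL : LocF S)

theorem jj_hom : (jj Y hL).hom = S.Le.u Y.E ▷ S.LS := rfl

/-- the inclusion -/
def th : S.Le.L.obj Y.E ⊗ S.LS ⟶ X.E ⊗ S.LS := (jj Y hL).inv ≫ Y.i ▷ S.LS

/-- the retraction -/
def rh : X.E ⊗ S.LS ⟶ S.Le.L.obj Y.E ⊗ S.LS := Y.r ▷ S.LS ≫ (jj Y hL).hom

theorem th_rh : th Y hL ≫ rh Y hL = 𝟙 _ := by
  rw [th, rh, Category.assoc, ← comp_whiskerRight_assoc, Y.i_r, id_whiskerRight, Category.id_comp,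
    Iso.inv_hom_id]

theorem jj_t : (jj Y hL).hom ≫ S.Le.L.map (tE Y) ▷ S.LS = tE Y ▷ S.LS ≫ (jj Y hL).hom := by
  rw [jj_hom, ← comp_whiskerRight, ← comp_whiskerRight, LocFunctor.u_naturality]

theorem sub_wh (f g : X.E ⟶ X.E) : (f - g) ▷ S.LS = f ▷ S.LS - g ▷ S.LS :=
  (tensorRight S.LS).map_sub

theorem t_th : S.Le.L.map (tE Y) ▷ S.LS ≫ th Y hL = th Y hL ≫ (lg X B.ψ - 𝟙 _) ▷ S.LS := by
  rw [← cancel_epi (jj Y hL).hom, ← Category.assoc, jj_t, th, Category.assoc, Category.assoc,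
    Iso.hom_inv_id_assoc, Iso.hom_inv_id_assoc, ← comp_whiskerRight, ← comp_whiskerRight, t_i]

theorem rh_t : rh Y hL ≫ S.Le.L.map (tE Y) ▷ S.LS = (lg X B.ψ - 𝟙 _) ▷ S.LS ≫ rh Y hL := by
  rw [rh, Category.assoc, jj_t, ← comp_whiskerRight_assoc, ← comp_whiskerRight_assoc, r_t]

theorem th_c (ζ : (ZMod p)ˣ) : th Y hL ≫ lg X (B.c ζ) ▷ S.LS = th Y hL := by
  rw [th, Category.assoc, ← comp_whiskerRight, i_c]

theorem toL_nat {Z Z' : T} (f : Z ⟶ Z') : S.toL Z ≫ f ▷ S.LS = f ≫ S.toL Z' := by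
  rw [TS.toL, TS.toL, Category.assoc, whisker_exchange, rightUnitor_inv_naturality_assoc]

theorem u_th : S.Le.u Y.E ≫ S.toL _ ≫ th Y hL = Y.i ≫ S.toL X.E := by
  rw [← Category.assoc, ← toL_nat, ← jj_hom Y hL, th, Category.assoc, Iso.hom_inv_id_assoc,
    toL_nat]

variable (κ : Kap X)

include hL κ in
theorem odd_LE : OddZero (D.R ⊗ (S.Le.L.obj Y.E ⊗ S.LS)) :=
  κ.odd.retract (D.R ◁ th Y hL) (D.R ◁ rh Y hL)
    (by rw [← MonoidalCategory.whiskerLeft_comp, th_rh, MonoidalCategory.whiskerLeft_id])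

/-- the homology of `Le E ⊗ LS` inside `OInv K` -/
def kp : MP (stdEven T) D.R (S.Le.L.obj Y.E ⊗ S.LS) →+ OInv (KK F) :=
  κ.κ.toAddMonoidHom.comp (MP.map _ D.R (th Y hL)).toAddMonoidHom

theorem kp_apply (x : MP (stdEven T) D.R (S.Le.L.obj Y.E ⊗ S.LS)) :
    kp Y hL κ x = κ.κ (MP.map _ D.R (th Y hL) x) := rfl

theorem kp_inj : Function.Injective (kp Y hL κ) := fun x y h => by
  rw [kp_apply, kp_apply] at h
  have h1 := congrArg (MP.map _ D.R (rh Y hL)) (κ.κ.injective h)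
  rwa [mp_map, mp_map, th_rh, mp_id, mp_id] at h1

theorem kp_smul (z : HRing (stdEven T) D.R) (x : MP (stdEven T) D.R (S.Le.L.obj Y.E ⊗ S.LS)) :
    kp Y hL κ (z • x) = κ.χK z * kp Y hL κ x := by
  rw [kp_apply, kp_apply, map_smul, κ.κ_smul]

theorem k_psi (x : MP (stdEven T) D.R (X.E ⊗ S.LS)) :
    κ.κ (MP.map _ D.R ((lg X B.ψ - 𝟙 _) ▷ S.LS) x) = rhoK (B.emb B.ψ).γ (κ.κ x) - κ.κ x := by
  rw [sub_wh, mp_sub, map_sub, id_whiskerRight, mp_id, ← κ.κ_g B.ψ B.ψ_φ]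
  rfl

theorem kp_t (x : MP (stdEven T) D.R (S.Le.L.obj Y.E ⊗ S.LS)) :
    kp Y hL κ (MP.map _ D.R (S.Le.L.map (tE Y) ▷ S.LS) x) =
      rhoK (B.emb B.ψ).γ (kp Y hL κ x) - kp Y hL κ x := by
  rw [kp_apply, kp_apply, mp_map, t_th, ← mp_map, k_psi]

theorem kp_c (ζ : (ZMod p)ˣ) (x : MP (stdEven T) D.R (S.Le.L.obj Y.E ⊗ S.LS)) :
    rhoK (B.emb (B.c ζ)).γ (kp Y hL κ x) = kp Y hL κ x := by
  rw [kp_apply, ← κ.κ_g (B.c ζ) (B.c_φ ζ), mp_map]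
  exact congrArg (fun f => κ.κ (MP.map _ D.R f x)) (th_c Y hL ζ)

include hL κ in
theorem t_surj (h : ∀ t, ∃ s, rhoK (B.emb B.ψ).γ s - s = t)
    (y : MP (stdEven T) D.R (S.Le.L.obj Y.E ⊗ S.LS)) :
    ∃ x, MP.map _ D.R (S.Le.L.map (tE Y) ▷ S.LS) x = y := by
  obtain ⟨s, hs⟩ := h (kp Y hL κ y)
  obtain ⟨x, rfl⟩ := κ.κ.surjective s
  rw [← k_psi, kp_apply] at hs
  refine ⟨MP.map _ D.R (rh Y hL) x, ?_⟩
  rw [mp_map, rh_t, ← mp_map, κ.κ.injective hs, mp_map, th_rh, mp_id]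

/-! ### The Hurewicz classes -/

/-- the Hurewicz class -/
def hur (j : ℤ) (y : Se T j ⟶ S.Le.L.obj Y.E) : OInv (KK F) :=
  kp Y hL κ (MP.map _ D.R (y ≫ S.toL _) (MP.gen _ D.R j))

/-- the expected value -/
def qq (p : ℕ) (a : ℤ) (z : KK F) : OInv (KK F) :=
  (((OInv.f (KK F)).lead ^ (-(((p : ℤ) - 1) * a)) : (OInv (KK F))ˣ) : OInv (KK F)) *
    OInv.inc _ (KK.uz a * z)

theorem qq_succ (a : ℤ) (z : KK F) : qq p (a + 1) z = qq p 1 1 * qq p a z := by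
  rw [qq, qq, qq, KK.uz_add, show -(((p : ℤ) - 1) * (a + 1)) =
    -(((p : ℤ) - 1) * 1) + -(((p : ℤ) - 1) * a) by ring, zpow_add, Units.val_mul]
  simp only [map_mul, map_one]
  ring

theorem qq_zero (z : KK F) : qq p 0 z = OInv.inc _ z := by
  rw [qq, mul_zero, neg_zero, zpow_zero, Units.val_one, one_mul, KK.uz_zero, one_mul]

theorem qq_unit : IsUnit (qq p 1 (1 : KK F)) := by
  refine (Units.isUnit _).mul (IsUnit.map _ ?_)
  rw [mul_one]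
  exact IsUnit.of_mul_eq_one (KK.uz (-1)) (by rw [← KK.uz_add, add_neg_cancel, KK.uz_zero])

theorem hur_u (a : ℤ) (x : Se T (((p : ℤ) - 1) * a) ⟶ Y.E) :
    hur Y hL κ _ (x ≫ S.Le.u Y.E) = qq p a (Y.ke a (x ≫ S.Le.u Y.E)) := by
  rw [hur, kp_apply, mp_map, Category.assoc, Category.assoc, u_th, ← Category.assoc, κ.κ_pi,
    Y.ke_u, qq, ← mul_assoc (KK.uz a), ← KK.uz_add, add_neg_cancel, KK.uz_zero, one_mul]

theorem hur_v {n k : ℤ} (h : ((p : ℤ) ^ 1 - 1) + n = k) (y : Se T n ⟶ S.Le.L.obj Y.E) :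
    hur Y hL κ k (gsmul (S.Le.mod Y.mod) h (D.vel p 1) y) = κ.χK (vA D p 1) * hur Y hL κ n y := by
  rw [hur, hur, ← kp_smul, mp_gen, mp_gen, vA, MP.smul_of h, Category.assoc, Category.assoc,
    gsmul_comm S.W _ (ModStr.free D.R _) (kl_left (kl_right (pLE Y) _) _)]

theorem deg (a : ℤ) : ((p : ℤ) ^ 1 - 1) + ((p : ℤ) - 1) * a = ((p : ℤ) - 1) * (a + 1) := by ring

include Y hL in
theorem chi_v : κ.χK (vA D p 1) = qq p 1 1 := by
  obtain ⟨w, hw⟩ := (X.pe (((p : ℤ) - 1) * 0)).surjective 1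
  obtain ⟨x, rfl⟩ := (Y.pi_i 0).2 w
  have h0 : Y.ke 0 (x ≫ S.Le.u Y.E) = 1 := by
    rw [Y.ke_u, hw, map_one, neg_zero, KK.uz_zero, one_mul]
  have h1 := hur_u Y hL κ (0 + 1) (gsmul Y.mod (deg 0) (D.vel p 1) x)
  rw [← gsmul_comp _ _ (S.Le.isLinear_u Y.mod), hur_v, Y.ke_v, hur_u, h0, qq_zero, map_one,
    mul_one, zero_add] at h1
  exact h1

theorem hur_step (n : ℕ) : ∀ (a : ℤ) (y : Se T (((p : ℤ) - 1) * a) ⟶ S.Le.L.obj Y.E) (x : He Y.E),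
    sm (S.Le.mod Y.mod) (vA D p 1 ^ n) (He.of _ _ y) = He.map (S.Le.u Y.E) x →
      hur Y hL κ _ y = qq p a (Y.ke a y) := by
  let := hModule (E := stdEven T) (S.Le.mod Y.mod)
  induction n with
  | zero =>
    intro a y x h
    have h1 : He.of _ _ y = He.map (S.Le.u Y.E) x := by
      rw [← h, pow_zero]
      exact (one_smul _ _).symm
    have h2 := congrArg (He.cp _ (((p : ℤ) - 1) * a)) h1
    rw [He.cp_of_same, He.cp_map] at h2
    rw [h2, hur_u]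
  | succ n ih =>
    intro a y x h
    have h1 : vA D p 1 • He.of _ _ y =
        He.of _ _ (gsmul (S.Le.mod Y.mod) (deg a) (D.vel p 1) y) :=
      of_smul_of (E := stdEven T) (S.Le.mod Y.mod) (deg a) (D.vel p 1) y
    have h2 := ih (a + 1) (gsmul (S.Le.mod Y.mod) (deg a) (D.vel p 1) y) x (by
      rw [← h, ← h1, pow_succ]
      exact (mul_smul _ _ _).symm)
    rw [hur_v, Y.ke_v, qq_succ, chi_v Y hL κ] at h2
    exact qq_unit.mul_left_cancel h2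

/-- the Hurewicz class of an element of `π_0 Le E = K` is the constant -/
theorem kp_hur (y : Se T (((p : ℤ) - 1) * 0) ⟶ S.Le.L.obj Y.E) :
    hur Y hL κ _ y = OInv.inc _ (Y.ke 0 y) := by
  obtain ⟨n, x, h⟩ := hL.surj Y.E Y.mod (pE Y) (He.of _ _ y)
  rw [hur_step Y hL κ n 0 y x h, qq_zero]

end Vale.Agent.P221X.TC.HT
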