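import Vale.Agent.P221X.TC.Defs
import Vale.Agent.P251.S.Coprod

/-!
# P221X, row TC-JD: the cofibre `A` and the object `J = Le (M⟦1⟧)`

`rowJD : RowJD S B`. The homotopy groups of `Le A` and the maps from `J` to `Le A` are copies of
the module `K`; Schur's lemma shows that a nonzero class of `J` induces a bijection.
-/

open CategoryTheory MonoidalCategory Limits Pretriangulated PowerSeries

set_option linter.unusedSectionVars false

universe u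

noncomputable section

namespace Vale.Agent.P221X.TC

open Vale.Agent.P251 Vale.Agent.P251.T Vale.Agent.P251.M Vale.Agent.P251.S Vale.Agent.P251.I
open ProG

variable {T : Type u} [Category.{0} T] [Preadditive T] [HasZeroObject T] [HasShift T ℤ]
  [∀ n : ℤ, (shiftFunctor T n).Additive] [Pretriangulated T] [IsTriangulated T]
  [MonoidalCategory T] [SymmetricCategory T] [TensorTriangulated T] [MonoidalClosed T]
  [HasCoproducts.{0} T] [HasProducts.{0} T] [StableCat T]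

namespace JDp

section isk

variable {AA K : Type} [AddCommGroup K] (act : AA → K → K)

/-- the maps from `P` to `V` form the module `K` -/
def IsK {V : T} (lam : AA → (V ⟶ V)) (P : T) : Prop :=
  ∃ κ : (P ⟶ V) ≃+ K, ∀ μ x, κ (x ≫ lam μ) = act μ (κ x)

variable {act} {V V' P P' : T} {lam : AA → (V ⟶ V)} {lam' : AA → (V' ⟶ V')}

theorem IsK.tr (e : (P' ⟶ V') →+ (P ⟶ V)) (he : Function.Bijective e)
    (h : ∀ μ x, e (x ≫ lam' μ) = e x ≫ lam μ) : IsK act lam P ↔ IsK act lam' P' := by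
  constructor
  · rintro ⟨κ, hκ⟩
    exact ⟨(AddEquiv.ofBijective e he).trans κ, fun μ x => by simp [h, hκ]⟩
  · rintro ⟨κ, hκ⟩
    refine ⟨(AddEquiv.ofBijective e he).symm.trans κ, fun μ x => ?_⟩
    obtain ⟨y, rfl⟩ := (AddEquiv.ofBijective e he).surjective x
    have h1 : AddEquiv.ofBijective e he y ≫ lam μ = AddEquiv.ofBijective e he (y ≫ lam' μ) :=
      (h μ y).symm
    rw [h1, AddEquiv.trans_apply, AddEquiv.trans_apply, AddEquiv.symm_apply_apply,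
      AddEquiv.symm_apply_apply, hκ]

theorem IsK.pre (f : P ⟶ P') (hf : Function.Bijective fun x : P' ⟶ V => f ≫ x) :
    IsK act lam P ↔ IsK act lam P' :=
  IsK.tr (Preadditive.leftComp V f) hf fun _ _ => (Category.assoc _ _ _).symm

theorem IsK.post (f : V' ⟶ V) (hf : Function.Bijective fun x : P ⟶ V' => x ≫ f)
    (h : ∀ μ, lam' μ ≫ f = f ≫ lam μ) : IsK act lam P ↔ IsK act lam' P :=
  IsK.tr (Preadditive.rightComp P f) hf fun μ x => by
    change (x ≫ lam' μ) ≫ f = (x ≫ f) ≫ lam μ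
    rw [Category.assoc, Category.assoc, h]

theorem IsK.iso (H : IsK act lam P) (e : P ≅ P') : IsK act lam P' :=
  (IsK.pre e.hom ⟨fun _ _ h => (cancel_epi e.hom).1 h, fun x => ⟨e.inv ≫ x, by simp⟩⟩).1 H

theorem IsK.shift (H : IsK act lam P) (n : ℤ) : IsK act (fun μ => (lam μ)⟦n⟧') (P⟦n⟧) :=
  (IsK.tr (lam := fun μ => (lam μ)⟦n⟧') (lam' := lam) (shiftFunctor T n).mapAddHom
    ⟨(shiftFunctor T n).map_injective, (shiftFunctor T n).map_surjective⟩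
    fun _ _ => (shiftFunctor T n).map_comp _ _).2 H

theorem IsK.zero (H : IsK act lam P) {t : AA} (ht : ∀ z, act t z = 0) (x : P ⟶ V) :
    x ≫ lam t = 0 := by
  obtain ⟨κ, hκ⟩ := H
  exact κ.injective (by rw [hκ, ht, map_zero])

/-- Schur's lemma: a class acts as zero or as a bijection -/
theorem IsK.bij {F : Type} [Field F] [Module F K]
    (hS : ∀ φ : K →+ K, (∀ μ z, φ (act μ z) = act μ (φ z)) → ∃ c : F, ∀ z, φ z = c • z)
    (H : IsK act lam P) (H' : IsK act lam P') (z : P ⟶ P') {g : P' ⟶ V} (hg : z ≫ g ≠ 0) :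
    Function.Bijective fun x : P' ⟶ V => z ≫ x := by
  obtain ⟨κ, hκ⟩ := H
  obtain ⟨κ', hκ'⟩ := H'
  obtain ⟨c, hc⟩ := hS (κ.toAddMonoidHom.comp ((Preadditive.leftComp V z).comp
    κ'.symm.toAddMonoidHom)) fun μ w => by
      obtain ⟨x, rfl⟩ := κ'.surjective w
      rw [← hκ']
      simp [Preadditive.leftComp, ← hκ]
  have h1 : ∀ x, κ (z ≫ x) = c • κ' x := fun x => by simpa [Preadditive.leftComp] using hc (κ' x)
  have h2 : c ≠ 0 := fun h => hg (κ.injective (by rw [h1, h, zero_smul, map_zero]))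
  constructor
  · intro x y h
    have h3 : c • κ' x = c • κ' y := by rw [← h1, ← h1]; exact congrArg κ h
    exact κ'.injective (by rw [← inv_smul_smul₀ h2 (κ' x), h3, inv_smul_smul₀ h2])
  · intro y
    refine ⟨κ'.symm (c⁻¹ • κ y), κ.injective ?_⟩
    rw [h1, AddEquiv.apply_symm_apply, smul_inv_smul₀ h2]

end isk

/-- `S^n ≅ S^{n-1}⟦1⟧` -/
def sphS (n : ℤ) : Sph T n ≅ (Sph T (n - 1))⟦(1 : ℤ)⟧ :=
  (shiftFunctorAdd' T (n - 1) 1 n (by ring)).app _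

theorem van_shift {V : T} {n : ℤ} (h : ∀ x : Sph T (n - 1) ⟶ V, x = 0)
    (y : Sph T n ⟶ V⟦(1 : ℤ)⟧) : y = 0 := by
  obtain ⟨x, hx⟩ := (shiftFunctor T (1 : ℤ)).map_surjective ((sphS n).inv ≫ y)
  rw [h x, Functor.map_zero] at hx
  rw [← cancel_epi (sphS n).inv, ← hx, comp_zero]

section cone

variable {AA K : Type} [AddCommGroup K] {act : AA → K → K} {V W : T} {lam : AA → (V ⟶ V)}
  {t : AA} {i : V ⟶ W} {d : W ⟶ V⟦(1 : ℤ)⟧} (hΔ : Triangle.mk (lam t) i d ∈ distTriang T)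
  {q : ℤ} (hv : ∀ n : ℤ, ¬ q ∣ n → ∀ x : Sph T n ⟶ V, x = 0)

include hΔ hv in
theorem cone_van {n : ℤ} (h0 : ¬ q ∣ n) (h1 : ¬ q ∣ n - 1) (x : Sph T n ⟶ W) : x = 0 := by
  obtain ⟨y, hy⟩ := Triangle.coyoneda_exact₃ _ hΔ x (van_shift (hv _ h1) _)
  rw [hy, hv n h0 y]
  exact zero_comp

include hΔ hv in
theorem cone_isK (hq : ¬ q ∣ 1) (hc : ∀ μ, lam t ≫ lam μ = lam μ ≫ lam t)
    (ht : ∀ z, act t z = 0) (hK : ∀ n, q ∣ n → IsK act lam (Sph T n)) :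
    ∃ lam' : AA → (W ⟶ W), ∀ n, q ∣ n ∨ q ∣ n - 1 → IsK act lam' (Sph T n) := by
  choose lam' h1 h2 using fun μ =>
    complete_distinguished_triangle_morphism _ _ hΔ hΔ (lam μ) (lam μ) (hc μ)
  refine ⟨lam', fun n hn => ?_⟩
  rcases hn with hn | hn
  · refine (IsK.post (lam := lam') (lam' := lam) i ⟨?_, fun x => ?_⟩ fun μ => (h1 μ).symm).2
      (hK n hn)
    · refine (injective_iff_map_eq_zero (Preadditive.rightComp _ i)).2 fun x hx => ?_
      obtain ⟨y, hy⟩ := Triangle.coyoneda_exact₂ _ hΔ x hx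
      exact hy.trans ((hK n hn).zero ht y)
    · obtain ⟨y, hy⟩ := Triangle.coyoneda_exact₃ _ hΔ x (van_shift (hv _ fun h => hq
        (by simpa using dvd_sub hn h)) _)
      exact ⟨y, hy.symm⟩
  · have H := ((hK _ hn).shift 1).iso (sphS n).symm
    refine (IsK.post (lam := fun μ => (lam μ)⟦(1 : ℤ)⟧') (lam' := lam') d ⟨?_, fun x => ?_⟩
      fun μ => (h2 μ).symm).1 H
    · refine (injective_iff_map_eq_zero (Preadditive.rightComp _ d)).2 fun x hx => ?_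
      obtain ⟨y, hy⟩ := Triangle.coyoneda_exact₃ _ hΔ x hx
      rw [hy, hv n (fun h => hq (by simpa using dvd_sub h hn)) y]
      exact zero_comp
    · obtain ⟨y, hy⟩ := Triangle.coyoneda_exact₁ _ hΔ x (H.zero ht x)
      exact ⟨y, hy.symm⟩

end cone

section sums

variable (I : Type)

/-- the sum of copies of the unit -/
abbrev Zs : T := ∐ fun _ : I => 𝟙_ T

/-- `∐ Y ⟶ Y ⊗ ∐ 𝟙` -/
def cz (Y : T) : (∐ fun _ : I => Y) ⟶ Y ⊗ Zs I :=
  Sigma.desc fun i => (ρ_ Y).inv ≫ Y ◁ Sigma.ι (fun _ : I => 𝟙_ T) i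

instance (Y : T) : IsIso (cz I Y) := by
  have h : cz I Y = Limits.Sigma.map (fun _ => (ρ_ Y).inv) ≫
      sigmaComparison (tensorLeft Y) fun _ : I => 𝟙_ T := by
    refine Sigma.hom_ext _ _ fun i => ?_
    rw [cz, Sigma.ι_desc, Sigma.ι_map_assoc]
    exact congrArg _ (ι_comp_sigmaComparison (tensorLeft Y) (fun _ : I => 𝟙_ T) i).symm
  rw [h]
  infer_instance

theorem cz_nat {Y Y' : T} (f : Y ⟶ Y') :
    Limits.Sigma.map (fun _ : I => f) ≫ cz I Y' = cz I Y ≫ f ▷ Zs I := by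
  refine Sigma.hom_ext _ _ fun i => ?_
  simp [cz, whisker_exchange]

theorem keq_sum {K Y Y' : T} {f : Y ⟶ Y'} (h : KEq K f) : KEq K (Limits.Sigma.map fun _ : I => f) := by
  refine KEq.of_comp_right (KEq.of_isIso (cz I Y')) ?_
  rw [cz_nat]
  exact (KEq.of_isIso _).comp (h.whiskerRight _)

end sums

section summand

variable {Ke : T} (Λ : LocFunctor Ke) {N W : T} (hW : IsLocal Ke W) {I : Type}
  {g : I → (N ⟶ W)} (hg : KEq Ke (Sigma.desc g))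

open Classical in
/-- the projection onto a summand -/
def rh (i : I) : W ⟶ Λ.L.obj N :=
  (Λ.isoOfKEq hW _ hg).inv ≫ Λ.L.map (Sigma.desc fun j => if j = i then 𝟙 N else 0)

open Classical in
theorem desc_rh (i j : I) :
    Λ.desc hW (g j) ≫ rh Λ hW hg i = if j = i then 𝟙 _ else 0 := by
  apply Λ.hom_ext (Λ.isLocal _)
  have h : g j = Sigma.ι (fun _ : I => N) j ≫ Λ.u _ ≫ (Λ.isoOfKEq hW _ hg).hom := by
    rw [Λ.u_isoOfKEq, Sigma.ι_desc]
  rw [Λ.u_desc_assoc, h, rh, Category.assoc, Category.assoc, Iso.hom_inv_id_assoc,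
    Λ.u_naturality, Sigma.ι_desc_assoc]
  split_ifs <;> simp

theorem desc_rh_self (i : I) : Λ.desc hW (g i) ≫ rh Λ hW hg i = 𝟙 _ := by
  rw [desc_rh, if_pos rfl]

include hW hg in
theorem sum_local (i : I) (h : ∀ I' : Type, IsLocal Ke (W ⊗ Zs I')) (I' : Type) :
    IsLocal Ke (∐ fun _ : I' => Λ.L.obj N) :=
  ((h I').retract (Λ.desc hW (g i) ▷ _) (rh Λ hW hg i ▷ _)
    (by rw [← comp_whiskerRight, desc_rh_self, id_whiskerRight])).of_iso (asIso (cz I' _)).symm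

include hW hg in
theorem exists_ne (h : IsLocal Ke (∐ fun _ : I => Λ.L.obj N)) {n : ℤ} {y : Sph T n ⟶ W}
    (hy : y ≠ 0) : ∃ z : Sph T n ⟶ Λ.L.obj N, z ≠ 0 := by
  by_contra H
  push Not at H
  let e := (Λ.isoOfKEq hW _ hg).symm ≪≫ Λ.isoOfKEq h _ (keq_sum I (Λ.keq N))
  obtain ⟨s, a, ha⟩ := compact_sum _ ⟨n, ⟨Iso.refl _⟩⟩ (y ≫ e.hom)
  refine hy ((cancel_mono e.hom).1 ?_)
  rw [ha, zero_comp]
  exact Finset.sum_eq_zero fun i _ => by rw [H (a i), zero_comp]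

theorem exists_int (i : I) (h : Λ.L.obj N ⟶ W) {s : Finset I} {c : I → ℤ}
    (hh : ∑ j ∈ s, c j • g j = Λ.u N ≫ h) : ∃ k : ℤ, h ≫ rh Λ hW hg i = k • 𝟙 _ := by
  classical
  have h1 : h = ∑ j ∈ s, c j • Λ.desc hW (g j) := Λ.hom_ext hW (by
    rw [← hh, Preadditive.comp_sum]
    exact Finset.sum_congr rfl fun j _ => by rw [Preadditive.comp_zsmul, Λ.u_desc])
  refine ⟨∑ j ∈ s, if j = i then c j else 0, ?_⟩
  rw [h1, Preadditive.sum_comp, Finset.sum_smul]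
  refine Finset.sum_congr rfl fun j _ => ?_
  rw [Preadditive.zsmul_comp, desc_rh]
  split_ifs <;> simp

end summand

section moore

variable {p : ℤ} {M W : T} {i : 𝟙_ T ⟶ M} {d : M ⟶ (𝟙_ T)⟦(1 : ℤ)⟧}

theorem moore_bij (hΔ : Triangle.mk (p • 𝟙 (𝟙_ T)) i d ∈ distTriang T)
    (h1 : ∀ x : Sph T 1 ⟶ W, p • x = 0) (h2 : ∀ x : Sph T 2 ⟶ W, x = 0) :
    Function.Bijective fun x : M⟦(1 : ℤ)⟧ ⟶ W => i⟦(1 : ℤ)⟧' ≫ x := by
  obtain ⟨w, hw⟩ := exists_dist_shift hΔ 1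
  constructor
  · refine (injective_iff_map_eq_zero (Preadditive.leftComp W (i⟦(1 : ℤ)⟧'))).2 fun x hx => ?_
    obtain ⟨y, hy⟩ := Triangle.yoneda_exact₃ _ hw x hx
    let e : Sph T 2 ≅ (Sph T 1)⟦(1 : ℤ)⟧ := (shiftFunctorAdd' T 1 1 2 rfl).app _
    have h3 : y = 0 := (cancel_epi e.hom).1 ((h2 _).trans comp_zero.symm)
    exact hy.trans (by rw [h3]; exact comp_zero)
  · intro x
    obtain ⟨y, hy⟩ := Triangle.yoneda_exact₂ _ hw x (by
      change (p • 𝟙 (𝟙_ T))⟦(1 : ℤ)⟧' ≫ x = 0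
      rw [Functor.map_zsmul, Preadditive.zsmul_comp, CategoryTheory.Functor.map_id,
        Category.id_comp, h1])
    exact ⟨y, hy.symm⟩

end moore

section alg

variable {p : ℕ} [Fact p.Prime] {F : Type} [Field F] [CharP F p] {G G' : Type} [Group G] [ProG G]
  [MulSemiringAction G F⟦X⟧] [MulSemiringAction G (KK F)] [ActK G F] [Group G'] [ProG G']
  [MulSemiringAction G' F⟦X⟧] [MulSemiringAction G' (KK F)] [ActK G' F] (B : BG p F G G')

theorem ψ_K (z : KK F) : B.π B.ψ • z = z := by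
  obtain ⟨a, b, -, rfl⟩ := IsFractionRing.div_surjective (A := F⟦X⟧) z
  have h : ∀ f : F⟦X⟧, B.ψ • f = f := fun f => by rw [B.emb_O, B.ψ_φ]; rfl
  rw [B.π_K, smul_div₀', ActK.alg, ActK.alg, h, h]

theorem ψ_KO (x : KO F) : B.π B.ψ • x = x := by
  obtain ⟨z, rfl⟩ := KO.mk_surj x
  rw [KO.gsmul_mk, ψ_K]

theorem ψ_comm (a : G') : B.π B.ψ * a = a * B.π B.ψ := by
  obtain ⟨g, rfl⟩ := B.π_surj a
  rw [← map_mul, B.ψ_comm, map_mul]

theorem ψ_central (μ : MG G' F) :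
    Meas.ofG F⟦X⟧ (KO F) (B.π B.ψ) * μ = μ * Meas.ofG F⟦X⟧ (KO F) (B.π B.ψ) :=
  Meas.ext fun φ => by
    rw [Meas.ofG_mul_apply, ψ_KO, Meas.mul_ofG_apply _ μ φ ((B.π B.ψ)⁻¹ • φ) fun a => by
      rw [LC.gsmul_apply, inv_inv, ψ_comm, inv_smul_eq_iff, ψ_KO]]

theorem tt_K (z : KK F) : Meas.actK (Meas.ofG F⟦X⟧ (KO F) (B.π B.ψ) - 1 : MG G' F) z = 0 := by
  rw [map_sub, map_one]
  change Meas.actK (Meas.ofG F⟦X⟧ (KO F) (B.π B.ψ)) z - z = 0
  rw [Meas.actK_ofG, ψ_K, sub_self]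

theorem p_K (z : KK F) : (p : ℤ) • z = 0 := by
  rw [← Int.cast_smul_eq_zsmul F, Int.cast_natCast, CharP.cast_eq_zero, zero_smul]

end alg

end JDp

open JDp

variable {D : MUData T} {p : ℕ} [Fact p.Prime] {F : Type} [Field F] [CharP F p] {G G' : Type}
  [Group G] [ProG G] [MulSemiringAction G F⟦X⟧] [MulSemiringAction G (KK F)] [ActK G F]
  [Group G'] [ProG G'] [MulSemiringAction G' F⟦X⟧] [MulSemiringAction G' (KK F)] [ActK G' F]

/-- **Row JD.** -/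
theorem rowJD (S : TS D p F) (B : BG p F G G') : RowJD S B := by
  intro L hS X Y H
  obtain ⟨A, iA, dA, hA⟩ :=
    distinguished_cocone_triangle (Y.lam (Meas.ofG F⟦X⟧ (KO F) (B.π B.ψ) - 1) : Y.E ⟶ Y.E)
  obtain ⟨I, ⟨i⟩, g, hg, hb⟩ := H A iA dA hA
  have h5 : (5 : ℤ) ≤ p := by exact_mod_cast S.h5
  have hq : ∀ k : ℤ, 0 < k → k ≤ 2 → ¬ (2 * p - 2 : ℤ) ∣ k := fun k h0 h2 h => by
    have := Int.le_of_dvd h0 h
    omega
  have hW := S.Le.isLocal A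
  have hΔ : Triangle.mk ((fun μ : MG G' F => S.Le.L.map (Y.lam μ : Y.E ⟶ Y.E))
      (Meas.ofG F⟦X⟧ (KO F) (B.π B.ψ) - 1)) (S.Le.L.map iA) _ ∈ distTriang T := S.Le.map_dist hA
  have hpE : (p : ℤ) • 𝟙 Y.E = 0 := by
    rw [← Y.i_r, ← Category.id_comp Y.r, ← Preadditive.comp_zsmul, ← Preadditive.zsmul_comp,
      X.pE, zero_comp, comp_zero]
  have hpV : (p : ℤ) • 𝟙 (S.Le.L.obj Y.E) = 0 := by
    rw [← S.Le.L.map_id, ← S.Le.L.map_zsmul, hpE, S.Le.L.map_zero]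
  have hVZ : ∀ Z : T, IsLocal S.Ke (S.Le.L.obj Y.E ⊗ Z) := fun Z =>
    L.loc _ ((S.Le.mod Y.mod).tensorRight Z) (by
      have h1 : (tensorRight Z).map ((p : ℤ) • 𝟙 (S.Le.L.obj Y.E)) =
          (p : ℤ) • (tensorRight Z).map (𝟙 _) := Functor.map_zsmul _
      rw [hpV, Functor.map_zero, CategoryTheory.Functor.map_id] at h1
      exact h1.symm)
      (IsZero.of_iso (Acyclic.tensor_left (K := S.Le.L.obj Y.E) (W := S.W.V1) (L.zero1 _) Z :)
        (α_ _ _ _))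
  have hloc := sum_local S.Le hW hg i fun I' =>
    IsLocal.ext₃ (dist_whiskerRight (Zs I') hΔ) (hVZ _) (hVZ _)
  have hvan := fun n h0 h1 => cone_van (n := n) hΔ Y.πV_van h0 h1
  have hc : ∀ μ : MG G' F,
      S.Le.L.map (Y.lam (Meas.ofG F⟦X⟧ (KO F) (B.π B.ψ) - 1) : Y.E ⟶ Y.E) ≫
        S.Le.L.map (Y.lam μ : Y.E ⟶ Y.E) = S.Le.L.map (Y.lam μ : Y.E ⟶ Y.E) ≫
          S.Le.L.map (Y.lam (Meas.ofG F⟦X⟧ (KO F) (B.π B.ψ) - 1) : Y.E ⟶ Y.E) := fun μ => by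
    have h1 := congrArg Y.lam (show μ * (Meas.ofG F⟦X⟧ (KO F) (B.π B.ψ) - 1) =
      (Meas.ofG F⟦X⟧ (KO F) (B.π B.ψ) - 1) * μ by
        rw [sub_mul, mul_sub, ψ_central, one_mul, mul_one])
    rw [map_mul, map_mul] at h1
    exact (S.Le.L.map_comp _ _).symm.trans
      ((congrArg S.Le.L.map h1).trans (S.Le.L.map_comp _ _))
  have hK : ∀ n : ℤ, (2 * p - 2 : ℤ) ∣ n → IsK (fun (μ : MG G' F) (z : KK F) => Meas.actK μ z)
      (fun μ => S.Le.L.map (Y.lam μ : Y.E ⟶ Y.E)) (Sph T n) := by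
    rintro _ ⟨a, rfl⟩
    exact IsK.iso ⟨Y.ke a, fun μ x => Y.ke_lam a x μ⟩
      (P257.H314.sI T _ ≪≫ eqToIso (by congr 2; ring))
  obtain ⟨lam', hl⟩ := cone_isK (lam := fun μ : MG G' F => S.Le.L.map (Y.lam μ : Y.E ⟶ Y.E))
    hΔ Y.πV_van (hq 1 one_pos one_le_two) hc (tt_K B) hK
  have h1 := hl 1 (Or.inr (by simp))
  have hJ := (IsK.pre _ (hW.precomp_bijective _ (S.Le.keq _))).1
    ((IsK.pre _ (moore_bij S.W.distM (fun x => by
      obtain ⟨κ, -⟩ := h1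
      exact κ.injective (by rw [map_zsmul, p_K, map_zero]))
      (hvan 2 (hq 2 two_pos le_rfl) (hq _ (by norm_num) (by norm_num))))).1 h1)
  refine ⟨⟨A, iA, dA, hA, hloc, fun n h0 h1 x => ?_, fun n hn => ?_⟩⟩
  · rw [← Category.comp_id x, ← desc_rh_self S.Le hW hg i, ← Category.assoc, hvan n h0 h1 (x ≫ _),
      zero_comp]
  · obtain ⟨κ, hκ⟩ := hl n hn
    obtain ⟨z, hz⟩ := exists_ne S.Le hW hg (hloc I) (y := κ.symm 1) (by simp)
    have hbij := IsK.bij (F := F) (act := fun (μ : MG G' F) (z : KK F) => Meas.actK μ z)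
      (fun φ h => hS φ h) (hl n hn) hJ z (g := S.Le.desc hW (g i)) fun h => hz (by
      rw [← Category.comp_id z, ← desc_rh_self S.Le hW hg i, ← Category.assoc, h, zero_comp])
    refine ⟨z, fun x => ?_, hbij⟩
    obtain ⟨h, hh⟩ := hbij.2 (x ≫ S.Le.desc hW (g i))
    obtain ⟨c, hc⟩ := hb.2 (S.Le.u _ ≫ h)
    obtain ⟨k, hk⟩ := exists_int S.Le hW hg i h hc
    refine ⟨k, ?_⟩
    rw [← Category.comp_id x, ← desc_rh_self S.Le hW hg i, ← Category.assoc, ← hh,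
      Category.assoc, hk, Preadditive.comp_zsmul, Category.comp_id]

end Vale.Agent.P221X.TC
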