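import Vale.Agent.P221X.TC.Defs

/-!
# P221X, block TOP-C, row HT1b: `ρ_ψ - 1` is onto

Right translation `rho δ` by an invertible series `δ` acts on the ring `OInv K` of functions on
the invertible series. If `K` is a field of characteristic `p` and `γ` is a strict series of
infinite order, then `rho γ - 1` is onto (`rho_onto`). This applies to the series `[1 + p]` of
the law `FK` (`rhoK_onto`).
-/

set_option linter.all false

open PowerSeries

noncomputable section

namespace Vale.Agent.P221X.TC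

open Vale.Agent.P251 Vale.Agent.P251.F Vale.Agent.P217

section near

variable {B : Type*} [CommRing B]

theorem subst_near {N : ℕ} (f δ : InvSeries B) (h : (X : B⟦X⟧) ^ N ∣ δ.val - X) :
    (X : B⟦X⟧) ^ (N + 1) ∣ (f * δ).val - f.val - C (f.c 0) * (δ.val - X) := by
  obtain ⟨g, hg⟩ : (X : B⟦X⟧) ^ 2 ∣ f.val - C (f.c 0) * X := by
    rw [X_pow_dvd_iff]
    intro i hi
    interval_cases i
    · simp [f.cc]
    · simp [InvSeries.c]
  have hf : f.val = C (f.c 0) * X + X ^ 2 * g := by rw [← hg]; ring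
  have h1 : (X : B⟦X⟧) ^ N ∣ (subst δ.val g : B⟦X⟧) - g := by
    rw [X_pow_dvd_iff]
    intro i hi
    have := coeff_subst_agr (m := N) (f := g) (f' := g) (g := (X : B⟦X⟧)) (g' := δ.val)
      (by simp) δ.cc (fun _ _ => rfl) (fun j hj => by
        have := X_pow_dvd_iff.1 h j hj
        rwa [map_sub, sub_eq_zero] at this) i hi
    rw [map_sub, this, X_subst, sub_self]
  have h2 : (f * δ).val = C (f.c 0) * δ.val + δ.val ^ 2 * (subst δ.val g : B⟦X⟧) := by
    rw [InvSeries.mul_val]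
    conv_lhs => rw [hf]
    rw [subst_add δ.hs, subst_mul δ.hs, subst_mul δ.hs, subst_pow δ.hs, subst_X δ.hs, subst_C]
    rfl
  obtain ⟨a, ha⟩ := h
  obtain ⟨b, hb⟩ := h1
  obtain ⟨d, hd⟩ := X_dvd_iff.2 δ.cc
  refine ⟨a * (d + 1) * (subst δ.val g : B⟦X⟧) + X * b, ?_⟩
  rw [h2]
  conv_lhs => rw [hf]
  linear_combination (δ.val + X) * (subst δ.val g : B⟦X⟧) * ha + X ^ 2 * hb
    + X ^ N * a * (subst δ.val g : B⟦X⟧) * hd

theorem mul_near {N : ℕ} (f δ : InvSeries B) (h : (X : B⟦X⟧) ^ N ∣ δ.val - X) :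
    (X : B⟦X⟧) ^ N ∣ (f * δ).val - f.val := by
  have h1 := (pow_dvd_pow (X : B⟦X⟧) (Nat.le_succ N)).trans (subst_near f δ h)
  have h2 := dvd_add h1 (h.mul_left (C (f.c 0)))
  rwa [sub_add_cancel] at h2

theorem c_mul_low {N : ℕ} (f δ : InvSeries B) (h : (X : B⟦X⟧) ^ N ∣ δ.val - X) {k : ℕ}
    (hk : k + 1 < N) : (f * δ).c k = f.c k := by
  have := X_pow_dvd_iff.1 (mul_near f δ h) _ hk
  rwa [map_sub, sub_eq_zero] at this

theorem c_mul_top {n : ℕ} (f δ : InvSeries B) (h : (X : B⟦X⟧) ^ (n + 1) ∣ δ.val - X) :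
    (f * δ).c n = f.c n + f.c 0 * coeff (n + 1) (δ.val - X) := by
  have := X_pow_dvd_iff.1 (subst_near f δ h) (n + 1) (Nat.lt_succ_self _)
  rw [map_sub, map_sub, coeff_C_mul] at this
  change (f * δ).c n - f.c n - _ = 0 at this
  linear_combination this

theorem pow_near {N : ℕ} (δ : InvSeries B) (h1 : δ.c 0 = 1) (h : (X : B⟦X⟧) ^ N ∣ δ.val - X)
    (j : ℕ) : (X : B⟦X⟧) ^ (N + 1) ∣ (δ ^ j).val - X - (j : B⟦X⟧) * (δ.val - X) := by
  induction j with
  | zero => simp
  | succ j ih =>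
    have h2 := subst_near (δ ^ j) δ h
    rw [mem_strict.1 (pow_mem (mem_strict.2 h1) j), map_one, one_mul, ← pow_succ] at h2
    have h3 := dvd_add ih h2
    convert h3 using 1
    push_cast
    ring

theorem pow_pow_near {p : ℕ} (hp : (p : B) = 0) (γ : InvSeries B) (h1 : γ.c 0 = 1) (n : ℕ) :
    (X : B⟦X⟧) ^ (n + 2) ∣ (γ ^ p ^ n).val - X := by
  induction n with
  | zero =>
    rw [pow_zero, pow_one, X_pow_dvd_iff]
    intro i hi
    interval_cases i
    · simp [γ.cc]
    · rw [map_sub, coeff_one_X, sub_eq_zero]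
      exact h1
  | succ n ih =>
    have h2 := pow_near (γ ^ p ^ n) (mem_strict.1 (pow_mem (mem_strict.2 h1) _)) ih p
    have h3 : (p : B⟦X⟧) = 0 := by rw [← map_natCast (C : B →+* B⟦X⟧), hp, map_zero]
    rwa [h3, zero_mul, sub_zero, ← pow_mul, ← pow_succ] at h2

theorem map_near {A : Type*} [CommRing A] (φ : A →+* B) {N : ℕ} {δ : InvSeries A}
    (h : (X : A⟦X⟧) ^ N ∣ δ.val - X) : (X : B⟦X⟧) ^ N ∣ (InvSeries.map φ δ).val - X := by
  have := map_dvd (PowerSeries.map φ) h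
  rwa [map_pow, map_sub, map_X] at this

end near

section rho

variable {K : Type*} [CommRing K]

/-- right translation by `δ` -/
def rho (δ : InvSeries K) : OInv K →+* OInv K :=
  OInv.lift (OInv.inc K) (OInv.f K * InvSeries.map (OInv.inc K) δ)

theorem rho_inc (δ : InvSeries K) (e : K) : rho δ (OInv.inc K e) = OInv.inc K e :=
  OInv.lift_inc _ _ _

theorem rho_cc (δ : InvSeries K) (n : ℕ) :
    rho δ (OInv.cc K n) = (OInv.f K * InvSeries.map (OInv.inc K) δ).c n :=
  OInv.lift_cc _ _ _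

theorem rho_comp (δ ε : InvSeries K) : (rho δ).comp (rho ε) = rho (δ * ε) := by
  have h : (rho δ).comp (OInv.inc K) = OInv.inc K := OInv.lift_comp_inc _ _
  have h2 : InvSeries.map (rho δ) (OInv.f K) = OInv.f K * InvSeries.map (OInv.inc K) δ :=
    OInv.map_lift_f _ _
  rw [rho.eq_1 ε, OInv.comp_lift, h, map_mul, h2, InvSeries.map_map, h, mul_assoc, ← map_mul]
  rfl

theorem rho_rho (δ ε : InvSeries K) (t : OInv K) : rho δ (rho ε t) = rho (δ * ε) t :=
  RingHom.congr_fun (rho_comp δ ε) t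

theorem rho_one (t : OInv K) : rho 1 t = t := by
  have : rho (1 : InvSeries K) = RingHom.id _ := by
    apply OInv.hom_ext
    · exact (OInv.lift_comp_inc _ _).trans (RingHom.id_comp _).symm
    · rw [rho, OInv.map_lift_f, map_one, mul_one, InvSeries.map_id]
  rw [this]
  rfl

theorem rho_cc_low {N n : ℕ} {δ : InvSeries K} (h : (X : K⟦X⟧) ^ N ∣ δ.val - X)
    (hn : n + 1 < N) : rho δ (OInv.cc K n) = OInv.cc K n := by
  rw [rho_cc, c_mul_low _ _ (map_near _ h) hn, OInv.c_f]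

theorem rho_cc_top {n : ℕ} {δ : InvSeries K} (h : (X : K⟦X⟧) ^ (n + 1) ∣ δ.val - X) :
    rho δ (OInv.cc K n) =
      OInv.cc K n + OInv.cc K 0 * OInv.inc K (coeff (n + 1) (δ.val - X)) := by
  rw [rho_cc, c_mul_top _ _ (map_near _ h), OInv.c_f, OInv.c_f, ← coeff_map, map_sub, map_sub,
    map_X]
  rfl

/-- every function is fixed by the series which are close to the identity -/
theorem exists_fix (t : OInv K) :
    ∃ N, ∀ δ : InvSeries K, (X : K⟦X⟧) ^ N ∣ δ.val - X → rho δ t = t := by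
  have key : ∀ a : MvPolynomial ℕ K, ∃ N, ∀ δ : InvSeries K, (X : K⟦X⟧) ^ N ∣ δ.val - X →
      rho δ (algebraMap _ (OInv K) a) = algebraMap _ (OInv K) a := by
    intro a
    induction a using MvPolynomial.induction_on with
    | C e =>
      refine ⟨0, fun δ _ => ?_⟩
      have := rho_inc δ e
      rwa [OInv.inc_eq] at this
    | add a b ha hb =>
      obtain ⟨N, hN⟩ := ha
      obtain ⟨M, hM⟩ := hb
      refine ⟨max N M, fun δ h => ?_⟩
      rw [map_add, map_add, hN δ ((pow_dvd_pow _ (le_max_left _ _)).trans h),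
        hM δ ((pow_dvd_pow _ (le_max_right _ _)).trans h)]
    | mul_X a n ha =>
      obtain ⟨N, hN⟩ := ha
      refine ⟨max N (n + 2), fun δ h => ?_⟩
      rw [map_mul, map_mul, hN δ ((pow_dvd_pow _ (le_max_left _ _)).trans h)]
      congr 1
      exact rho_cc_low h (lt_of_lt_of_le (Nat.lt_succ_self _) (le_max_right _ _))
  obtain ⟨k, a, ha⟩ := IsLocalization.Away.surj (MvPolynomial.X 0 : MvPolynomial ℕ K) t
  obtain ⟨N, hN⟩ := key a
  refine ⟨max N 2, fun δ h => ?_⟩
  have h0 : rho δ (OInv.cc K 0) = OInv.cc K 0 :=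
    rho_cc_low h (lt_of_lt_of_le (Nat.lt_succ_self _) (le_max_right _ _))
  change t * OInv.cc K 0 ^ k = _ at ha
  have h1 := hN δ ((pow_dvd_pow _ (le_max_left _ _)).trans h)
  rw [← ha, map_mul, map_pow, h0] at h1
  exact (OInv.isUnit_cc.pow k).mul_right_cancel h1

theorem rho_tele (γ : InvSeries K) (m : ℕ) (z : OInv K) :
    rho γ (∑ i ∈ Finset.range m, rho (γ ^ i) z) - ∑ i ∈ Finset.range m, rho (γ ^ i) z =
      rho (γ ^ m) z - z := by
  rw [map_sum, ← Finset.sum_sub_distrib]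
  simp only [rho_rho, ← pow_succ']
  rw [Finset.sum_range_sub (fun i => rho (γ ^ i) z), pow_zero, rho_one]

end rho

/-- a series `δ ≠ x` with linear coefficient one moves some function by one -/
theorem exists_shift {K : Type*} [Field K] {δ : InvSeries K} (h2 : (X : K⟦X⟧) ^ 2 ∣ δ.val - X)
    (hδ : δ ≠ 1) : ∃ s : OInv K, rho δ s = s + 1 := by
  classical
  have hex : ∃ n, coeff n (δ.val - X) ≠ 0 := by
    by_contra hc
    push Not at hc
    apply hδ
    ext1
    rw [InvSeries.one_val, ← sub_eq_zero]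
    ext n
    rw [hc n, map_zero]
  have hw := Nat.find_spec hex
  have hd : (X : K⟦X⟧) ^ Nat.find hex ∣ δ.val - X :=
    X_pow_dvd_iff.2 fun i hi => not_not.1 (Nat.find_min hex hi)
  have hN : 2 ≤ Nat.find hex := by
    by_contra hc
    exact hw (X_pow_dvd_iff.1 h2 _ (not_le.1 hc))
  obtain ⟨n, hn⟩ : ∃ n, Nat.find hex = n + 1 := ⟨Nat.find hex - 1, by omega⟩
  rw [hn] at hw hd
  obtain ⟨u, hu⟩ := (OInv.isUnit_cc (E := K)).exists_right_inv
  have h0 : rho δ (OInv.cc K 0) = OInv.cc K 0 := rho_cc_low h2 (Nat.lt_succ_self _)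
  have hu' : rho δ u = u := by
    have h3 := congrArg (rho δ) hu
    rw [map_mul, h0, map_one] at h3
    exact OInv.isUnit_cc.mul_left_cancel (h3.trans hu.symm)
  refine ⟨OInv.cc K n * u * OInv.inc K (coeff (n + 1) (δ.val - X))⁻¹, ?_⟩
  have h4 : OInv.inc K (coeff (n + 1) (δ.val - X)) * OInv.inc K (coeff (n + 1) (δ.val - X))⁻¹ = 1 := by
    rw [← map_mul, mul_inv_cancel₀ hw, map_one]
  rw [map_mul, map_mul, hu', rho_inc, rho_cc_top hd]
  linear_combination (OInv.cc K 0 * u) * h4 + hu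

/-- `rho γ - 1` is onto if `γ` is strict and of infinite order -/
theorem rho_onto {K : Type*} [Field K] {p : ℕ} (hp : (p : K) = 0) (γ : InvSeries K)
    (h1 : γ.c 0 = 1) (hinf : ∀ n, γ ^ p ^ n ≠ 1) (t : OInv K) : ∃ s, rho γ s - s = t := by
  obtain ⟨N, hN⟩ := exists_fix t
  have h := pow_pow_near hp γ h1 N
  obtain ⟨s, hs⟩ := exists_shift ((pow_dvd_pow _ (Nat.le_add_left 2 N)).trans h) (hinf N)
  refine ⟨∑ i ∈ Finset.range (p ^ N), rho (γ ^ i) (s * t), ?_⟩
  rw [rho_tele, map_mul, hs, hN _ ((pow_dvd_pow _ (Nat.le_add_right N 2)).trans h)]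
  ring

/-- the multiplication series of a Honda law do not vanish -/
theorem honda_natCast_ne_zero {k : Type*} [Field k] {p h : ℕ} [hp : Fact p.Prime] [CharP k p]
    {H : FormalGroup k} [H.IsComm] (hH : HondaOver p h H) {m : ℕ} (hm : m ≠ 0) :
    (m : EndF H) ≠ 0 := by
  obtain ⟨a, e, he, rfl⟩ := Nat.exists_eq_pow_mul_and_not_dvd hm p hp.out.ne_one
  have h1 : ∀ a : ℕ, (((p : ℕ) : EndF H) ^ a).val = X ^ (p ^ h) ^ a := by
    intro a
    induction a with
    | zero => simp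
    | succ a ih =>
      have hs : HasSubst ((X : k⟦X⟧) ^ p ^ h) := HasSubst.X_pow (pow_ne_zero _ hp.out.ne_zero)
      rw [pow_succ, EndF.val_mul, ih, EndF.val_natCast, hH.mult, subst_pow hs, subst_X hs,
        ← pow_mul, pow_succ']
  intro h0
  have h2 := congrArg EndF.val h0
  rw [Nat.cast_mul, Nat.cast_pow, EndF.val_mul, h1, subst_pow (EndF.hasSubst _),
    subst_X (EndF.hasSubst _), EndF.val_zero] at h2
  have h3 : ((e : ℕ) : EndF H).val = 0 := pow_eq_zero_iff (pow_ne_zero _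
    (pow_ne_zero _ hp.out.ne_zero)) |>.1 h2
  have h4 := coeff_one_multSeries (F := H) e
  rw [← EndF.val_natCast, h3, map_zero] at h4
  exact he ((CharP.cast_eq_zero_iff k p e).1 h4.symm)

/-- the series `[1 + p]` of a Honda law has infinite order -/
theorem honda_pow_ne_one {k : Type*} [Field k] {p h : ℕ} [hp : Fact p.Prime] [CharP k p]
    {H : FormalGroup k} [H.IsComm] (hH : HondaOver p h H) {γ : InvSeries k}
    (hγ : γ.val = multSeries H (1 + p)) {m : ℕ} (hm : m ≠ 0) : γ ^ m ≠ 1 := by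
  have h1 : ∀ j : ℕ, (γ ^ j).val = (((1 + p : ℕ) : EndF H) ^ j).val := by
    intro j
    induction j with
    | zero => simp
    | succ j ih => rw [pow_succ, pow_succ, InvSeries.mul_val, EndF.val_mul, ih, hγ, EndF.val_natCast]
  intro h0
  have h2 : ((1 + p : ℕ) : EndF H) ^ m = 1 := by
    apply EndF.ext
    rw [← h1, h0]
    rfl
  have h3 : 1 < (1 + p) ^ m := Nat.one_lt_pow hm (by have := hp.out.pos; omega)
  refine honda_natCast_ne_zero hH (m := (1 + p) ^ m - 1) (by omega) ?_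
  rw [Nat.cast_sub h3.le, Nat.cast_pow, h2, Nat.cast_one, sub_self]

variable {p : ℕ} [hp : Fact p.Prime] {F : Type} [Field F] [CharP F p]

theorem rhoK_eq (γ : InvSeries F⟦X⟧) :
    rhoK γ = rho (InvSeries.map (algebraMap F⟦X⟧ (KK F)) γ) := by
  rw [rhoK, rho, InvSeries.map_map]

/-- `rhoK γ - 1` is onto for the series `γ = [1 + p]` -/
theorem rhoK_onto' (hF : Nat.card F = p ^ 2) {γ : InvSeries F⟦X⟧}
    (hγ : γ.val = multSeries (Qt.FO p F).toFG (1 + p)) (t : OInv (KK F)) :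
    ∃ s, rhoK γ s - s = t := by
  have hpO : ((p : ℕ) : F⟦X⟧) = 0 := by
    rw [← map_natCast (C : F →+* F⟦X⟧), CharP.cast_eq_zero, map_zero]
  rw [rhoK_eq]
  refine rho_onto (p := p) ?_ _ ?_ (fun n h0 => ?_) t
  · rw [← map_natCast (algebraMap F⟦X⟧ (KK F)), hpO, map_zero]
  · rw [InvSeries.c_map, InvSeries.c, hγ, zero_add, coeff_one_multSeries, Nat.cast_add, hpO,
      Nat.cast_one, add_zero, map_one]
  · have h1 : γ ^ p ^ n = 1 := by
      apply InvSeries.ext_c
      intro j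
      apply IsFractionRing.injective F⟦X⟧ (KK F)
      rw [← InvSeries.c_map, ← InvSeries.c_map, map_pow, h0, map_one]
    refine honda_pow_ne_one (Qt.honda hF) (γ := InvSeries.map (constantCoeff (R := F)) γ) ?_
      (pow_ne_zero n hp.out.ne_zero) ?_
    · rw [InvSeries.map_val, hγ, map_multSeries, ← Law.map_toFG, Qt.FO_red]
    · rw [← map_pow, h1, map_one]

/-- Row HT1b: the last part of `RowHT1`. -/
theorem rhoK_onto {G G' : Type} [Group G] [ProG G] [MulSemiringAction G F⟦X⟧]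
    [MulSemiringAction G (KK F)] [Group G'] [ProG G'] [MulSemiringAction G' (KK F)]
    (B : BG p F G G') : ∀ t, ∃ s, rhoK (B.emb B.ψ).γ s - s = t :=
  rhoK_onto' B.card B.ψ_γ

end Vale.Agent.P221X.TC
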