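import Vale.Agent.P221X.TC.Defs

/-!
# P221X, row QUO: the algebra

The idempotent `eps` of `μ_{p-1}` in the measures on `G`; the measures on `G'` are its image.
-/

open PowerSeries

set_option linter.unusedSectionVars false

noncomputable section

namespace Vale.Agent.P221X.TC

open Vale.Agent.P251.F Vale.Agent.P217 ProG

theorem end_mul {A : Type} [AddCommGroup A] (f g : AddMonoid.End A) (x : A) :
    (f * g) x = f (g x) := rfl

/-- extension of an invariant map to the localisation -/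
theorem loc_ext {A L K : Type} [AddCommGroup A] [AddCommGroup L] [AddCommGroup K]
    (v : AddMonoid.End A) (w : AddMonoid.End L) (u : A →+ L) (hu : ∀ x, u (v x) = w (u x))
    (surj : ∀ y, ∃ (n : ℕ) (x : A), (w ^ n) y = u x)
    (ker : ∀ x, u x = 0 → ∃ n : ℕ, (v ^ n) x = 0) (Ψ : A →+ K) (hΨ : ∀ x, Ψ (v x) = Ψ x) :
    ∃ Ψ' : L →+ K, ∀ (n : ℕ) x y, (w ^ n) y = u x → Ψ' y = Ψ x := by
  have h1 : ∀ (n : ℕ) x, u ((v ^ n) x) = (w ^ n) (u x) := fun n x => by
    induction n with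
    | zero => rfl
    | succ n ih => rw [pow_succ', pow_succ', end_mul, hu, ih]; rfl
  have h2 : ∀ (n : ℕ) x, Ψ ((v ^ n) x) = Ψ x := fun n x => by
    induction n with
    | zero => rfl
    | succ n ih => rw [pow_succ', end_mul, hΨ, ih]
  have h3 : ∀ (n m : ℕ) x x' y, (w ^ n) y = u x → (w ^ m) y = u x' → Ψ x = Ψ x' :=
    fun n m x x' y a b => by
      obtain ⟨l, c⟩ := ker ((v ^ m) x - (v ^ n) x') (by
        rw [map_sub, h1, h1, ← a, ← b, ← end_mul, ← end_mul,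
          ← pow_add, ← pow_add, add_comm, sub_self])
      have := h2 l ((v ^ m) x - (v ^ n) x')
      rwa [c, map_zero, map_sub, h2, h2, eq_comm, sub_eq_zero] at this
  choose n x hx using surj
  refine ⟨AddMonoidHom.mk' (fun y => Ψ (x y)) fun y y' => ?_, fun m x' y a => h3 _ _ _ _ _ (hx y) a⟩
  rw [← h2 (n y') (x y), ← h2 (n y) (x y'), ← map_add]
  refine h3 _ (n y' + n y) _ _ _ (hx _) ?_
  rw [map_add, map_add, h1, h1, ← hx, ← hx, ← end_mul, ← end_mul,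
    ← pow_add, ← pow_add, add_comm (n y)]

variable {p : ℕ} [hp : Fact p.Prime] {F : Type} [Field F] [CharP F p] {G G' : Type} [Group G]
  [ProG G] [MulSemiringAction G F⟦X⟧] [MulSemiringAction G (KK F)] [ActK G F] [Group G'] [ProG G']
  [MulSemiringAction G' F⟦X⟧] [MulSemiringAction G' (KK F)] [ActK G' F]

variable (p F) in
theorem p_O : (p : F⟦X⟧) = 0 := by
  rw [← map_natCast (C (R := F)), CharP.cast_eq_zero, map_zero]

variable (p F G) in
theorem p_MG : (p : MG G F) = 0 := by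
  rw [← map_natCast (Meas.ofO G (KO F)), p_O, map_zero]

/-- the sum of a constant over the units -/
theorem neg_sum_const {A : Type} [AddCommGroup A] {x : A} (h : p • x = 0) :
    -∑ _ζ : (ZMod p)ˣ, x = x := by
  rw [Finset.sum_const, Finset.card_univ, ZMod.card_units, neg_eq_iff_add_eq_zero, ← succ_nsmul,
    Nat.sub_add_cancel hp.out.one_le, h]

theorem p_smul {A : Type} [AddCommGroup A] [Module F⟦X⟧ A] (x : A) : p • x = 0 := by
  rw [← Nat.cast_smul_eq_nsmul F⟦X⟧, p_O p F, zero_smul]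

namespace BG

variable (B : BG p F G G')

/-- the Dirac measure of a root of unity -/
abbrev dc (ζ : (ZMod p)ˣ) : MG G F := Meas.ofG F⟦X⟧ (KO F) (B.c ζ)

/-- the idempotent -/
def eps : MG G F := -∑ ζ, B.dc ζ

theorem π_c (ζ : (ZMod p)ˣ) : B.π (B.c ζ) = 1 := (B.ker _).2 ⟨ζ, rfl⟩

theorem c_K (ζ : (ZMod p)ˣ) (z : KK F) : B.c ζ • z = z := by rw [← B.π_K, π_c, one_smul]

theorem c_O (ζ : (ZMod p)ˣ) (f : F⟦X⟧) : B.c ζ • f = f := by rw [B.emb_O, B.c_φ]; rfl

theorem c_KO (ζ : (ZMod p)ˣ) (x : KO F) : B.c ζ • x = x := by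
  obtain ⟨z, rfl⟩ := KO.mk_surj x
  rw [KO.gsmul_mk, c_K]

theorem mul_dc (ζ : (ZMod p)ˣ) (μ : MG G F) (f : LC G (KO F)) :
    (μ * B.dc ζ) f = μ (B.c ζ⁻¹ • f) :=
  Meas.mul_ofG_apply _ _ _ _ fun a => by
    rw [LC.gsmul_apply, c_KO, ← map_inv, inv_inv, B.c_comm]

theorem dc_comm (ζ : (ZMod p)ˣ) (μ : MG G F) : B.dc ζ * μ = μ * B.dc ζ := Meas.ext fun f => by
  rw [mul_dc, Meas.ofG_mul_apply, c_KO, map_inv]

theorem eps_comm (μ : MG G F) : B.eps * μ = μ * B.eps := by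
  simp only [eps, neg_mul, mul_neg, Finset.sum_mul, Finset.mul_sum, dc_comm]

theorem dc_eps (ζ : (ZMod p)ˣ) : B.dc ζ * B.eps = B.eps := by
  simp only [eps, mul_neg, Finset.mul_sum, ← map_mul]
  exact congrArg _ (Equiv.sum_comp (Equiv.mulLeft ζ) B.dc)

theorem eps_mul {μ : MG G F} (h : ∀ ζ, B.dc ζ * μ = μ) : B.eps * μ = μ := by
  simp only [eps, neg_mul, Finset.sum_mul, h]
  exact neg_sum_const (by rw [nsmul_eq_mul, p_MG, zero_mul])

theorem eps_eps : B.eps * B.eps = B.eps := B.eps_mul B.dc_eps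

/-- the push forward of the measures -/
def pf : MG G F →+* MG G' F :=
  Meas.map B.π_cont (Meas.smul_KO fun g z => (B.π_K g z).symm)

theorem pf_g (g : G) : B.pf (Meas.ofG F⟦X⟧ (KO F) g) = Meas.ofG F⟦X⟧ (KO F) (B.π g) := rfl

theorem pf_o (f : F⟦X⟧) : B.pf (Meas.ofO G (KO F) f) = Meas.ofO G' (KO F) f := Meas.map_ofO _ _ f

theorem actK_pf (μ : MG G F) (z : KK F) : Meas.actK (B.pf μ) z = Meas.actK μ z :=
  Meas.actK_map _ (fun g z => (B.π_K g z).symm) μ z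

theorem pf_eps : B.pf B.eps = 1 := by
  simp only [eps, map_neg, map_sum, pf_g, π_c, map_one]
  exact neg_sum_const (by rw [nsmul_eq_mul, p_MG, zero_mul])

theorem sum_eq (f : LC G (KO F)) {g g' : G} (h : B.π g = B.π g') :
    ∑ ζ, f (g * B.c ζ) = ∑ ζ, f (g' * B.c ζ) := by
  obtain ⟨ξ, e⟩ := (B.ker (g⁻¹ * g')).1 (by rw [map_mul, map_inv, h, inv_mul_cancel])
  rw [← Equiv.sum_comp (Equiv.mulLeft ξ)]
  simp only [Equiv.coe_mulLeft, map_mul, e, ← mul_assoc, mul_inv_cancel, one_mul]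

/-- the average over the fibres -/
def avg : LC G (KO F) →ₗ[F⟦X⟧] LC G' (KO F) where
  toFun f := LC.mk (fun g => -∑ ζ, f (Function.surjInv B.π_surj g * B.c ζ)) (by
    obtain ⟨i, hi⟩ := f.inv
    refine (B.π_open i).imp fun j hj g n hn => ?_
    obtain ⟨m, hm, rfl⟩ := hj n hn
    rw [B.sum_eq f (g' := Function.surjInv B.π_surj g * m) (by
      simp only [map_mul, Function.surjInv_eq])]
    refine congrArg _ (Finset.sum_congr rfl fun ζ _ => ?_)
    rw [mul_assoc, ← B.c_comm, ← mul_assoc, hi _ _ hm])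
  map_add' f f' := LC.ext fun g => by
    simp only [LC.mk_apply, LC.add_apply, Finset.sum_add_distrib, neg_add]
  map_smul' c f := LC.ext fun g => by
    simp only [LC.mk_apply, LC.smul_apply, RingHom.id_apply, smul_neg, Finset.smul_sum]

theorem avg_π (f : LC G (KO F)) (g : G) : B.avg f (B.π g) = -∑ ζ, f (g * B.c ζ) :=
  congrArg _ (B.sum_eq f (Function.surjInv_eq _ _))

theorem pf_surj : Function.Surjective B.pf := fun ν =>
  ⟨Meas.lin.symm ((Meas.lin ν).comp B.avg), Meas.ext fun f => congrArg ν (LC.ext fun g => by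
    obtain ⟨g, rfl⟩ := B.π_surj g
    rw [avg_π]
    simp only [LC.res_apply, map_mul, π_c, mul_one]
    exact neg_sum_const (p_smul (F := F) _))⟩

theorem pf_ker {μ : MG G F} (h : B.pf μ = 0) : μ * B.eps = 0 := Meas.ext fun f => by
  simp only [eps, mul_neg, Finset.mul_sum, Meas.neg_apply, Meas.sum_apply, mul_dc]
  rw [← map_sum, ← map_neg]
  refine Eq.trans (congrArg μ (LC.ext fun g => ?_)) (DFunLike.congr_fun h (B.avg f))
  simp only [LC.neg_apply, LC.sum_apply, LC.gsmul_apply, c_KO, LC.res_apply, avg_π]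
  simp only [map_inv, inv_inv, B.c_comm]

theorem a_ψ : B.a B.ψ = 1 := Units.ext (by
  change coeff 1 (B.emb B.ψ).γ.val = 1
  rw [B.ψ_γ, coeff_one_multSeries, Nat.cast_add, p_O p F, Nat.cast_one, add_zero])

theorem a_c (ζ : (ZMod p)ˣ) (j : ℤ) : ((B.a (B.c ζ) ^ j : F⟦X⟧ˣ) : F⟦X⟧) =
    C (ZMod.castHom (dvd_refl p) F ((ζ ^ j : (ZMod p)ˣ) : ZMod p)) := by
  rw [BG.a, B.c_γ, InvSeries.lead_lin, ← map_zpow]
  rfl

theorem a_c_of_dvd (ζ : (ZMod p)ˣ) {j : ℤ} (h : (p : ℤ) - 1 ∣ j) : B.a (B.c ζ) ^ j = 1 := by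
  obtain ⟨a, rfl⟩ := h
  have e : ζ ^ ((p : ℤ) - 1) = 1 := by
    rw [← ZMod.units_pow_card_sub_one_eq_one p ζ, ← zpow_natCast, Nat.cast_pred hp.out.pos]
  exact Units.ext (by rw [a_c, zpow_mul, e, one_zpow, Units.val_one, map_one, map_one]; rfl)

theorem exists_unit {j : ℤ} (h : ¬ (p : ℤ) - 1 ∣ j) :
    ∃ ζ, IsUnit (((B.a (B.c ζ) ^ j : F⟦X⟧ˣ) : F⟦X⟧) - 1) := by
  obtain ⟨ζ, e⟩ := IsCyclic.exists_ofOrder_eq_natCard (α := (ZMod p)ˣ)
  refine ⟨ζ, ?_⟩
  rw [a_c, ← map_one C, ← map_sub, ← map_one (ZMod.castHom (dvd_refl p) F), ← map_sub]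
  refine ((sub_ne_zero.2 fun r => h ?_).isUnit.map _).map _
  rw [← Nat.cast_pred hp.out.pos, ← ZMod.card_units, ← Nat.card_eq_fintype_card, ← e,
    orderOf_dvd_iff_zpow_eq_one]
  exact Units.ext r

end BG

end Vale.Agent.P221X.TC
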