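import Vale.Agent.P221X.TC.VN

/-!
# P221X, block TOP-C: the structure `ED` from the rows
-/

open CategoryTheory MonoidalCategory Limits Pretriangulated PowerSeries

set_option linter.unusedSectionVars false

universe u

noncomputable section

namespace Vale.Agent.P221X.TC

open Vale.Agent.P251 Vale.Agent.P251.T Vale.Agent.P251.M Vale.Agent.P251.S Vale.Agent.P251.F
  Vale.Agent.P251.I Vale.Agent.P251.X Vale.Agent.P251.Z Vale.Agent.P217
open Vale.Agent.P251.M.EvenSpheres ProG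

variable {T : Type u} [Category.{0} T] [Preadditive T] [HasZeroObject T] [HasShift T ℤ]
  [∀ n : ℤ, (shiftFunctor T n).Additive] [Pretriangulated T] [IsTriangulated T]
  [MonoidalCategory T] [SymmetricCategory T] [TensorTriangulated T] [MonoidalClosed T]
  [HasCoproducts.{0} T] [HasProducts.{0} T] [StableCat T]
  {D : MUData T} {p : ℕ} [Fact p.Prime] {F : Type} [Field F]
  [CharP F p] {G G' : Type} [Group G] [ProG G] [MulSemiringAction G F⟦X⟧]
  [MulSemiringAction G (KK F)] [ActK G F] [Group G'] [ProG G'] [MulSemiringAction G' F⟦X⟧]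
  [MulSemiringAction G' (KK F)] [ActK G' F] {S : TS D p F} {B : BG p F G G'}

namespace ToED

/-- precomposition with an isomorphism -/
def pre {A A' : T} (e : A ≅ A') (Y : T) : (A' ⟶ Y) ≃+ (A ⟶ Y) where
  toFun x := e.hom ≫ x
  invFun x := e.inv ≫ x
  left_inv x := e.inv_hom_id_assoc x
  right_inv x := e.hom_inv_id_assoc x
  map_add' _ _ := Preadditive.comp_add _ _ _ _ _ _

variable (T p) in
/-- `S^{2 (p - 1) a}` -/
def sq (a : ℤ) : Se T (((p : ℤ) - 1) * a) ≅ Sph T ((2 * p - 2 : ℤ) * a) :=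
  P257.H314.sI T _ ≪≫ eqToIso (congrArg (Sph T) (by ring))

theorem mem_ge_iff (a : ℤ) (z : KK F) :
    z ∈ KK.ge (-a) ↔ ∃ f : F⟦X⟧, KK.uz (-a) * algebraMap F⟦X⟧ (KK F) f = z := by
  constructor
  · intro hz
    have h1 : KK.uz a * z ∈ KK.ge 0 := by
      have h2 := (KO.uz_mul_mem (n := a) (k := -a) (z := z)).2 hz
      rwa [neg_add_cancel] at h2
    refine ⟨PowerSeries.mk fun n => KK.cf n (KK.uz a * z), ?_⟩
    have h3 : algebraMap F⟦X⟧ (KK F) (PowerSeries.mk fun n => KK.cf n (KK.uz a * z)) =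
        KK.uz a * z := by
      ext n
      rcases lt_or_ge n 0 with h | h
      · rw [KK.cf_algebraMap_neg _ h, h1 n h]
      · obtain ⟨m, rfl⟩ := Int.eq_ofNat_of_zero_le h
        rw [KK.cf_algebraMap, coeff_mk]
    rw [h3, ← mul_assoc, ← KK.uz_add, neg_add_cancel, KK.uz_zero, one_mul]
  · rintro ⟨f, rfl⟩
    have h := KK.mul_mem_ge (KK.uz_mem_ge (F := F) (-a)) (KK.algebraMap_mem_ge f)
    rwa [add_zero] at h

theorem alg_eq_zero {a : ℤ} {f : F⟦X⟧} (h : KK.uz a * algebraMap F⟦X⟧ (KK F) f = 0) : f = 0 := by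
  have h1 : algebraMap F⟦X⟧ (KK F) f = 0 := by
    rw [← one_mul (algebraMap F⟦X⟧ (KK F) f), ← KK.uz_zero, ← neg_add_cancel a, KK.uz_add,
      mul_assoc, h, mul_zero]
  ext n
  rw [← KK.cf_algebraMap, h1, map_zero, map_zero]

theorem zero_retract {A A' : T} (i : A ⟶ A') (r : A' ⟶ A) (h : i ≫ r = 𝟙 A) {V : T}
    (h0 : IsZero (A' ⊗ V)) : IsZero (A ⊗ V) := by
  rw [IsZero.iff_id_eq_zero, ← id_whiskerRight, ← h, comp_whiskerRight,
    h0.eq_of_src (r ▷ V) 0, comp_zero]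

end ToED

open ToED

/-- **The structure `ED`.** -/
def toED {Dg : GD p F} {R : Type} [Ring R] [Algebra F R] {Sr : RD Dg R} {Rf : Type} [Ring Rf]
    (A₀ : RA Sr Rf (MG G' F)) (h1 : A₀.act = Meas.actK)
    (h2 : A₀.inc A₀.tt = Meas.ofG F⟦X⟧ (KO F) (B.π B.ψ) - 1) (hL : LocF S) {X : E2 S B}
    (Y : E1 X) {b : T} (Q : EtaD Y b) (J : JD Y) : ED A₀ (2 * p - 2) b S.W.V2 where
  M := S.W.M
  iM := S.W.iM
  δM := S.W.δM
  distM := S.W.distM
  Kh := S.Kh
  Ke := S.Ke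
  Lh := S.Lh
  Le := S.Le
  bdd := hL.bdd
  E := Y.E
  lam := Y.lam
  lam_bij := Y.lam_bij
  pE := by
    rw [← Y.i_r, ← Category.id_comp Y.r, ← Preadditive.comp_zsmul, ← Preadditive.zsmul_comp, X.pE,
      zero_comp, comp_zero]
  van := Y.van
  per := Y.per
  per_tt := by rw [h2]; exact Y.per_tt
  β := Y.β
  β_comm := Y.β_comm
  β_bij := Y.β_bij
  E_loc W hW f := by
    rw [← Category.comp_id f, ← Y.i_r, ← Category.assoc, X.loc hW (f ≫ Y.i), zero_comp]
  LeE_acyc := hL.acyc1 _ (hL.zero1 _)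
  iE := Q.iE
  rE := Q.rE
  iE_rE := Q.iE_rE
  lat := Q.lat
  kV a := (pre (sq T p a) _).trans (Y.ke a)
  kV_lam a x r := by
    rw [h1]
    exact (congrArg (Y.ke a) (Category.assoc _ _ _).symm).trans (Y.ke_lam a _ r)
  πE_van := Y.πE_van
  πV_van := Y.πV_van
  πE_inj a x hx := by
    have h3 := Y.ke_u a ((sq T p a).hom ≫ x)
    rw [Category.assoc, ← LocFunctor.unit_app, hx, comp_zero, map_zero] at h3
    have h4 := (map_eq_zero_iff _ (X.pe _).injective).1 (alg_eq_zero h3.symm)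
    have h5 : (sq T p a).hom ≫ x = 0 := (Y.pi_i a).1 (h4.trans zero_comp.symm)
    rw [← cancel_epi (sq T p a).hom, h5, comp_zero]
  πE_range a z := by
    rw [mem_ge_iff]
    constructor
    · rintro ⟨f, rfl⟩
      obtain ⟨y, rfl⟩ := (X.pe (((p : ℤ) - 1) * a)).surjective f
      obtain ⟨x, rfl⟩ := (Y.pi_i a).2 y
      refine ⟨(sq T p a).inv ≫ x, Eq.trans (congrArg (Y.ke a) ?_) (Y.ke_u a x)⟩
      change (sq T p a).hom ≫ ((sq T p a).inv ≫ x) ≫ S.Le.u Y.E = _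
      rw [Category.assoc, Iso.hom_inv_id_assoc]
    · rintro ⟨x, rfl⟩
      exact ⟨_, (Y.ke_u a ((sq T p a).hom ≫ x)).symm.trans
        (congrArg (Y.ke a) (Category.assoc _ _ _))⟩
  β_M := Y.β_M
  E_V := zero_retract Y.i Y.r Y.i_r X.v2_iso
  LeE_V := S.W.zero2_of_zero1 (hL.zero1 _)
  A := J.A
  iA := J.iA
  dA := J.dA
  distA := by rw [h2]; exact J.distA
  J := S.Le.L.obj (S.W.M⟦(1 : ℤ)⟧)
  ιJ := S.Le.u _
  ιJ_eq := S.Le.keq _
  pJ := by
    have h3 : (p : ℤ) • 𝟙 (S.W.M⟦(1 : ℤ)⟧) = 0 := by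
      rw [← CategoryTheory.Functor.map_id, ← Functor.map_zsmul, Vn.p_M, Functor.map_zero]
    rw [← CategoryTheory.Functor.map_id, ← Functor.map_zsmul, h3, Functor.map_zero]
  J_loc := J.J_loc
  J_acyc := hL.acyc1 _ (hL.zero1 _)
  J_V := S.W.zero2_of_zero1 (hL.zero1 _)
  πJ_van := J.πJ_van
  πJ_gen := J.πJ_gen

end Vale.Agent.P221X.TC
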