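import Vale.Agent.P221X.TC.ToED
import Vale.Agent.P221X.TC.Lam
import Vale.Agent.P221X.TC.BG
import Vale.Agent.P221X.TC.BD
import Vale.Agent.P221X.TC.Loc
import Vale.Agent.P221X.TC.Eta
import Vale.Agent.P221X.TC.JD
import Vale.Agent.P221X.EV.Row
import Vale.Agent.P221X.Meas.RA
import Mathlib.FieldTheory.Finite.GaloisField

/-!
# P221X, block TOP-C: the row `RowTOPC` from the rows E2, QUO, HT1, HTOP
-/

open CategoryTheory MonoidalCategory Limits Pretriangulated PowerSeries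

set_option linter.unusedSectionVars false

noncomputable section

namespace Vale.Agent.P221X.TC

open Vale.Agent.P251 Vale.Agent.P251.T Vale.Agent.P251.I Vale.Agent.P251.St
  Vale.Agent.P251.St.SHCat

variable {T : SHCat} {Su : Susp T} {p : ℕ} [hp : Fact p.Prime]

/-- **Row TOP-C** from the remaining rows. -/
theorem rowTOPC_of' (h5 : 5 ≤ p) {F : Type} [Field F] [CharP F p] (hF : Nat.card F = p ^ 2)
    (hE : ∀ (D : MUData T.C) (S : TS D p F), RowE2 S (Qt.bg0 hF))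
    (hQ : ∀ (D : MUData T.C) (S : TS D p F), RowQUO S (Qt.bg0 hF))
    (hT : ∀ (D : MUData T.C) (S : TS D p F), RowHTOP S (Qt.bg0 hF))
    (h1 : RowHT1 (Qt.bg0 hF)) : Fin.RowTOPC Su p := by
  intro D hD hA U W P o φ C a q hP hq
  have : Finite F := Nat.finite_of_card_ne_zero (hF ▸ pow_ne_zero 2 hp.out.ne_zero)
  obtain ⟨S, rfl⟩ := rowTS (D := D) (p := p) (F := F) h5 inferInstance W
  have hL := locF S
  obtain ⟨β⟩ := rowBD hD hA U S hP hq
  obtain ⟨X, ⟨κ⟩⟩ := hE D S ⟨_, _, hD, .of_odd D (by omega), hL, hF⟩ (EV.rowPTS _)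
  obtain ⟨Y⟩ := hQ D S hL X
  obtain ⟨Q⟩ := rowETA S _ hL X Y _ β
  obtain ⟨J⟩ := rowJD S _ hL (Qt.schur0 hF h5) X Y (hT D S hL h1 X Y κ)
  obtain ⟨R, _, _, Sr, A₀, e1, e2⟩ := (Qt.gx0 (Qt.keat hF) h5).exists_ra h5
  have e3 := e2.trans (congrArg (fun g => Meas.ofG (PowerSeries F) (KO F) g - 1)
    (Qt.bg0_ψ (Qt.keat hF) h5).symm)
  refine ⟨F, inferInstance, inferInstance, inferInstance, _, R, inferInstance,
    inferInstance, Sr, _, _, inferInstance, inferInstance, A₀, ?_, Qt.gdx0 (Qt.keat hF) h5,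
    ⟨toED A₀ e1 e3 hL Y Q J⟩⟩
  rw [hF]
  nlinarith

/-- **Row TOP-C** from the remaining rows, for all fields. -/
theorem rowTOPC_of (h5 : 5 ≤ p)
    (h : ∀ (F : Type) [Field F] [CharP F p] (hF : Nat.card F = p ^ 2),
      (∀ (D : MUData T.C) (S : TS D p F), RowE2 S (Qt.bg0 hF) ∧ RowQUO S (Qt.bg0 hF) ∧
        RowHTOP S (Qt.bg0 hF)) ∧ RowHT1 (Qt.bg0 hF)) : Fin.RowTOPC Su p := by
  have hF : Nat.card (GaloisField p 2) = p ^ 2 := GaloisField.card p 2 two_ne_zero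
  obtain ⟨h1, h2⟩ := h _ hF
  exact rowTOPC_of' h5 hF (fun D S => (h1 D S).1) (fun D S => (h1 D S).2.1)
    (fun D S => (h1 D S).2.2) h2

end Vale.Agent.P221X.TC
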